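import Mathlib

/-!
One-sided intertwining: an embedding that can be moved onto the whole algebra by unitaries which
almost commute with its image is approximately unitarily equivalent to an isomorphism.
-/

open Filter Topology

namespace Vale.Agent.P101

variable {A B : Type*} [CStarAlgebra A] [CStarAlgebra B]

/-- Almost commuting unitaries move any element close to the range of `α`. -/
def CanIntertwine (α : A →⋆ₐ[ℂ] B) : Prop :=
  ∀ (F : Finset A) (G : Finset B), ∀ ε > (0 : ℝ), ∃ u : unitary B,
    (∀ a ∈ F, ‖(u : B) * α a - α a * u‖ < ε) ∧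
      ∀ b ∈ G, ∃ a : A, ‖(star u : B) * b * u - α a‖ < ε

/-- One-sided intertwining. -/
theorem exists_equiv_of_canIntertwine [TopologicalSpace.SeparableSpace A]
    [TopologicalSpace.SeparableSpace B] (α : A →⋆ₐ[ℂ] B) (hα : ∀ a, ‖α a‖ = ‖a‖)
    (h : CanIntertwine α) : Nonempty (A ≃⋆ₐ[ℂ] B) := by
  classical
  obtain ⟨x, hx⟩ := TopologicalSpace.exists_dense_seq A
  obtain ⟨y, hy⟩ := TopologicalSpace.exists_dense_seq B
  have step : ∀ (n : ℕ) (s : unitary B × Finset A), ∃ s' : unitary B × Finset A,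
      s.2 ⊆ s'.2 ∧ x n ∈ s'.2 ∧
        (∀ a ∈ s.2, ‖(s'.1 : B) * α a * star (s'.1 : B) - (s.1 : B) * α a * star (s.1 : B)‖ ≤
          (1 / 2 : ℝ) ^ n) ∧
        ∀ i ≤ n, ∃ a ∈ s'.2,
          ‖y i - (s'.1 : B) * α a * star (s'.1 : B)‖ ≤ (1 / 2 : ℝ) ^ n := by
    rintro n ⟨v, F⟩
    obtain ⟨u, hu, hG⟩ := h F ((Finset.range (n + 1)).image fun i => star (v : B) * y i * v)
      ((1 / 2 : ℝ) ^ n) (by positivity)
    have hG' : ∀ i : Fin (n + 1), ∃ a : A,
        ‖(star u : B) * (star (v : B) * y i * v) * u - α a‖ < (1 / 2 : ℝ) ^ n := fun i =>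
      hG _ (Finset.mem_image.2 ⟨i, Finset.mem_range.2 i.2, rfl⟩)
    choose a ha using hG'
    refine ⟨⟨v * u, insert (x n) F ∪ Finset.univ.image a⟩,
      fun b hb => Finset.mem_union_left _ (Finset.mem_insert_of_mem hb),
      Finset.mem_union_left _ (Finset.mem_insert_self _ _), fun b hb => ?_, fun i hi => ?_⟩
    · have e : ((v * u : unitary B) : B) * α b * star ((v * u : unitary B) : B) -
          (v : B) * α b * star (v : B) =
            (v : B) * (((u : B) * α b - α b * u) * star (u : B)) * ((star v : unitary B) : B) := by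
        simp only [Submonoid.coe_mul, star_mul, Unitary.coe_star, sub_mul, mul_sub, mul_assoc]
        rw [← mul_assoc (u : B) (star (u : B)), Unitary.mul_star_self_of_mem u.2, one_mul]
      rw [e, CStarRing.norm_mul_coe_unitary, CStarRing.norm_coe_unitary_mul,
        show star (u : B) = ((star u : unitary B) : B) from rfl,
        CStarRing.norm_mul_coe_unitary]
      exact (hu b hb).le
    · refine ⟨a ⟨i, by omega⟩, Finset.mem_union_right _ (Finset.mem_image_of_mem _ (Finset.mem_univ _)), ?_⟩
      have e : y i - ((v * u : unitary B) : B) * α (a ⟨i, by omega⟩) *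
          star ((v * u : unitary B) : B) = ((v * u : unitary B) : B) *
            ((star u : B) * (star (v : B) * y i * v) * u - α (a ⟨i, by omega⟩)) *
              ((star (v * u) : unitary B) : B) := by
        have h1 : ((v * u : unitary B) : B) * ((star (v * u) : unitary B) : B) = 1 :=
          Unitary.mul_star_self_of_mem (v * u).2
        have e1 : (star u : B) * (star (v : B) * y i * v) * u =
            ((star (v * u) : unitary B) : B) * y i * ((v * u : unitary B) : B) := by
          simp [mul_assoc]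
        have e2 : star ((v * u : unitary B) : B) = ((star (v * u) : unitary B) : B) := rfl
        rw [e1, e2, mul_sub, sub_mul, ← mul_assoc, ← mul_assoc, h1, one_mul, mul_assoc (y i), h1,
          mul_one]
      rw [e, CStarRing.norm_mul_coe_unitary, CStarRing.norm_coe_unitary_mul]
      exact (ha ⟨i, by omega⟩).le
  choose next hsub hx' hC hD using step
  obtain ⟨s, hs0, hs⟩ : ∃ s : ℕ → unitary B × Finset A, s 0 = (1, ∅) ∧
      ∀ n, s (n + 1) = next n (s n) := ⟨fun n => Nat.rec (1, ∅) next n, rfl, fun _ => rfl⟩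
  obtain ⟨f, hf⟩ : ∃ f : ℕ → A → B, ∀ n a, f n a =
      ((s n).1 : B) * α a * star ((s n).1 : B) := ⟨_, fun _ _ => rfl⟩
  have hmono : Monotone fun n => (s n).2 :=
    monotone_nat_of_le_succ fun n => by rw [hs]; exact hsub n _
  have hstep : ∀ n, ∀ a ∈ (s n).2, dist (f n a) (f (n + 1) a) ≤ (1 / 2 : ℝ) ^ n := by
    intro n a ha
    rw [dist_comm, dist_eq_norm, hf, hf, hs]
    exact hC n _ a ha
  have hiso : ∀ n a b, dist (f n a) (f n b) = dist a b := by
    intro n a b
    rw [dist_eq_norm, dist_eq_norm, hf, hf,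
      show star ((s n).1 : B) = ((star (s n).1 : unitary B) : B) from rfl, ← sub_mul, ← mul_sub,
      CStarRing.norm_mul_coe_unitary, CStarRing.norm_coe_unitary_mul, ← map_sub, hα]
  have hcauchy : ∀ a, CauchySeq fun n => f n a := by
    intro a
    refine Metric.cauchySeq_iff'.2 fun ε hε => ?_
    obtain ⟨i, hi⟩ := hx.exists_dist_lt a (show (0 : ℝ) < ε / 4 by positivity)
    have hc : CauchySeq fun k => f (k + (i + 1)) (x i) :=
      cauchySeq_of_le_geometric (1 / 2 : ℝ) ((1 / 2 : ℝ) ^ (i + 1)) (by norm_num) fun k => by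
        rw [← pow_add, add_comm (i + 1) k, show k + 1 + (i + 1) = k + (i + 1) + 1 by omega]
        refine hstep _ _ (hmono (show i + 1 ≤ k + (i + 1) by omega) ?_)
        show x i ∈ (s (i + 1)).2
        rw [hs]
        exact hx' i _
    obtain ⟨N, hN⟩ := Metric.cauchySeq_iff'.1 hc (ε / 4) (by positivity)
    refine ⟨N + (i + 1), fun n hn => ?_⟩
    have h2 := hN (n - (i + 1)) (by omega)
    rw [show n - (i + 1) + (i + 1) = n by omega] at h2
    have h3 := dist_triangle4 (f n a) (f n (x i)) (f (N + (i + 1)) (x i)) (f (N + (i + 1)) a)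
    rw [hiso, hiso (N + (i + 1)), dist_comm (x i) a] at h3
    linarith
  choose θ hθ using fun a => cauchySeq_tendsto_of_complete (hcauchy a)
  have hu : ∀ n, star ((s n).1 : B) * (s n).1 = 1 := fun n => Unitary.star_mul_self_of_mem (s n).1.2
  let Θ : A →⋆ₐ[ℂ] B :=
    { toFun := θ
      map_one' := tendsto_nhds_unique (hθ 1) (by simp [hf])
      map_mul' := fun a b => tendsto_nhds_unique (hθ _) (((hθ a).mul (hθ b)).congr fun n => by
        rw [hf, hf, hf, map_mul]
        simp only [mul_assoc]
        rw [← mul_assoc (star ((s n).1 : B)) ((s n).1 : B), hu, one_mul])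
      map_zero' := tendsto_nhds_unique (hθ 0) (by simp [hf])
      map_add' := fun a b => tendsto_nhds_unique (hθ _) (((hθ a).add (hθ b)).congr fun n => by
        simp [hf, mul_add, add_mul])
      commutes' := fun c => tendsto_nhds_unique (hθ _) (by
        simp [hf, Algebra.algebraMap_eq_smul_one, map_smul])
      map_star' := fun a => tendsto_nhds_unique (hθ _) ((hθ a).star.congr fun n => by
        simp [hf, map_star, mul_assoc]) }
  have hΘ : Isometry Θ := Isometry.of_dist_eq fun a b =>
    tendsto_nhds_unique ((hθ a).dist (hθ b)) (by simp [hiso])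
  have hsurj : Function.Surjective Θ := by
    rw [← Set.range_eq_univ, ← hΘ.isClosedEmbedding.isClosed_range.closure_eq,
      ← dense_iff_closure_eq]
    refine fun b => Metric.mem_closure_iff.2 fun ε hε => ?_
    obtain ⟨i, hi⟩ := hy.exists_dist_lt b (show (0 : ℝ) < ε / 2 by positivity)
    obtain ⟨n, hn⟩ := exists_pow_lt_of_lt_one (show (0 : ℝ) < ε / 4 by positivity)
      (show (1 / 2 : ℝ) < 1 by norm_num)
    obtain ⟨a, ha, hb⟩ := hD (n + i) (s (n + i)) i (by omega)
    rw [← hs] at ha hb
    have h1 : dist (y i) (f (n + i + 1) a) ≤ (1 / 2 : ℝ) ^ (n + i) := by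
      rw [dist_eq_norm, hf]; exact hb
    have h2 : dist (f (n + i + 1) a) (θ a) ≤ (1 / 2 : ℝ) ^ (n + i + 1) / (1 - 1 / 2) := by
      have := dist_le_of_le_geometric_of_tendsto₀ (1 / 2 : ℝ) ((1 / 2 : ℝ) ^ (n + i + 1))
        (by norm_num) (fun k => ?_) ((tendsto_add_atTop_iff_nat (n + i + 1)).2 (hθ a))
      · simpa using this
      rw [← pow_add, add_comm (n + i + 1) k,
        show k + 1 + (n + i + 1) = k + (n + i + 1) + 1 by omega]
      exact hstep _ _ (hmono (show n + i + 1 ≤ k + (n + i + 1) by omega) ha)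
    refine ⟨θ a, ⟨a, rfl⟩, ?_⟩
    have hp : (1 / 2 : ℝ) ^ (n + i) ≤ (1 / 2 : ℝ) ^ n :=
      pow_le_pow_of_le_one (by norm_num) (by norm_num) (by omega)
    rw [pow_succ] at h2
    norm_num at h2
    have := dist_triangle4 b (y i) (f (n + i + 1) a) (θ a)
    linarith
  exact ⟨StarAlgEquiv.ofBijective Θ ⟨hΘ.injective, hsurj⟩⟩

end Vale.Agent.P101
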