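import Mathlib.Analysis.CStarAlgebra.Classes
import Mathlib.Analysis.Complex.Order
import Mathlib.RingTheory.SimpleRing.Defs
import Mathlib.Order.Filter.Ultrafilter.Basic
import Mathlib.Data.Matrix.Basic
import Mathlib.LinearAlgebra.Matrix.ConjTranspose
import Mathlib.Topology.UnitInterval
import Mathlib.Topology.Algebra.Module.ContinuousLinearMap.Basic

/-!
# P101: elementary wording of the notions in the statement

Characters of the central sequence algebra are read on representing sequences and the dimension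
drop algebras as sets of matrix valued functions.
-/

open Filter Topology
open scoped ComplexOrder

namespace Vale.Agent.P101.Statement

/-- `x` is a bounded sequence commuting with `A` along `ω`. -/
def Central {A : Type*} [CStarAlgebra A] (ω : Ultrafilter ℕ) (x : ℕ → A) : Prop :=
  (∃ C, ∀ n, ‖x n‖ ≤ C) ∧ ∀ a, Tendsto (fun n => x n * a - a * x n) ω (𝓝 0)

/-- A character of the central sequence algebra, read on representing sequences. -/
def HasCharacter (A : Type*) [CStarAlgebra A] (ω : Ultrafilter ℕ) : Prop :=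
  ∃ χ : (ℕ → A) → ℂ, χ (fun _ => 1) = 1 ∧
    (∀ x, Central ω x → Tendsto x ω (𝓝 0) → χ x = 0) ∧
    (∀ x, Central ω x → χ (fun n => star (x n)) = starRingEnd ℂ (χ x)) ∧
    (∀ (z : ℂ) x, Central ω x → χ (fun n => z • x n) = z * χ x) ∧
    (∀ x y, Central ω x → Central ω y →
      χ (fun n => x n + y n) = χ x + χ y ∧ χ (fun n => x n * y n) = χ x * χ y)

/-- The functions from the interval into `M_p ⊗ M_q`. -/
abbrev MatFun (p q : ℕ) : Type := unitInterval → Matrix (Fin p × Fin q) (Fin p × Fin q) ℂ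

/-- An element of the dimension drop algebra. -/
def IsDropFun (p q : ℕ) (f : MatFun p q) : Prop :=
  (∀ a b, Continuous fun t => f t a b) ∧
    (∃ x : Fin p → Fin p → ℂ, ∀ i k j l, f 0 (i, k) (j, l) = if k = l then x i j else 0) ∧
    ∃ y : Fin q → Fin q → ℂ, ∀ i k j l, f 1 (i, k) (j, l) = if i = j then y k l else 0

/-- `ψ` restricts to an injective unital `⋆`-homomorphism of the dimension drop algebra. -/
def IsDropEmb {Z : Type} [CStarAlgebra Z] (p q : ℕ) (ψ : MatFun p q → Z) : Prop :=
  ψ (fun _ => 1) = 1 ∧ ∀ f g, IsDropFun p q f → IsDropFun p q g →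
    ψ (fun t => f t + g t) = ψ f + ψ g ∧ ψ (fun t => f t * g t) = ψ f * ψ g ∧
      (∀ c : ℂ, ψ (fun t => c • f t) = c • ψ f) ∧
      ψ (fun t => (f t).conjTranspose) = star (ψ f) ∧ (ψ f = ψ g → f = g)

/-- `Z` is the closure of an increasing union of copies of prime dimension drop algebras. -/
def IsDropLimit (Z : Type) [CStarAlgebra Z] : Prop :=
  ∃ (p q : ℕ → ℕ) (ψ : ∀ j, MatFun (p j) (q j) → Z),
    (∀ j, 2 ≤ p j ∧ 2 ≤ q j ∧ (p j).Coprime (q j) ∧ IsDropEmb (p j) (q j) (ψ j) ∧
      ψ j '' {f | IsDropFun (p j) (q j) f} ⊆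
        ψ (j + 1) '' {f | IsDropFun (p (j + 1)) (q (j + 1)) f}) ∧
    Dense (⋃ j, ψ j '' {f | IsDropFun (p j) (q j) f})

/-- The defining properties of the Jiang-Su algebra: a simple inductive limit of prime dimension
drop algebras with exactly one tracial state. -/
def IsJiangSuAlgebra (Z : Type) [CStarAlgebra Z] : Prop :=
  IsDropLimit Z ∧ IsSimpleRing Z ∧
    ∃! τ : Z →L[ℂ] ℂ, τ 1 = 1 ∧ (∀ z, 0 ≤ τ (star z * z)) ∧ ∀ y z, τ (y * z) = τ (z * y)

end Vale.Agent.P101.Statement
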