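import Vale.Agent.P101.Main
import Mathlib.Analysis.Normed.Unbundled.RingSeminorm
import Mathlib.RingTheory.Ideal.Quotient.Operations
import Mathlib.Topology.Algebra.Module.Basic
import Mathlib.Order.Filter.Ultrafilter.Basic
import Mathlib.Analysis.SpecificLimits.Normed

/-!
# P101: the central sequence algebra and its copies
-/

namespace Vale.Agent.P101

open Filter Topology

variable (A : Type*) [CStarAlgebra A] (ω : Ultrafilter ℕ)

/-- The bounded sequences of `A` that commute with `A` along `ω`. -/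
def cseq : StarSubalgebra ℂ (ℕ → A) where
  carrier := {x | (∃ C, ∀ n, ‖x n‖ ≤ C) ∧
    ∀ a, Tendsto (fun n => x n * a - a * x n) ω (𝓝 0)}
  mul_mem' := by
    rintro x y ⟨⟨C, hC⟩, hx⟩ ⟨⟨D, hD⟩, hy⟩
    refine ⟨⟨C * D, fun n => (norm_mul_le _ _).trans
      (mul_le_mul (hC n) (hD n) (norm_nonneg _) ((norm_nonneg _).trans (hC n)))⟩, fun a => ?_⟩
    have h : ∀ n, (x * y) n * a - a * (x * y) n
        = x n * (y n * a - a * y n) + (x n * a - a * x n) * y n := by
      intro n; simp only [Pi.mul_apply]; noncomm_ring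
    simp only [h]
    rw [← add_zero (0 : A)]
    refine Tendsto.add ?_ ?_
    · refine squeeze_zero_norm (fun n => (norm_mul_le _ _).trans
        (mul_le_mul_of_nonneg_right (hC n) (norm_nonneg _))) ?_
      simpa using (hy a).norm.const_mul C
    · refine squeeze_zero_norm (fun n => (norm_mul_le _ _).trans
        (mul_le_mul_of_nonneg_left (hD n) (norm_nonneg _))) ?_
      simpa using (hx a).norm.mul_const D
  one_mem' := ⟨⟨‖(1 : A)‖, fun n => le_rfl⟩, fun a => by simp⟩
  add_mem' := by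
    rintro x y ⟨⟨C, hC⟩, hx⟩ ⟨⟨D, hD⟩, hy⟩
    refine ⟨⟨C + D, fun n => (norm_add_le _ _).trans (add_le_add (hC n) (hD n))⟩, fun a => ?_⟩
    convert (hx a).add (hy a) using 1
    · funext n; simp only [Pi.add_apply]; noncomm_ring
    · simp
  zero_mem' := ⟨⟨0, fun n => by simp⟩, fun a => by simp⟩
  algebraMap_mem' := by
    intro c
    refine ⟨⟨‖algebraMap ℂ A c‖, fun n => le_rfl⟩, fun a => ?_⟩
    have h : ∀ n : ℕ, algebraMap ℂ (ℕ → A) c n * a - a * algebraMap ℂ (ℕ → A) c n = 0 := by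
      intro n; simp [Algebra.commutes]
    simp only [h]; exact tendsto_const_nhds
  star_mem' := by
    rintro x ⟨⟨C, hC⟩, hx⟩
    refine ⟨⟨C, fun n => by simpa using hC n⟩, fun a => ?_⟩
    have h : ∀ n, star x n * a - a * star x n = -star (x n * star a - star a * x n) := by
      intro n; simp [Pi.star_apply, star_sub, star_mul]
    simp only [h]
    simpa using ((hx (star a)).star).neg

variable {A ω}

theorem cseq_bdd (x : cseq A ω) : ∃ C, ∀ n, ‖(x : ℕ → A) n‖ ≤ C := x.2.1

theorem exists_limNorm (x : cseq A ω) :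
    ∃ r : ℝ, Tendsto (fun n => ‖(x : ℕ → A) n‖) ω (𝓝 r) := by
  obtain ⟨C, hC⟩ := cseq_bdd x
  obtain ⟨r, -, hr⟩ := (isCompact_Icc (a := (0 : ℝ)) (b := C)).ultrafilter_le_nhds
    (ω.map fun n => ‖(x : ℕ → A) n‖)
    (le_principal_iff.2 (mem_map.2 (univ_mem' fun n => ⟨norm_nonneg _, hC n⟩)))
  exact ⟨r, hr⟩

/-- The limit of the norms along `ω`. -/
noncomputable def limNorm (x : cseq A ω) : ℝ := (exists_limNorm x).choose

theorem tendsto_limNorm (x : cseq A ω) :
    Tendsto (fun n => ‖(x : ℕ → A) n‖) ω (𝓝 (limNorm x)) :=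
  (exists_limNorm x).choose_spec

theorem limNorm_eq_zero_iff (x : cseq A ω) :
    limNorm x = 0 ↔ Tendsto (fun n => (x : ℕ → A) n) ω (𝓝 0) := by
  rw [tendsto_zero_iff_norm_tendsto_zero]
  exact ⟨fun h => h ▸ tendsto_limNorm x, fun h => tendsto_nhds_unique (tendsto_limNorm x) h⟩

variable (A ω)

/-- The sequences vanishing along `ω`. -/
noncomputable def nullIdeal : Ideal (cseq A ω) where
  carrier := {x | Tendsto (fun n => (x : ℕ → A) n) ω (𝓝 0)}
  add_mem' := fun hx hy => by simpa using Tendsto.add hx hy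
  zero_mem' := tendsto_const_nhds
  smul_mem' := fun c x hx => by
    obtain ⟨C, hC⟩ := cseq_bdd c
    refine squeeze_zero_norm (fun n => (norm_mul_le _ _).trans
      (mul_le_mul_of_nonneg_right (hC n) (norm_nonneg _))) ?_
    simpa using (show Tendsto (fun n => (x : ℕ → A) n) ω (𝓝 0) from hx).norm.const_mul C

instance : (nullIdeal A ω).IsTwoSided :=
  ⟨fun {x} b (hx : Tendsto (fun n => (x : ℕ → A) n) ω (𝓝 0)) => by
    obtain ⟨C, hC⟩ := cseq_bdd b
    refine squeeze_zero_norm (fun n => (norm_mul_le _ _).trans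
      (mul_le_mul_of_nonneg_left (hC n) (norm_nonneg _))) ?_
    simpa using hx.norm.mul_const C⟩

/-- The central sequence algebra `F_ω(A)`. -/
def FO : Type _ := cseq A ω ⧸ nullIdeal A ω

noncomputable instance : Ring (FO A ω) := inferInstanceAs (Ring (cseq A ω ⧸ nullIdeal A ω))

noncomputable instance : Algebra ℂ (FO A ω) :=
  inferInstanceAs (Algebra ℂ (cseq A ω ⧸ nullIdeal A ω))

variable {A ω}

/-- The class of a sequence. -/
noncomputable def toFO (x : cseq A ω) : FO A ω := Ideal.Quotient.mk (nullIdeal A ω) x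

theorem toFO_add (x y : cseq A ω) : toFO (x + y) = toFO x + toFO y := rfl

theorem toFO_sub (x y : cseq A ω) : toFO (x - y) = toFO x - toFO y := rfl

theorem toFO_mul (x y : cseq A ω) : toFO (x * y) = toFO x * toFO y := rfl

theorem toFO_neg (x : cseq A ω) : toFO (-x) = -toFO x := rfl

theorem toFO_zero : toFO (0 : cseq A ω) = 0 := rfl

theorem toFO_one : toFO (1 : cseq A ω) = 1 := rfl

theorem toFO_smul (c : ℂ) (x : cseq A ω) : toFO (c • x) = c • toFO x := rfl

theorem toFO_algebraMap (c : ℂ) :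
    toFO (algebraMap ℂ (cseq A ω) c) = algebraMap ℂ (FO A ω) c := rfl

theorem toFO_surjective : Function.Surjective (toFO : cseq A ω → FO A ω) :=
  Ideal.Quotient.mk_surjective

theorem toFO_eq_iff (x y : cseq A ω) :
    toFO x = toFO y ↔ Tendsto (fun n => (x : ℕ → A) n - (y : ℕ → A) n) ω (𝓝 0) :=
  Ideal.Quotient.eq (I := nullIdeal A ω)

theorem star_toFO_congr {x y : cseq A ω} (h : toFO x = toFO y) :
    toFO (star x) = toFO (star y) := by
  rw [toFO_eq_iff] at h ⊢
  simpa [Pi.star_apply] using h.star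

theorem limNorm_congr {x y : cseq A ω} (h : toFO x = toFO y) : limNorm x = limNorm y := by
  rw [toFO_eq_iff, tendsto_iff_norm_sub_tendsto_zero] at h
  refine tendsto_nhds_unique (tendsto_limNorm x) ?_
  have h' : Tendsto (fun n => ‖(x : ℕ → A) n‖ - ‖(y : ℕ → A) n‖) ω (𝓝 0) :=
    squeeze_zero_norm (fun n => by simpa using abs_norm_sub_norm_le _ _) (by simpa using h)
  simpa using h'.add (tendsto_limNorm y)

noncomputable instance : Star (FO A ω) := ⟨fun p => toFO (star (toFO_surjective p).choose)⟩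

noncomputable instance : Norm (FO A ω) := ⟨fun p => limNorm (toFO_surjective p).choose⟩

theorem star_toFO (x : cseq A ω) : star (toFO x) = toFO (star x) :=
  star_toFO_congr (toFO_surjective (toFO x)).choose_spec

theorem norm_toFO (x : cseq A ω) : ‖toFO x‖ = limNorm x :=
  limNorm_congr (toFO_surjective (toFO x)).choose_spec

theorem tendsto_norm_toFO (x : cseq A ω) :
    Tendsto (fun n => ‖(x : ℕ → A) n‖) ω (𝓝 ‖toFO x‖) :=
  norm_toFO x ▸ tendsto_limNorm x

noncomputable instance : StarRing (FO A ω) where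
  star_involutive p := by
    obtain ⟨x, rfl⟩ := toFO_surjective p
    rw [star_toFO, star_toFO, star_star]
  star_mul p q := by
    obtain ⟨x, rfl⟩ := toFO_surjective p
    obtain ⟨y, rfl⟩ := toFO_surjective q
    rw [← toFO_mul, star_toFO, star_toFO, star_toFO, ← toFO_mul, star_mul]
  star_add p q := by
    obtain ⟨x, rfl⟩ := toFO_surjective p
    obtain ⟨y, rfl⟩ := toFO_surjective q
    rw [← toFO_add, star_toFO, star_toFO, star_toFO, ← toFO_add, star_add]

noncomputable instance instNormedRingFO : NormedRing (FO A ω) :=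
  RingNorm.toNormedRing
    { toFun := fun p => ‖p‖
      map_zero' := by
        rw [← toFO_zero, norm_toFO, limNorm_eq_zero_iff]
        exact tendsto_const_nhds
      add_le' := fun p q => by
        obtain ⟨x, rfl⟩ := toFO_surjective p
        obtain ⟨y, rfl⟩ := toFO_surjective q
        rw [← toFO_add]
        exact le_of_tendsto_of_tendsto' (tendsto_norm_toFO _)
          ((tendsto_norm_toFO x).add (tendsto_norm_toFO y)) fun n => norm_add_le _ _
      neg' := fun p => by
        obtain ⟨x, rfl⟩ := toFO_surjective p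
        rw [← toFO_neg]
        refine tendsto_nhds_unique (tendsto_norm_toFO _) ?_
        simpa using tendsto_norm_toFO x
      mul_le' := fun p q => by
        obtain ⟨x, rfl⟩ := toFO_surjective p
        obtain ⟨y, rfl⟩ := toFO_surjective q
        rw [← toFO_mul]
        exact le_of_tendsto_of_tendsto' (tendsto_norm_toFO _)
          ((tendsto_norm_toFO x).mul (tendsto_norm_toFO y)) fun n => norm_mul_le _ _
      eq_zero_of_map_eq_zero' := fun p hp => by
        obtain ⟨x, rfl⟩ := toFO_surjective p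
        rw [norm_toFO, limNorm_eq_zero_iff] at hp
        rw [← toFO_zero, toFO_eq_iff]
        simpa using hp }

noncomputable instance : NormedAlgebra ℂ (FO A ω) where
  norm_smul_le c p := by
    obtain ⟨x, rfl⟩ := toFO_surjective p
    rw [← toFO_smul]
    exact le_of_tendsto_of_tendsto' (tendsto_norm_toFO _) ((tendsto_norm_toFO x).const_mul ‖c‖)
      fun n => (norm_smul_le c ((x : ℕ → A) n) : _)

instance : StarModule ℂ (FO A ω) :=
  ⟨fun c p => by
    obtain ⟨x, rfl⟩ := toFO_surjective p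
    rw [← toFO_smul, star_toFO, star_toFO, ← toFO_smul, star_smul]⟩

instance : CStarRing (FO A ω) :=
  ⟨fun p => by
    obtain ⟨x, rfl⟩ := toFO_surjective p
    rw [star_toFO, ← toFO_mul]
    refine le_of_eq (tendsto_nhds_unique ((tendsto_norm_toFO x).mul (tendsto_norm_toFO x)) ?_)
    refine (tendsto_norm_toFO (star x * x)).congr fun n => ?_
    simp [Pi.star_apply, CStarRing.norm_star_mul_self]⟩

theorem norm_toFO_le_of_eventually {x : cseq A ω} {r : ℝ}
    (h : ∀ᶠ n in (ω : Filter ℕ), ‖(x : ℕ → A) n‖ ≤ r) : ‖toFO x‖ ≤ r :=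
  le_of_tendsto (tendsto_norm_toFO x) h

instance : CompleteSpace (FO A ω) := by
  classical
  refine Metric.complete_of_convergent_controlled_sequences (fun N => (1 / 2 : ℝ) ^ N)
    (fun N => by positivity) fun u hu => ?_
  choose x hx using fun k => toFO_surjective (u k)
  let D : ℕ → ℕ → A := fun k n => (x (k + 1) : ℕ → A) n - (x k : ℕ → A) n
  let e : ℕ → ℕ → A := fun k n => if ‖D k n‖ ≤ (1 / 2 : ℝ) ^ k then D k n else 0
  have he : ∀ k n, ‖e k n‖ ≤ (1 / 2 : ℝ) ^ k := fun k n => by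
    simp only [e]; split_ifs with h
    · exact h
    · simp
  have heD : ∀ k, ∀ᶠ n in (ω : Filter ℕ), e k n = D k n := fun k => by
    have h := hu k (k + 1) k (Nat.le_succ k) le_rfl
    rw [dist_eq_norm, ← hx, ← hx, ← toFO_sub] at h
    filter_upwards [(tendsto_norm_toFO _).eventually (eventually_le_nhds h)] with n hn
    simp only [e]
    rw [if_pos]
    simpa [D] using hn
  let S : ℕ → ℕ → A := fun N n => (x 0 : ℕ → A) n + ∑ k ∈ Finset.range N, e k n
  have hS : ∀ N, ∀ᶠ n in (ω : Filter ℕ), S N n = (x N : ℕ → A) n := by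
    intro N
    induction N with
    | zero => exact .of_forall fun n => by simp [S]
    | succ N ih =>
      filter_upwards [ih, heD N] with n h1 h2
      simp only [S, Finset.sum_range_succ, ← add_assoc]
      rw [show (x 0 : ℕ → A) n + ∑ k ∈ Finset.range N, e k n = S N n from rfl, h1, h2]
      simp [D]
  have hsum : ∀ n, Summable fun k => e k n := fun n =>
    .of_norm_bounded summable_geometric_two (he · n)
  let L : ℕ → A := fun n => (x 0 : ℕ → A) n + ∑' k, e k n
  have hLS : ∀ N n, ‖L n - S N n‖ ≤ 2 * (1 / 2 : ℝ) ^ N := fun N n => by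
    have h := (hsum n).sum_add_tsum_nat_add N
    have : L n - S N n = ∑' k, e (k + N) n := by simp only [L, S, ← h]; abel
    rw [this]
    refine tsum_of_norm_bounded (g := fun k => (1 / 2 : ℝ) ^ N * (1 / 2) ^ k) ?_ fun k => ?_
    · simpa [mul_comm] using (hasSum_geometric_two.mul_left ((1 / 2 : ℝ) ^ N))
    · exact (he _ n).trans_eq (by rw [pow_add, mul_comm])
  have hLmem : L ∈ cseq A ω := by
    refine ⟨?_, fun a => ?_⟩
    · obtain ⟨C, hC⟩ := cseq_bdd (x 0)
      refine ⟨C + 2, fun n => ?_⟩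
      have := hLS 0 n
      simp only [S, Finset.range_zero, Finset.sum_empty, add_zero, pow_zero, mul_one] at this
      calc ‖L n‖ = ‖(L n - (x 0 : ℕ → A) n) + (x 0 : ℕ → A) n‖ := by rw [sub_add_cancel]
        _ ≤ 2 + C := (norm_add_le _ _).trans (add_le_add this (hC n))
        _ = C + 2 := add_comm _ _
    · rw [tendsto_zero_iff_norm_tendsto_zero, Metric.tendsto_nhds]
      intro ε hε
      obtain ⟨N, hN⟩ := exists_pow_lt_of_lt_one (show 0 < ε / (8 * (‖a‖ + 1)) by positivity)
        (show (1 / 2 : ℝ) < 1 by norm_num)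
      have hN' : (1 / 2 : ℝ) ^ N * (8 * (‖a‖ + 1)) < ε := by
        rwa [lt_div_iff₀ (by positivity)] at hN
      have h1 := ((x N).2.2 a).norm
      rw [norm_zero, Metric.tendsto_nhds] at h1
      filter_upwards [h1 (ε / 2) (half_pos hε), hS N] with n hn hn'
      rw [dist_zero_right, norm_norm] at hn ⊢
      have h2 := hLS N n
      rw [hn'] at h2
      have e1 : L n * a - a * L n = ((L n - (x N : ℕ → A) n) * a - a * (L n - (x N : ℕ → A) n))
          + ((x N : ℕ → A) n * a - a * (x N : ℕ → A) n) := by noncomm_ring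
      rw [e1]
      refine (norm_add_le _ _).trans_lt ?_
      have h3 : ‖(L n - (x N : ℕ → A) n) * a - a * (L n - (x N : ℕ → A) n)‖
          ≤ 2 * (2 * (1 / 2 : ℝ) ^ N * ‖a‖) :=
        (norm_sub_le _ _).trans (by
          have := norm_mul_le (L n - (x N : ℕ → A) n) a
          have := norm_mul_le a (L n - (x N : ℕ → A) n)
          nlinarith [norm_nonneg a, norm_nonneg (L n - (x N : ℕ → A) n)])
      nlinarith [norm_nonneg a, pow_pos (show (0:ℝ) < 1 / 2 by norm_num) N]
  refine ⟨toFO ⟨L, hLmem⟩, ?_⟩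
  rw [tendsto_iff_norm_sub_tendsto_zero]
  refine squeeze_zero (fun _ => norm_nonneg _) (fun N => ?_)
    (show Tendsto (fun N : ℕ => 2 * (1 / 2 : ℝ) ^ N) atTop (𝓝 0) by
      simpa using (tendsto_pow_atTop_nhds_zero_of_lt_one
        (show (0:ℝ) ≤ 1 / 2 by norm_num) (by norm_num)).const_mul 2)
  rw [← hx N, ← toFO_sub]
  refine norm_toFO_le_of_eventually ((hS N).mono fun n hn => ?_)
  have := hLS N n
  rw [hn, norm_sub_rev] at this
  simpa using this

noncomputable instance : CStarAlgebra (FO A ω) where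

theorem isSeparable_cs {B : Type*} [CStarAlgebra B] {G : Set B} (hG : G.Countable) :
    TopologicalSpace.IsSeparable (cs G : Set B) := by
  set T := G ∪ star G
  have hT : T.Countable := hG.union (by rw [← Set.image_star]; exact hG.image _)
  have := hT.to_subtype
  have hM : ((Submonoid.closure T : Submonoid B) : Set B).Countable := by
    refine (Set.countable_range fun l : List T => (l.map Subtype.val).prod).mono ?_
    intro x hx
    induction hx using Submonoid.closure_induction with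
    | mem x hx => exact ⟨[⟨x, hx⟩], by simp⟩
    | one => exact ⟨[], rfl⟩
    | mul a b _ _ ha hb =>
      obtain ⟨l, rfl⟩ := ha
      obtain ⟨l', rfl⟩ := hb
      exact ⟨l ++ l', by simp⟩
  have h2 : TopologicalSpace.IsSeparable ((StarAlgebra.adjoin ℂ G : StarSubalgebra ℂ B) : Set B) := by
    have e : ((StarAlgebra.adjoin ℂ G : StarSubalgebra ℂ B) : Set B)
        = (Submodule.span ℂ ((Submonoid.closure T : Submonoid B) : Set B) : Set B) := by
      rw [← Algebra.adjoin_eq_span]
      exact congrArg (fun S : Subalgebra ℂ B => (S : Set B)) (StarAlgebra.adjoin_toSubalgebra ℂ G)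
    rw [e]
    exact hM.isSeparable.span
  exact h2.closure

/-- Reindexing gives copies in the commutant of any finite set. -/
theorem copyable_FO [TopologicalSpace.SeparableSpace A] (hω : (ω : Filter ℕ) ≤ cofinite) :
    Copyable (FO A ω) := by
  classical
  intro G S hG hS
  obtain ⟨Q, hQsub, hQc, hQ⟩ := (isSeparable_cs hG.countable).exists_countable_dense_subset
  have hQne : Q.Nonempty := closure_nonempty_iff.1 ⟨1, hQ (one_mem _)⟩
  obtain ⟨u, rfl⟩ := hQc.exists_eq_range hQne
  choose U hU using fun i => toFO_surjective (u i)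
  have := hS.to_subtype
  choose T hT using fun s : S => toFO_surjective (s : FO A ω)
  let a := TopologicalSpace.denseSeq A
  let c := TopologicalSpace.denseSeq ℂ
  let v : ℕ → ℕ → A := fun i m => (U i : ℕ → A) m
  let f : (ℕ × ℕ) ⊕ (ℕ × ℕ × ℕ) ⊕ (ℕ × ℕ × ℕ) ⊕ (ℕ × ℕ) ⊕ (ℕ × ℕ × ℕ) ⊕ ℕ ⊕ (ℕ × S) ⊕ (ℕ × ℕ) →
      ℕ → ℕ → ℝ := fun x n m => match x with
    | .inl (i, j) => ‖v i m - v j m‖
    | .inr (.inl (i, j, k)) => ‖v i m * v j m - v k m‖
    | .inr (.inr (.inl (i, j, k))) => ‖v i m + v j m - v k m‖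
    | .inr (.inr (.inr (.inl (i, k)))) => ‖star (v i m) - v k m‖
    | .inr (.inr (.inr (.inr (.inl (l, i, k))))) => ‖c l • v i m - v k m‖
    | .inr (.inr (.inr (.inr (.inr (.inl i))))) => ‖v i m - 1‖
    | .inr (.inr (.inr (.inr (.inr (.inr (.inl (i, s))))))) =>
        ‖v i m * (T s : ℕ → A) n - (T s : ℕ → A) n * v i m‖
    | .inr (.inr (.inr (.inr (.inr (.inr (.inr (i, j))))))) => ‖v i m * a j - a j * v i m‖
  let L : (ℕ × ℕ) ⊕ (ℕ × ℕ × ℕ) ⊕ (ℕ × ℕ × ℕ) ⊕ (ℕ × ℕ) ⊕ (ℕ × ℕ × ℕ) ⊕ ℕ ⊕ (ℕ × S) ⊕ (ℕ × ℕ) →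
      ℝ := fun x => match x with
    | .inl (i, j) => ‖u i - u j‖
    | .inr (.inl (i, j, k)) => ‖u i * u j - u k‖
    | .inr (.inr (.inl (i, j, k))) => ‖u i + u j - u k‖
    | .inr (.inr (.inr (.inl (i, k)))) => ‖star (u i) - u k‖
    | .inr (.inr (.inr (.inr (.inl (l, i, k))))) => ‖c l • u i - u k‖
    | .inr (.inr (.inr (.inr (.inr (.inl i))))) => ‖u i - 1‖
    | .inr (.inr (.inr (.inr (.inr (.inr (.inl _)))))) => 0
    | .inr (.inr (.inr (.inr (.inr (.inr (.inr _)))))) => 0
  have hev : ∀ x n, ∀ ε : ℝ, 0 < ε → ∀ᶠ m in (ω : Filter ℕ), f x n m < L x + ε := by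
    intro x n ε hε
    have key : ∀ (y : cseq A ω) (r : ℝ), ‖toFO y‖ = r →
        ∀ᶠ m in (ω : Filter ℕ), ‖(y : ℕ → A) m‖ < r + ε :=
      fun y r h => (tendsto_norm_toFO y).eventually (eventually_lt_nhds (by linarith))
    have comm : ∀ i b, ∀ᶠ m in (ω : Filter ℕ), ‖v i m * b - b * v i m‖ < 0 + ε := by
      intro i b
      have h := ((U i).2.2 b).norm
      rw [norm_zero] at h
      exact h.eventually (eventually_lt_nhds (by linarith))
    rcases x with ⟨i, j⟩ | ⟨i, j, k⟩ | ⟨i, j, k⟩ | ⟨i, k⟩ | ⟨l, i, k⟩ | i | ⟨i, s⟩ | ⟨i, j⟩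
    · exact key (U i - U j) _ (by rw [toFO_sub, hU, hU])
    · exact key (U i * U j - U k) _ (by rw [toFO_sub, toFO_mul, hU, hU, hU])
    · exact key (U i + U j - U k) _ (by rw [toFO_sub, toFO_add, hU, hU, hU])
    · exact key (star (U i) - U k) _ (by rw [toFO_sub, ← star_toFO, hU, hU])
    · exact key (c l • U i - U k) _ (by rw [toFO_sub, toFO_smul, hU, hU])
    · exact key (U i - 1) _ (by rw [toFO_sub, toFO_one, hU])
    · exact comm i _
    · exact comm i _
  obtain ⟨E, hE⟩ := exists_surjective_nat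
    ((ℕ × ℕ) ⊕ (ℕ × ℕ × ℕ) ⊕ (ℕ × ℕ × ℕ) ⊕ (ℕ × ℕ) ⊕ (ℕ × ℕ × ℕ) ⊕ ℕ ⊕ (ℕ × S) ⊕ (ℕ × ℕ))
  have hsel : ∀ n : ℕ, ∃ m, ∀ k ∈ Finset.range (n + 1), f (E k) n m < L (E k) + 1 / ((n : ℝ) + 1) :=
    fun n => ((Filter.eventually_all_finset _).2 fun k _ => hev (E k) n _ (by positivity)).exists
  choose m hm using hsel
  -- the limit inequality
  have hlim : ∀ x, ∀ g : ℕ → ℝ, (∀ n, g n ≤ f x n (m n)) → ∀ r, L x < r →
      ∀ᶠ n in (ω : Filter ℕ), g n ≤ r := by
    intro x g hg r hr
    obtain ⟨k, rfl⟩ := hE x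
    have h1 : ∀ᶠ n : ℕ in (ω : Filter ℕ), k ≤ n ∧ 1 / ((n : ℝ) + 1) < r - L (E k) := by
      refine (hω.trans Nat.cofinite_eq_atTop.le) ?_
      exact (eventually_ge_atTop k).and ((tendsto_one_div_add_atTop_nhds_zero_nat (𝕜 := ℝ)).eventually
        (eventually_lt_nhds (sub_pos.2 hr)))
    exact h1.mono fun n ⟨hk, hn⟩ =>
      ((hg n).trans (hm n k (Finset.mem_range.2 (Nat.lt_succ_of_le hk))).le).trans (by linarith)
  -- the reindexed representatives are central
  have hmem : ∀ i, (fun n => v i (m n)) ∈ cseq A ω := by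
    intro i
    obtain ⟨C, hC⟩ := cseq_bdd (U i)
    refine ⟨⟨C, fun n => hC (m n)⟩, fun b => ?_⟩
    rw [tendsto_zero_iff_norm_tendsto_zero, Metric.tendsto_nhds]
    intro ε hε
    have hC0 : 0 ≤ C := (norm_nonneg _).trans (hC 0)
    obtain ⟨j, hj⟩ := (TopologicalSpace.denseRange_denseSeq A).exists_dist_lt b
      (show 0 < ε / (4 * (C + 1)) by positivity)
    filter_upwards [hlim (.inr (.inr (.inr (.inr (.inr (.inr (.inr (i, j))))))))
      (fun n => ‖v i (m n) * a j - a j * v i (m n)‖) (fun n => le_rfl) (ε / 4)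
      (show (0:ℝ) < ε / 4 by positivity)] with n hn
    rw [dist_zero_right, norm_norm]
    rw [dist_eq_norm, lt_div_iff₀ (by positivity)] at hj
    have e : v i (m n) * b - b * v i (m n) = (v i (m n) * (b - a j) - (b - a j) * v i (m n))
        + (v i (m n) * a j - a j * v i (m n)) := by noncomm_ring
    rw [e]
    refine (norm_add_le _ _).trans_lt ?_
    have h3 : ‖v i (m n) * (b - a j) - (b - a j) * v i (m n)‖ ≤ 2 * (C * ‖b - a j‖) :=
      (norm_sub_le _ _).trans (by
        have := norm_mul_le (v i (m n)) (b - a j)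
        have := norm_mul_le (b - a j) (v i (m n))
        have := mul_le_mul_of_nonneg_right (hC (m n)) (norm_nonneg (b - a j))
        linarith [mul_comm ‖b - a j‖ ‖v i (m n)‖])
    nlinarith [norm_nonneg (b - a j)]
  let ψ : ℕ → FO A ω := fun i => toFO ⟨_, hmem i⟩
  have bound : ∀ x (y : cseq A ω), (∀ n, ‖(y : ℕ → A) n‖ ≤ f x n (m n)) → ‖toFO y‖ ≤ L x :=
    fun x y h => le_of_forall_pos_le_add fun ε hε =>
      norm_toFO_le_of_eventually (hlim x _ h _ (lt_add_of_pos_right _ hε))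
  have b1 : ∀ i j, ‖ψ i - ψ j‖ ≤ ‖u i - u j‖ := fun i j => by
    simp only [ψ, ← toFO_sub]; exact bound (.inl (i, j)) _ fun n => le_rfl
  have b2 : ∀ i j k, ‖ψ i * ψ j - ψ k‖ ≤ ‖u i * u j - u k‖ := fun i j k => by
    simp only [ψ, ← toFO_mul, ← toFO_sub]; exact bound (.inr (.inl (i, j, k))) _ fun n => le_rfl
  have b3 : ∀ i j k, ‖ψ i + ψ j - ψ k‖ ≤ ‖u i + u j - u k‖ := fun i j k => by
    simp only [ψ, ← toFO_add, ← toFO_sub]
    exact bound (.inr (.inr (.inl (i, j, k)))) _ fun n => le_rfl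
  have b4 : ∀ i k, ‖star (ψ i) - ψ k‖ ≤ ‖star (u i) - u k‖ := fun i k => by
    simp only [ψ, star_toFO, ← toFO_sub]
    exact bound (.inr (.inr (.inr (.inl (i, k))))) _ fun n => le_rfl
  have b5 : ∀ l i k, ‖c l • ψ i - ψ k‖ ≤ ‖c l • u i - u k‖ := fun l i k => by
    simp only [ψ, ← toFO_smul, ← toFO_sub]
    exact bound (.inr (.inr (.inr (.inr (.inl (l, i, k)))))) _ fun n => le_rfl
  have b6 : ∀ i, ‖ψ i - 1‖ ≤ ‖u i - 1‖ := fun i => by
    simp only [ψ, ← toFO_one, ← toFO_sub]
    exact bound (.inr (.inr (.inr (.inr (.inr (.inl i)))))) _ fun n => le_rfl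
  have b7 : ∀ i, ∀ s ∈ S, ψ i * s = s * ψ i := fun i s hs => by
    rw [← sub_eq_zero, ← norm_le_zero_iff, show s = toFO (T ⟨s, hs⟩) from (hT ⟨s, hs⟩).symm]
    simp only [ψ, ← toFO_mul, ← toFO_sub]
    exact bound (.inr (.inr (.inr (.inr (.inr (.inr (.inl (i, ⟨s, hs⟩)))))))) _ fun n => le_rfl
  -- extension by continuity
  have near : ∀ x : cs G, ∀ n : ℕ, ∃ i, ‖(x : FO A ω) - u i‖ < 1 / ((n : ℝ) + 1) := fun x n => by
    obtain ⟨_, ⟨i, rfl⟩, hi⟩ := Metric.mem_closure_iff.1 (hQ x.2) (1 / ((n : ℝ) + 1)) (by positivity)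
    exact ⟨i, by rwa [← dist_eq_norm]⟩
  choose κ hκ using near
  have hcauchy : ∀ x : cs G, CauchySeq fun n => ψ (κ x n) := fun x => by
    refine cauchySeq_of_le_tendsto_0 (fun N => 1 / ((N : ℝ) + 1) + 1 / ((N : ℝ) + 1)) ?_ ?_
    · intro n k N hn hk
      rw [dist_eq_norm]
      refine (b1 _ _).trans ?_
      have h1 := hκ x n
      have h2 := hκ x k
      rw [norm_sub_rev] at h1
      have h3 : ∀ j : ℕ, N ≤ j → 1 / ((j : ℝ) + 1) ≤ 1 / ((N : ℝ) + 1) := fun j hj =>
        one_div_le_one_div_of_le (by positivity) (by gcongr)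
      linarith [norm_sub_le_norm_sub_add_norm_sub (u (κ x n)) (x : FO A ω) (u (κ x k)), h3 n hn,
        h3 k hk]
    · simpa using (tendsto_one_div_add_atTop_nhds_zero_nat (𝕜 := ℝ)).add
        (tendsto_one_div_add_atTop_nhds_zero_nat (𝕜 := ℝ))
  choose φ hφ using fun x => cauchySeq_tendsto_of_complete (hcauchy x)
  have hκlim : ∀ x : cs G, Tendsto (fun n => u (κ x n)) atTop (𝓝 (x : FO A ω)) := fun x => by
    rw [tendsto_iff_norm_sub_tendsto_zero]
    exact squeeze_zero (fun _ => norm_nonneg _)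
      (fun n => (norm_sub_rev _ _).trans_le (hκ x n).le) tendsto_one_div_add_atTop_nhds_zero_nat
  have p2 : ∀ x y, φ (x * y) = φ x * φ y := fun x y => by
    refine (eq_of_norm_sub_le_zero (le_of_tendsto_of_tendsto'
      (((hφ x).mul (hφ y)).sub (hφ (x * y))).norm ?_ fun n => b2 _ _ _)).symm
    simpa using (((hκlim x).mul (hκlim y)).sub (hκlim (x * y))).norm
  have p3 : ∀ x y, φ (x + y) = φ x + φ y := fun x y => by
    refine (eq_of_norm_sub_le_zero (le_of_tendsto_of_tendsto'
      (((hφ x).add (hφ y)).sub (hφ (x + y))).norm ?_ fun n => b3 _ _ _)).symm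
    simpa using (((hκlim x).add (hκlim y)).sub (hκlim (x + y))).norm
  have p4 : ∀ x, φ (star x) = star (φ x) := fun x => by
    refine (eq_of_norm_sub_le_zero (le_of_tendsto_of_tendsto'
      (((hφ x).star).sub (hφ (star x))).norm ?_ fun n => b4 _ _)).symm
    simpa using (((hκlim x).star).sub (hκlim (star x))).norm
  have p5 : ∀ (z : ℂ) x, φ (z • x) = z • φ x := fun z x => by
    have h : ∀ l, ‖c l • φ x - φ (z • x)‖ ≤ ‖c l • (x : FO A ω) - z • (x : FO A ω)‖ := fun l => by
      refine le_of_tendsto_of_tendsto' (((hφ x).const_smul (c l)).sub (hφ (z • x))).norm ?_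
        fun n => b5 _ _ _
      simpa using (((hκlim x).const_smul (c l)).sub (hκlim (z • x))).norm
    have h' : ∀ w : ℂ, ‖w • φ x - φ (z • x)‖ ≤ ‖w • (x : FO A ω) - z • (x : FO A ω)‖ := fun w =>
      (TopologicalSpace.denseRange_denseSeq ℂ).induction_on
        (p := fun w : ℂ => ‖w • φ x - φ (z • x)‖ ≤ ‖w • (x : FO A ω) - z • (x : FO A ω)‖) w
        (isClosed_le (by fun_prop) (by fun_prop)) h
    refine (eq_of_norm_sub_le_zero ?_).symm
    simpa using h' z
  have p6 : φ 1 = 1 := eq_of_norm_sub_le_zero (by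
    refine le_of_tendsto_of_tendsto' (((hφ 1).sub tendsto_const_nhds)).norm ?_ fun n => b6 _
    simpa using ((hκlim 1).sub (tendsto_const_nhds (x := (1 : FO A ω)))).norm)
  have p0 : φ 0 = 0 := by simpa using p3 0 0
  refine ⟨{ toFun := φ
            map_one' := p6
            map_mul' := p2
            map_zero' := p0
            map_add' := p3
            commutes' := fun z => by
              rw [Algebra.algebraMap_eq_smul_one, p5, p6, ← Algebra.algebraMap_eq_smul_one]
            map_star' := p4 }, fun x s hs => ?_⟩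
  exact tendsto_nhds_unique ((hφ x).mul_const s)
    (((hφ x).const_mul s).congr fun n => (b7 _ s hs).symm)

end Vale.Agent.P101
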