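import Vale.Agent.P101.Universal.Rules

/-!
# The dimension drop algebra `Z_{n,n+1}` is universal

A linear, star preserving `φ` on `M_n` with `φ x * φ y = φ 1 * φ (x * y)` and `0 ≤ φ 1`, together
with `v` such that `v⋆ v = 1 - φ 1` and `φ e₀₀ v = v`, yields a unital homomorphism out of
`Z_{n,n+1}`: the pairs generated by the data and their models project isometrically onto an algebra
containing the rotated dimension drop algebra.
-/

set_option maxSynthPendingDepth 3

open scoped ComplexOrder

noncomputable section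

namespace Vale.Agent.P101.Universal

/-- The square of `t (1 - t)`. -/
def wC : C(unitInterval, ℂ) :=
  ⟨fun t => ((((t : ℝ) * (1 - (t : ℝ))) ^ 2 : ℝ) : ℂ), by fun_prop⟩

/-- A function vanishing at both ends is a uniform limit of multiples of `(t (1 - t))²`. -/
theorem mem_closure_mul_wC {k : C(unitInterval, ℂ)} (h0 : k 0 = 0) (h1 : k 1 = 0) :
    k ∈ closure (Set.range fun l : C(unitInterval, ℂ) => l * wC) := by
  rw [Metric.mem_closure_range_iff]
  intro ε hε
  set w : C(unitInterval, ℝ) := ⟨fun t => ((t : ℝ) * (1 - (t : ℝ))) ^ 2, by fun_prop⟩ with hw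
  have hwn : ∀ t, 0 ≤ w t := fun t => sq_nonneg _
  obtain ⟨μ, hμ, hμw⟩ : ∃ μ > 0, ∀ t, ε / 2 ≤ ‖k t‖ → μ ≤ w t := by
    set K := {t | ε / 2 ≤ ‖k t‖} with hK
    have hKc : IsCompact K := (isClosed_le continuous_const k.continuous.norm).isCompact
    rcases K.eq_empty_or_nonempty with he | hne
    · exact ⟨1, one_pos, fun t ht => by
        have : t ∈ K := ht
        rw [he] at this; exact this.elim⟩
    obtain ⟨t₀, ht₀, hmin⟩ := hKc.exists_isMinOn hne w.continuous.continuousOn
    refine ⟨w t₀, lt_of_le_of_ne (hwn _) (fun e => ?_), fun t ht => hmin ht⟩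
    have e' : (t₀ : ℝ) * (1 - (t₀ : ℝ)) = 0 := by
      have : ((t₀ : ℝ) * (1 - (t₀ : ℝ))) ^ 2 = 0 := e.symm
      exact pow_eq_zero_iff (n := 2) (by norm_num) |>.1 this
    rcases mul_eq_zero.1 e' with h | h
    · have : t₀ = 0 := Subtype.ext h
      simp only [hK, Set.mem_ofPred_eq, this, h0, norm_zero] at ht₀
      linarith
    · have : t₀ = 1 := Subtype.ext (by linarith : (t₀ : ℝ) = 1)
      simp only [hK, Set.mem_ofPred_eq, this, h1, norm_zero] at ht₀
      linarith
  set d := ε * μ / (2 * ‖k‖ + 2) with hd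
  have hd0 : 0 < d := by positivity
  have hne : ∀ t, w t + d ≠ 0 := fun t => by have := hwn t; positivity
  refine ⟨⟨fun t => k t * (((w t + d)⁻¹ : ℝ) : ℂ), k.continuous.mul
    (Complex.continuous_ofReal.comp ((w.continuous.add continuous_const).inv₀ hne))⟩, ?_⟩
  rw [ContinuousMap.dist_lt_iff hε]
  intro t
  rw [dist_eq_norm]
  show ‖k t - k t * (((w t + d)⁻¹ : ℝ) : ℂ) * ((w t : ℝ) : ℂ)‖ < ε
  have e : k t - k t * (((w t + d)⁻¹ : ℝ) : ℂ) * ((w t : ℝ) : ℂ) =
      k t * (((d / (w t + d)) : ℝ) : ℂ) := by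
    rw [mul_assoc, ← mul_one_sub, ← Complex.ofReal_mul, ← Complex.ofReal_one, ← Complex.ofReal_sub]
    congr 2
    have := hne t
    field_simp
    ring
  rw [e, norm_mul, Complex.norm_real, Real.norm_eq_abs,
    abs_of_nonneg (div_nonneg hd0.le (by linarith [hwn t]))]
  have hkt : ‖k t‖ ≤ ‖k‖ := k.norm_coe_le_norm t
  rcases le_or_gt (ε / 2) ‖k t‖ with hk | hk
  · have h2 : d / (w t + d) ≤ d / μ :=
      div_le_div_of_nonneg_left hd0.le hμ (by linarith [hμw t hk])
    refine (mul_le_mul hkt h2 (div_nonneg hd0.le (by linarith [hwn t])) (norm_nonneg _)).trans_lt ?_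
    rw [hd, div_div, ← mul_div_assoc, div_lt_iff₀ (by positivity)]
    nlinarith [norm_nonneg k, mul_pos hε hμ]
  · refine (mul_le_of_le_one_right (norm_nonneg _) ?_).trans_lt (hk.trans (half_lt_self hε))
    rw [div_le_one (by linarith [hwn t])]
    linarith [hwn t]

variable {n : ℕ}

/-- The model of `φ`, linear. -/
def phiMₗ : Mat n →ₗ[ℂ] Field n where
  toFun := phiM
  map_add' x y := ext_entry fun t i j => by
    simp only [ContinuousMap.add_apply, CStarMatrix.add_apply, phiM_apply]
    split_ifs <;> ring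
  map_smul' r x := ext_entry fun t i j => by
    simp only [ContinuousMap.smul_apply, CStarMatrix.smul_apply, phiM_apply, RingHom.id_apply,
      smul_eq_mul]
    split_ifs <;> ring

variable [NeZero n] {B : Type*} [CStarAlgebra B] [PartialOrder B] [StarOrderedRing B]

namespace Gen

variable (D : Gen n B)

/-- The generating pairs. -/
def genSet : Set (B × Field n) :=
  Set.range (fun x => (D.phi x, phiM x)) ∪ {(D.v, vM), (D.c, scal n idC)}

/-- The algebra of pairs. -/
def pairs : StarSubalgebra ℂ (B × Field n) :=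
  (StarAlgebra.adjoin ℂ D.genSet).topologicalClosure

theorem good_of_mem {q : B × Field n} (h : q ∈ D.pairs) : D.Good q := by
  have hphi : ∀ x, (D.phi x, phiM x) ∈ D.goodAlg := fun x => by
    have e : (D.phi x, phiM x) = ∑ i, ∑ j, x i j • (D.phi (munit i j), phiM (munit i j)) := by
      have h2 : (D.phi x, phiM x) = (D.phi.prod phiMₗ) x := rfl
      rw [h2]
      conv_lhs => rw [sum_smul_munit x]
      simp only [map_sum, map_smul, LinearMap.prod_apply]
      rfl
    rw [e]
    exact sum_mem fun i _ => sum_mem fun j _ => D.goodAlg.smul_mem (D.good_phi_munit i j) _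
  have hsub : (StarAlgebra.adjoin ℂ D.genSet : Set (B × Field n)) ⊆ {q | D.Good q} := by
    intro q hq
    have hle : (StarAlgebra.adjoin ℂ D.genSet).toSubalgebra ≤ D.goodAlg := by
      rw [StarAlgebra.adjoin_toSubalgebra, Algebra.adjoin_le_iff]
      rintro q (hq | hq)
      · rcases hq with ⟨x, rfl⟩ | rfl | rfl
        · exact hphi x
        · exact D.good_v
        · exact D.good_c
      · rw [Set.mem_star] at hq
        rcases hq with ⟨x, hx⟩ | hq | hq
        · have : q = (D.phi (star x), phiM (star x)) := by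
            rw [← star_star q, ← hx, D.phi_star, ← star_phiM]
            rfl
          rw [this]
          exact hphi _
        · have : q = (star D.v, star vM) := by rw [← star_star q, hq]; rfl
          rw [this]
          exact D.good_star_v
        · have : q = (D.c, scal n idC) := by
            rw [← star_star q, hq]
            show (star D.c, star (scal n idC)) = _
            rw [D.isSelfAdjoint_c.star_eq, ← map_star, star_idC]
          rw [this]
          exact D.good_c
    exact hle hq
  exact closure_minimal hsub D.isClosed_good h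

theorem subset_pairs {q : B × Field n} (h : q ∈ D.genSet) : q ∈ D.pairs :=
  StarSubalgebra.le_topologicalClosure _ (StarAlgebra.subset_adjoin ℂ _ h)

/-- The projection of the pairs to the fields. -/
def proj : D.pairs →⋆ₐ[ℂ] Field n := (StarAlgHom.snd ℂ B (Field n)).comp D.pairs.subtype

theorem proj_injective : Function.Injective D.proj := by
  rw [injective_iff_map_eq_zero]
  rintro ⟨⟨b, g⟩, hq⟩ (rfl : g = 0)
  obtain rfl : b = 0 := D.eq_zero_of_good (D.good_of_mem hq)
  rfl

theorem isClosed_range_proj : IsClosed (Set.range D.proj) := by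
  have : IsClosed (D.pairs : Set (B × Field n)) := StarSubalgebra.isClosed_topologicalClosure _
  letI : CStarAlgebra D.pairs := StarSubalgebra.cstarAlgebra D.pairs
  exact (NonUnitalStarAlgHom.isometry D.proj D.proj_injective).isClosedEmbedding.isClosed_range

theorem mem_range_proj {b : B} {g : Field n} (h : (b, g) ∈ D.pairs) : g ∈ D.proj.range :=
  ⟨⟨(b, g), h⟩, rfl⟩

theorem scal_mem (k : C(unitInterval, ℂ)) : scal n k ∈ D.proj.range := by
  refine D.mem_range_proj (b := D.Gam k) ?_
  refine mem_of_idC_mem (S := D.pairs.comap (D.Gam.prod (scal n))) ?_ ?_ k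
  · exact (StarSubalgebra.isClosed_topologicalClosure _).preimage
      (D.continuous_Gam.prodMk continuous_scal)
  · show (D.Gam idC, scal n idC) ∈ D.pairs
    rw [D.Gam_idC]
    exact D.subset_pairs (Or.inr (Or.inr rfl))

theorem phiM_mem (x : Mat n) : phiM x ∈ D.proj.range :=
  D.mem_range_proj (D.subset_pairs (Or.inl ⟨x, rfl⟩))

theorem vM_mem : vM ∈ D.proj.range :=
  D.mem_range_proj (D.subset_pairs (Or.inr (Or.inl rfl)))

end Gen

/-- The models of the columns at the right end. -/
def RM (a : Fin (n + 1)) : Field n :=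
  Fin.lastCases (star vM * vM) (fun i => phiM (munit i 0) * vM) a

theorem RM_one (a : Fin (n + 1)) : RM a 1 = amp (rightE n) (munit a (Fin.last n)) := by
  induction a using Fin.lastCases with
  | last =>
    rw [RM, Fin.lastCases_last, ContinuousMap.mul_apply, ContinuousMap.star_apply, vM_one,
      ← amp_star, ← amp_mul, star_munit, munit_mul, if_pos rfl]
  | cast i =>
    rw [RM, Fin.lastCases_castSucc, ContinuousMap.mul_apply, phiM_one, vM_one, ← amp_mul,
      Gen.cornerEmb_munit, munit_mul, if_pos rfl]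

/-- The models of the columns over the open interval. -/
def TM (x : Idx n) : Field n :=
  Fin.lastCases (phiM (munit x.1 0) * (star vM * vM))
    (fun m => scal n sqC * (phiM (munit x.1 0) * vM * phiM (munit m 0))) x.2

theorem phiM_munit_mul_apply (k l : Fin n) (g : Field n) (t : unitInterval) (x y : Idx n) :
    (phiM (munit k l) * g) t x y = if k = x.1 then wgt x.2 t * g t (l, x.2) y else 0 := by
  rw [ContinuousMap.mul_apply, CStarMatrix.mul_apply, Fintype.sum_prod_type]
  simp [phiM_apply, munit_apply, ite_and, ite_mul]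

theorem mul_phiM_munit_apply (k l : Fin n) (g : Field n) (t : unitInterval) (x y : Idx n) :
    (g * phiM (munit k l)) t x y = if l = y.1 then g t x (k, y.2) * wgt y.2 t else 0 := by
  rw [ContinuousMap.mul_apply, CStarMatrix.mul_apply, Fintype.sum_prod_type]
  simp [phiM_apply, munit_apply, ite_and, mul_ite, eq_comm (a := l)]

theorem star_vM_mul_vM_apply (t : unitInterval) (x y : Idx n) :
    (star vM * vM : Field n) t x y =
      if x = y ∧ x.2 = Fin.last n then ((t : ℝ) : ℂ) else 0 := by
  rw [ContinuousMap.mul_apply, CStarMatrix.mul_apply,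
    Finset.sum_eq_single ((0, Fin.castSucc x.1) : Idx n) (fun z _ hz => ?_)
      (fun h => absurd (Finset.mem_univ _) h)]
  · rw [ContinuousMap.star_apply, CStarMatrix.star_apply, vM_apply, vM_apply]
    by_cases h1 : x.2 = Fin.last n
    · have hs : SuppV ((0, Fin.castSucc x.1) : Idx n) x := ⟨rfl, h1, rfl⟩
      by_cases h2 : x = y
      · subst h2
        rw [if_pos hs, if_pos ⟨rfl, h1⟩]
        show (starRingEnd ℂ) (sqC t) * sqC t = _
        have := congrArg (fun k : C(unitInterval, ℂ) => k t) sqC_mul_self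
        simpa [sqC, idC, Complex.conj_ofReal] using this
      · have hn : ¬ SuppV ((0, Fin.castSucc x.1) : Idx n) y := fun h => h2
          (Prod.ext (Fin.castSucc_injective _ h.2.2) (h1.trans h.2.1.symm))
        rw [if_pos hs, if_neg hn, if_neg (fun h : x = y ∧ _ => h2 h.1), mul_zero]
    · have hn : ¬ SuppV ((0, Fin.castSucc x.1) : Idx n) x := fun h => h1 h.2.1
      rw [if_neg hn, star_zero, zero_mul, if_neg (fun h => h1 h.2)]
  · rw [ContinuousMap.star_apply, CStarMatrix.star_apply, vM_apply,
      if_neg (fun h => hz (Prod.ext h.1 h.2.2)), star_zero, zero_mul]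

theorem TM_apply (x : Idx n) (t : unitInterval) :
    TM x t = ((((t : ℝ) * (1 - (t : ℝ))) : ℝ) : ℂ) • munit x ((0, Fin.last n) : Idx n) := by
  refine CStarMatrix.ext fun w y => ?_
  obtain ⟨i, a⟩ := x
  obtain ⟨w₁, w₂⟩ := w
  obtain ⟨y₁, y₂⟩ := y
  rw [CStarMatrix.smul_apply, munit_apply]
  induction a using Fin.lastCases with
  | last =>
    rw [TM, Fin.lastCases_last, phiM_munit_mul_apply, star_vM_mul_vM_apply]
    by_cases h : i = w₁ ∧ w₂ = Fin.last n ∧ (0, Fin.last n) = ((y₁, y₂) : Idx n)
    · obtain ⟨rfl, rfl, h⟩ := h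
      simp [← h, wgt, mul_comm]
    · rw [if_neg (c := ((i, Fin.last n) : Idx n) = (w₁, w₂) ∧ _)
        (fun hh => h ⟨congrArg Prod.fst hh.1, (congrArg Prod.snd hh.1).symm, hh.2⟩), smul_zero]
      split_ifs with a b
      · refine absurd ⟨a, b.2, ?_⟩ h
        rw [← b.1]; exact Prod.ext rfl b.2.symm
      · rw [mul_zero]
      · rfl
  | cast m =>
    rw [TM, Fin.lastCases_castSucc, ContinuousMap.mul_apply, scal_apply, smul_mul_assoc, one_mul,
      CStarMatrix.smul_apply, mul_phiM_munit_apply, phiM_munit_mul_apply, vM_apply]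
    have hsq : sqC t * sqC t = ((t : ℝ) : ℂ) :=
      congrArg (fun k : C(unitInterval, ℂ) => k t) sqC_mul_self
    by_cases h : i = w₁ ∧ w₂ = Fin.castSucc m ∧ (0, Fin.last n) = ((y₁, y₂) : Idx n)
    · obtain ⟨rfl, rfl, h⟩ := h
      rw [Prod.mk.injEq] at h
      obtain ⟨rfl, rfl⟩ := h
      simp [wgt, SuppV, (Fin.castSucc_lt_last _).ne, ← mul_assoc, hsq]
    · rw [if_neg (c := ((i, Fin.castSucc m) : Idx n) = (w₁, w₂) ∧ _)
        (fun hh => h ⟨congrArg Prod.fst hh.1, (congrArg Prod.snd hh.1).symm, hh.2⟩), smul_zero]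
      split_ifs with a b c
      · exact absurd ⟨b, c.2.2, Prod.ext a c.2.1.symm⟩ h
      all_goals simp

theorem TM_mul_star (x y : Idx n) :
    TM x * star (TM y) = scal n wC * ContinuousMap.const _ (munit x y) :=
  ContinuousMap.ext fun t => by
    rw [ContinuousMap.mul_apply, ContinuousMap.star_apply, TM_apply, TM_apply,
      ContinuousMap.mul_apply, scal_apply, ContinuousMap.const_apply, star_smul, star_munit,
      smul_mul_assoc, mul_smul_comm, munit_mul, if_pos rfl, smul_smul, smul_mul_assoc, one_mul]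
    congr 1
    simp [wC, sq]

namespace Gen

variable (D : Gen n B)

theorem TM_mem (x : Idx n) : TM x ∈ D.proj.range := by
  have hv := D.vM_mem
  obtain ⟨i, a⟩ := x
  induction a using Fin.lastCases with
  | last =>
    rw [TM, Fin.lastCases_last]
    exact mul_mem (D.phiM_mem _) (mul_mem (star_mem hv) hv)
  | cast m =>
    rw [TM, Fin.lastCases_castSucc]
    exact mul_mem (D.scal_mem _) (mul_mem (mul_mem (D.phiM_mem _) hv) (D.phiM_mem _))

theorem RM_mem (a : Fin (n + 1)) : RM a ∈ D.proj.range := by
  have hv := D.vM_mem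
  induction a using Fin.lastCases with
  | last => rw [RM, Fin.lastCases_last]; exact mul_mem (star_mem hv) hv
  | cast i => rw [RM, Fin.lastCases_castSucc]; exact mul_mem (D.phiM_mem _) hv

/-- Fields vanishing at both ends are in the range. -/
theorem mem_of_ends_zero {g : Field n} (h0 : g 0 = 0) (h1 : g 1 = 0) : g ∈ D.proj.range := by
  have e : g = ∑ x, ∑ y, scal n (entry x y g) * ContinuousMap.const _ (munit x y) :=
    ContinuousMap.ext fun t => by
      simp only [ContinuousMap.sum_apply, ContinuousMap.mul_apply, scal_apply,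
        ContinuousMap.const_apply, smul_mul_assoc, one_mul]
      exact sum_smul_munit (g t)
  rw [e]
  refine sum_mem fun x _ => sum_mem fun y _ => ?_
  set F := fun k : C(unitInterval, ℂ) => scal n k * ContinuousMap.const _ (munit x y) with hF
  have hcl : IsClosed (D.proj.range : Set (Field n)) := by
    exact D.isClosed_range_proj
  have hk := mem_closure_mul_wC (k := entry x y g) (by rw [entry_apply, h0]; rfl)
    (by rw [entry_apply, h1]; rfl)
  have hFc : Continuous F := continuous_scal.mul continuous_const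
  refine hcl.closure_subset_iff.2 ?_ (map_mem_closure (f := F) (t := F '' _) hFc hk (Set.mapsTo_image F _))
  rintro _ ⟨_, ⟨l, rfl⟩, rfl⟩
  show scal n (l * wC) * ContinuousMap.const _ (munit x y) ∈ D.proj.range
  rw [map_mul, mul_assoc, ← TM_mul_star]
  exact mul_mem (D.scal_mem l) (mul_mem (D.TM_mem x) (star_mem (D.TM_mem y)))

theorem toFrame_mem (f : Drop.dropAlg n (n + 1) ℂ) : toFrame n f.1 ∈ D.proj.range := by
  set g := toFrame n f.1 with hg
  set m := rest (leftE n) 0 (g 0) with hm
  set y := rest (rightE n) 0 (g 1) with hy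
  set L := scal n (1 - idC) * phiM m with hL
  set R := scal n idC * ∑ a, ∑ b, y a b • (RM a * star (RM b)) with hR
  have hLm : L ∈ D.proj.range := mul_mem (D.scal_mem _) (D.phiM_mem _)
  have hRm : R ∈ D.proj.range := mul_mem (D.scal_mem _) (sum_mem fun a _ => sum_mem fun b _ =>
    SMulMemClass.smul_mem _ (mul_mem (D.RM_mem a) (star_mem (D.RM_mem b))))
  have h0 : (g - L - R) 0 = 0 := by
    simp only [hL, hR, ContinuousMap.sub_apply, ContinuousMap.mul_apply, scal_apply,
      phiM_zero, hm, hg, ← toFrame_zero f]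
    simp [idC]
  have h1 : (g - L - R) 1 = 0 := by
    have e : (∑ a, ∑ b, y a b • (RM a * star (RM b)) : Field n) 1 = g 1 := by
      simp only [ContinuousMap.sum_apply, ContinuousMap.smul_apply, ContinuousMap.mul_apply,
        ContinuousMap.star_apply, RM_one, ← amp_star, ← amp_mul, star_munit, munit_mul, if_pos,
        ← amp_smul, ← amp_sum, ← sum_smul_munit, hy, hg, ← toFrame_one f]
    simp only [hL, hR, ContinuousMap.sub_apply, ContinuousMap.mul_apply, scal_apply, e]
    simp [idC]
  have := add_mem (add_mem (D.mem_of_ends_zero h0 h1) hRm) hLm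
  rwa [sub_add_cancel, sub_add_cancel] at this

/-- The homomorphism out of the dimension drop algebra. -/
def dropHom : Drop.dropAlg n (n + 1) ℂ →⋆ₐ[ℂ] B :=
  ((StarAlgHom.fst ℂ B (Field n)).comp D.pairs.subtype).comp
    (((StarAlgEquiv.ofInjective D.proj D.proj_injective).symm :
        D.proj.range →⋆ₐ[ℂ] D.pairs).comp
      (StarAlgHom.codRestrict
        ((toFrame n : Field n →⋆ₐ[ℂ] Field n).comp (Drop.dropAlg n (n + 1) ℂ).subtype)
        D.proj.range D.toFrame_mem))

end Gen

/-- The universal property of `Z_{n,n+1}`. -/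
theorem exists_hom_dropAlg {n : ℕ} [NeZero n] {B : Type*} [CStarAlgebra B] [PartialOrder B]
    [StarOrderedRing B] (φ : CStarMatrix (Fin n) (Fin n) ℂ →ₗ[ℂ] B)
    (hstar : ∀ x, φ (star x) = star (φ x)) (hmul : ∀ x y, φ x * φ y = φ 1 * φ (x * y))
    (h0 : 0 ≤ φ 1) (v : B) (hv : star v * v = 1 - φ 1)
    (he : φ (CStarMatrix.ofMatrix (Matrix.single 0 0 1)) * v = v) :
    Nonempty (Drop.dropAlg n (n + 1) ℂ →⋆ₐ[ℂ] B) :=
  ⟨Gen.dropHom ⟨φ, v, hstar, hmul, h0, hv, he⟩⟩

end Vale.Agent.P101.Universal
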