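import Vale.Agent.P101.Powers
import Vale.Agent.P101.Universal
import Vale.Agent.P101.JiangSu.System
import Vale.Agent.P101.Central

/-!
# P101: no characters give unital homomorphisms from every stage of the Jiang-Su system
-/

set_option maxSynthPendingDepth 3

open scoped ComplexOrder

namespace Vale.Agent.P101

variable {B : Type*} [CStarAlgebra B] [PartialOrder B] [StarOrderedRing B]

/-- A unital homomorphism from `Z_{n,n+1}` for every `n = 2 ^ m` with `m ≥ 1`. -/
theorem exists_hom_pow_two (hF : Copyable B) (hχ : IsEmpty (B →⋆ₐ[ℂ] ℂ)) {m : ℕ} (hm : 1 ≤ m) :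
    Nonempty (Drop.dropAlg (2 ^ m) (2 ^ m + 1) ℂ →⋆ₐ[ℂ] B) := by
  obtain ⟨k, rfl⟩ : ∃ k, m = k + 1 := ⟨m - 1, by omega⟩
  obtain ⟨φ, v, hv, he⟩ := exists_gens_pow_two hF hχ k
  exact Universal.exists_hom_dropAlg
    (φ.toLin.comp CStarMatrix.ofMatrixₗ.symm.toLinearMap)
    (fun x ↦ φ.map_star _) (fun x y ↦ φ.mul _ _) φ.nonneg v hv he

/-- Without characters every stage of the Jiang-Su system maps unitally into the algebra. -/
theorem exists_hom_stage (hF : Copyable B) (hχ : IsEmpty (B →⋆ₐ[ℂ] ℂ)) (j : ℕ) :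
    Nonempty (Drop.dropAlg (JiangSu.p j) (JiangSu.q j) ℂ →⋆ₐ[ℂ] B) :=
  exists_hom_pow_two hF hχ (le_trans (by norm_num) (JiangSu.Dims.seq j).two_le_m)

end Vale.Agent.P101
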