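import Vale.Agent.P101.Central

/-!
# P101: the sequence algebra along an ultrafilter

All bounded sequences modulo those vanishing along `ω`, the map from the central sequence algebra
induced by a homomorphism, and lifting of unitaries.
-/

namespace Vale.Agent.P101.SeqAlg

open Filter Topology

variable (A : Type*) [CStarAlgebra A] (ω : Ultrafilter ℕ)

/-- The bounded sequences of `A` of a C⋆-algebra. -/
def bseq (A : Type*) [CStarAlgebra A] (_ω : Ultrafilter ℕ) : StarSubalgebra ℂ (ℕ → A) where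
  carrier := {x | ∃ C, ∀ n, ‖x n‖ ≤ C}
  mul_mem' := by
    rintro x y ⟨C, hC⟩ ⟨D, hD⟩
    exact ⟨C * D, fun n => (norm_mul_le _ _).trans
      (mul_le_mul (hC n) (hD n) (norm_nonneg _) ((norm_nonneg _).trans (hC n)))⟩
  one_mem' := ⟨‖(1 : A)‖, fun _ => le_rfl⟩
  add_mem' := by
    rintro x y ⟨C, hC⟩ ⟨D, hD⟩
    exact ⟨C + D, fun n => (norm_add_le _ _).trans (add_le_add (hC n) (hD n))⟩
  zero_mem' := ⟨0, fun n => by simp⟩
  algebraMap_mem' := fun c => ⟨‖algebraMap ℂ A c‖, fun _ => le_rfl⟩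
  star_mem' := by
    rintro x ⟨C, hC⟩
    exact ⟨C, fun n => by simpa using hC n⟩

variable {A ω}

theorem bseq_bdd (x : bseq A ω) : ∃ C, ∀ n, ‖(x : ℕ → A) n‖ ≤ C := x.2

theorem exists_limNorm (x : bseq A ω) :
    ∃ r : ℝ, Tendsto (fun n => ‖(x : ℕ → A) n‖) ω (𝓝 r) := by
  obtain ⟨C, hC⟩ := bseq_bdd x
  obtain ⟨r, -, hr⟩ := (isCompact_Icc (a := (0 : ℝ)) (b := C)).ultrafilter_le_nhds
    (ω.map fun n => ‖(x : ℕ → A) n‖)
    (le_principal_iff.2 (mem_map.2 (univ_mem' fun n => ⟨norm_nonneg _, hC n⟩)))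
  exact ⟨r, hr⟩

/-- The limit of the norms along `ω`. -/
noncomputable def limNorm (x : bseq A ω) : ℝ := (exists_limNorm x).choose

theorem tendsto_limNorm (x : bseq A ω) :
    Tendsto (fun n => ‖(x : ℕ → A) n‖) ω (𝓝 (limNorm x)) :=
  (exists_limNorm x).choose_spec

theorem limNorm_eq_zero_iff (x : bseq A ω) :
    limNorm x = 0 ↔ Tendsto (fun n => (x : ℕ → A) n) ω (𝓝 0) := by
  rw [tendsto_zero_iff_norm_tendsto_zero]
  exact ⟨fun h => h ▸ tendsto_limNorm x, fun h => tendsto_nhds_unique (tendsto_limNorm x) h⟩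

variable (A ω)

/-- The sequences vanishing along `ω`. -/
noncomputable def nullIdeal : Ideal (bseq A ω) where
  carrier := {x | Tendsto (fun n => (x : ℕ → A) n) ω (𝓝 0)}
  add_mem' := fun hx hy => by simpa using Tendsto.add hx hy
  zero_mem' := tendsto_const_nhds
  smul_mem' := fun c x hx => by
    obtain ⟨C, hC⟩ := bseq_bdd c
    refine squeeze_zero_norm (fun n => (norm_mul_le _ _).trans
      (mul_le_mul_of_nonneg_right (hC n) (norm_nonneg _))) ?_
    simpa using (show Tendsto (fun n => (x : ℕ → A) n) ω (𝓝 0) from hx).norm.const_mul C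

instance : (nullIdeal A ω).IsTwoSided :=
  ⟨fun {x} b (hx : Tendsto (fun n => (x : ℕ → A) n) ω (𝓝 0)) => by
    obtain ⟨C, hC⟩ := bseq_bdd b
    refine squeeze_zero_norm (fun n => (norm_mul_le _ _).trans
      (mul_le_mul_of_nonneg_left (hC n) (norm_nonneg _))) ?_
    simpa using hx.norm.mul_const C⟩

/-- The central sequence algebra `F_ω(A)`. -/
def SQ : Type _ := bseq A ω ⧸ nullIdeal A ω

noncomputable instance : Ring (SQ A ω) := inferInstanceAs (Ring (bseq A ω ⧸ nullIdeal A ω))

noncomputable instance : Algebra ℂ (SQ A ω) :=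
  inferInstanceAs (Algebra ℂ (bseq A ω ⧸ nullIdeal A ω))

variable {A ω}

/-- The class of a sequence. -/
noncomputable def toSQ (x : bseq A ω) : SQ A ω := Ideal.Quotient.mk (nullIdeal A ω) x

theorem toSQ_add (x y : bseq A ω) : toSQ (x + y) = toSQ x + toSQ y := rfl

theorem toSQ_sub (x y : bseq A ω) : toSQ (x - y) = toSQ x - toSQ y := rfl

theorem toSQ_mul (x y : bseq A ω) : toSQ (x * y) = toSQ x * toSQ y := rfl

theorem toSQ_neg (x : bseq A ω) : toSQ (-x) = -toSQ x := rfl

theorem toSQ_zero : toSQ (0 : bseq A ω) = 0 := rfl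

theorem toSQ_one : toSQ (1 : bseq A ω) = 1 := rfl

theorem toSQ_smul (c : ℂ) (x : bseq A ω) : toSQ (c • x) = c • toSQ x := rfl

theorem toSQ_algebraMap (c : ℂ) :
    toSQ (algebraMap ℂ (bseq A ω) c) = algebraMap ℂ (SQ A ω) c := rfl

theorem toSQ_surjective : Function.Surjective (toSQ : bseq A ω → SQ A ω) :=
  Ideal.Quotient.mk_surjective

theorem toSQ_eq_iff (x y : bseq A ω) :
    toSQ x = toSQ y ↔ Tendsto (fun n => (x : ℕ → A) n - (y : ℕ → A) n) ω (𝓝 0) :=
  Ideal.Quotient.eq (I := nullIdeal A ω)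

theorem star_toSQ_congr {x y : bseq A ω} (h : toSQ x = toSQ y) :
    toSQ (star x) = toSQ (star y) := by
  rw [toSQ_eq_iff] at h ⊢
  simpa [Pi.star_apply] using h.star

theorem limNorm_congr {x y : bseq A ω} (h : toSQ x = toSQ y) : limNorm x = limNorm y := by
  rw [toSQ_eq_iff, tendsto_iff_norm_sub_tendsto_zero] at h
  refine tendsto_nhds_unique (tendsto_limNorm x) ?_
  have h' : Tendsto (fun n => ‖(x : ℕ → A) n‖ - ‖(y : ℕ → A) n‖) ω (𝓝 0) :=
    squeeze_zero_norm (fun n => by simpa using abs_norm_sub_norm_le _ _) (by simpa using h)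
  simpa using h'.add (tendsto_limNorm y)

noncomputable instance : Star (SQ A ω) := ⟨fun p => toSQ (star (toSQ_surjective p).choose)⟩

noncomputable instance : Norm (SQ A ω) := ⟨fun p => limNorm (toSQ_surjective p).choose⟩

theorem star_toSQ (x : bseq A ω) : star (toSQ x) = toSQ (star x) :=
  star_toSQ_congr (toSQ_surjective (toSQ x)).choose_spec

theorem norm_toSQ (x : bseq A ω) : ‖toSQ x‖ = limNorm x :=
  limNorm_congr (toSQ_surjective (toSQ x)).choose_spec

theorem tendsto_norm_toSQ (x : bseq A ω) :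
    Tendsto (fun n => ‖(x : ℕ → A) n‖) ω (𝓝 ‖toSQ x‖) :=
  norm_toSQ x ▸ tendsto_limNorm x

noncomputable instance : StarRing (SQ A ω) where
  star_involutive p := by
    obtain ⟨x, rfl⟩ := toSQ_surjective p
    rw [star_toSQ, star_toSQ, star_star]
  star_mul p q := by
    obtain ⟨x, rfl⟩ := toSQ_surjective p
    obtain ⟨y, rfl⟩ := toSQ_surjective q
    rw [← toSQ_mul, star_toSQ, star_toSQ, star_toSQ, ← toSQ_mul, star_mul]
  star_add p q := by
    obtain ⟨x, rfl⟩ := toSQ_surjective p
    obtain ⟨y, rfl⟩ := toSQ_surjective q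
    rw [← toSQ_add, star_toSQ, star_toSQ, star_toSQ, ← toSQ_add, star_add]

noncomputable instance instNormedRingSQ : NormedRing (SQ A ω) :=
  RingNorm.toNormedRing
    { toFun := fun p => ‖p‖
      map_zero' := by
        rw [← toSQ_zero, norm_toSQ, limNorm_eq_zero_iff]
        exact tendsto_const_nhds
      add_le' := fun p q => by
        obtain ⟨x, rfl⟩ := toSQ_surjective p
        obtain ⟨y, rfl⟩ := toSQ_surjective q
        rw [← toSQ_add]
        exact le_of_tendsto_of_tendsto' (tendsto_norm_toSQ _)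
          ((tendsto_norm_toSQ x).add (tendsto_norm_toSQ y)) fun n => norm_add_le _ _
      neg' := fun p => by
        obtain ⟨x, rfl⟩ := toSQ_surjective p
        rw [← toSQ_neg]
        refine tendsto_nhds_unique (tendsto_norm_toSQ _) ?_
        simpa using tendsto_norm_toSQ x
      mul_le' := fun p q => by
        obtain ⟨x, rfl⟩ := toSQ_surjective p
        obtain ⟨y, rfl⟩ := toSQ_surjective q
        rw [← toSQ_mul]
        exact le_of_tendsto_of_tendsto' (tendsto_norm_toSQ _)
          ((tendsto_norm_toSQ x).mul (tendsto_norm_toSQ y)) fun n => norm_mul_le _ _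
      eq_zero_of_map_eq_zero' := fun p hp => by
        obtain ⟨x, rfl⟩ := toSQ_surjective p
        rw [norm_toSQ, limNorm_eq_zero_iff] at hp
        rw [← toSQ_zero, toSQ_eq_iff]
        simpa using hp }

noncomputable instance : NormedAlgebra ℂ (SQ A ω) where
  norm_smul_le c p := by
    obtain ⟨x, rfl⟩ := toSQ_surjective p
    rw [← toSQ_smul]
    exact le_of_tendsto_of_tendsto' (tendsto_norm_toSQ _) ((tendsto_norm_toSQ x).const_mul ‖c‖)
      fun n => (norm_smul_le c ((x : ℕ → A) n) : _)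

instance : StarModule ℂ (SQ A ω) :=
  ⟨fun c p => by
    obtain ⟨x, rfl⟩ := toSQ_surjective p
    rw [← toSQ_smul, star_toSQ, star_toSQ, ← toSQ_smul, star_smul]⟩

instance : CStarRing (SQ A ω) :=
  ⟨fun p => by
    obtain ⟨x, rfl⟩ := toSQ_surjective p
    rw [star_toSQ, ← toSQ_mul]
    refine le_of_eq (tendsto_nhds_unique ((tendsto_norm_toSQ x).mul (tendsto_norm_toSQ x)) ?_)
    refine (tendsto_norm_toSQ (star x * x)).congr fun n => ?_
    simp [Pi.star_apply, CStarRing.norm_star_mul_self]⟩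

theorem norm_toSQ_le_of_eventually {x : bseq A ω} {r : ℝ}
    (h : ∀ᶠ n in (ω : Filter ℕ), ‖(x : ℕ → A) n‖ ≤ r) : ‖toSQ x‖ ≤ r :=
  le_of_tendsto (tendsto_norm_toSQ x) h

instance : CompleteSpace (SQ A ω) := by
  classical
  refine Metric.complete_of_convergent_controlled_sequences (fun N => (1 / 2 : ℝ) ^ N)
    (fun N => by positivity) fun u hu => ?_
  choose x hx using fun k => toSQ_surjective (u k)
  let D : ℕ → ℕ → A := fun k n => (x (k + 1) : ℕ → A) n - (x k : ℕ → A) n
  let e : ℕ → ℕ → A := fun k n => if ‖D k n‖ ≤ (1 / 2 : ℝ) ^ k then D k n else 0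
  have he : ∀ k n, ‖e k n‖ ≤ (1 / 2 : ℝ) ^ k := fun k n => by
    simp only [e]; split_ifs with h
    · exact h
    · simp
  have heD : ∀ k, ∀ᶠ n in (ω : Filter ℕ), e k n = D k n := fun k => by
    have h := hu k (k + 1) k (Nat.le_succ k) le_rfl
    rw [dist_eq_norm, ← hx, ← hx, ← toSQ_sub] at h
    filter_upwards [(tendsto_norm_toSQ _).eventually (eventually_le_nhds h)] with n hn
    simp only [e]
    rw [if_pos]
    simpa [D] using hn
  let S : ℕ → ℕ → A := fun N n => (x 0 : ℕ → A) n + ∑ k ∈ Finset.range N, e k n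
  have hS : ∀ N, ∀ᶠ n in (ω : Filter ℕ), S N n = (x N : ℕ → A) n := by
    intro N
    induction N with
    | zero => exact .of_forall fun n => by simp [S]
    | succ N ih =>
      filter_upwards [ih, heD N] with n h1 h2
      simp only [S, Finset.sum_range_succ, ← add_assoc]
      rw [show (x 0 : ℕ → A) n + ∑ k ∈ Finset.range N, e k n = S N n from rfl, h1, h2]
      simp [D]
  have hsum : ∀ n, Summable fun k => e k n := fun n =>
    .of_norm_bounded summable_geometric_two (he · n)
  let L : ℕ → A := fun n => (x 0 : ℕ → A) n + ∑' k, e k n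
  have hLS : ∀ N n, ‖L n - S N n‖ ≤ 2 * (1 / 2 : ℝ) ^ N := fun N n => by
    have h := (hsum n).sum_add_tsum_nat_add N
    have : L n - S N n = ∑' k, e (k + N) n := by simp only [L, S, ← h]; abel
    rw [this]
    refine tsum_of_norm_bounded (g := fun k => (1 / 2 : ℝ) ^ N * (1 / 2) ^ k) ?_ fun k => ?_
    · simpa [mul_comm] using (hasSum_geometric_two.mul_left ((1 / 2 : ℝ) ^ N))
    · exact (he _ n).trans_eq (by rw [pow_add, mul_comm])
  have hLmem : L ∈ bseq A ω := by
    obtain ⟨C, hC⟩ := bseq_bdd (x 0)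
    refine ⟨C + 2, fun n => ?_⟩
    have := hLS 0 n
    simp only [S, Finset.range_zero, Finset.sum_empty, add_zero, pow_zero, mul_one] at this
    calc ‖L n‖ = ‖(L n - (x 0 : ℕ → A) n) + (x 0 : ℕ → A) n‖ := by rw [sub_add_cancel]
      _ ≤ 2 + C := (norm_add_le _ _).trans (add_le_add this (hC n))
      _ = C + 2 := add_comm _ _
  refine ⟨toSQ ⟨L, hLmem⟩, ?_⟩
  rw [tendsto_iff_norm_sub_tendsto_zero]
  refine squeeze_zero (fun _ => norm_nonneg _) (fun N => ?_)
    (show Tendsto (fun N : ℕ => 2 * (1 / 2 : ℝ) ^ N) atTop (𝓝 0) by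
      simpa using (tendsto_pow_atTop_nhds_zero_of_lt_one
        (show (0:ℝ) ≤ 1 / 2 by norm_num) (by norm_num)).const_mul 2)
  rw [← hx N, ← toSQ_sub]
  refine norm_toSQ_le_of_eventually ((hS N).mono fun n hn => ?_)
  have := hLS N n
  rw [hn, norm_sub_rev] at this
  simpa using this

noncomputable instance : CStarAlgebra (SQ A ω) where

variable {B : Type*} [CStarAlgebra B]

/-- A homomorphism applied to a central sequence. -/
def mapSeq (α : A →⋆ₐ[ℂ] B) (x : cseq A ω) : bseq B ω :=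
  ⟨fun n => α ((x : ℕ → A) n), by
    obtain ⟨C, hC⟩ := P101.cseq_bdd x
    exact ⟨C, fun n => (NonUnitalStarAlgHom.norm_apply_le α _).trans (hC n)⟩⟩

theorem coe_mapSeq (α : A →⋆ₐ[ℂ] B) (x : cseq A ω) (n : ℕ) :
    (mapSeq α x : ℕ → B) n = α ((x : ℕ → A) n) := rfl

theorem toSQ_mapSeq_congr (α : A →⋆ₐ[ℂ] B) {x y : cseq A ω} (h : toFO x = toFO y) :
    toSQ (mapSeq α x) = toSQ (mapSeq α y) := by
  rw [toFO_eq_iff] at h
  rw [toSQ_eq_iff]
  refine squeeze_zero_norm (fun n => ?_) (by simpa using h.norm)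
  simp only [coe_mapSeq, ← map_sub]
  exact NonUnitalStarAlgHom.norm_apply_le α _

/-- The map on sequence algebras induced by a homomorphism. -/
noncomputable def mapFun (α : A →⋆ₐ[ℂ] B) (p : FO A ω) : SQ B ω :=
  toSQ (mapSeq α (toFO_surjective p).choose)

theorem mapFun_toFO (α : A →⋆ₐ[ℂ] B) (x : cseq A ω) :
    mapFun α (toFO x) = toSQ (mapSeq α x) :=
  toSQ_mapSeq_congr α (toFO_surjective (toFO x)).choose_spec

/-- The homomorphism from the central sequence algebra induced by a homomorphism. -/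
noncomputable def mapHom (α : A →⋆ₐ[ℂ] B) : FO A ω →⋆ₐ[ℂ] SQ B ω where
  toFun := mapFun α
  map_one' := by
    rw [← toFO_one, mapFun_toFO, ← toSQ_one]
    exact congrArg toSQ (Subtype.ext (funext fun n => map_one α))
  map_mul' p q := by
    obtain ⟨x, rfl⟩ := toFO_surjective p
    obtain ⟨y, rfl⟩ := toFO_surjective q
    rw [← toFO_mul, mapFun_toFO, mapFun_toFO, mapFun_toFO, ← toSQ_mul]
    exact congrArg toSQ (Subtype.ext (funext fun n => map_mul α _ _))
  map_zero' := by
    rw [← toFO_zero, mapFun_toFO, ← toSQ_zero]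
    exact congrArg toSQ (Subtype.ext (funext fun n => map_zero α))
  map_add' p q := by
    obtain ⟨x, rfl⟩ := toFO_surjective p
    obtain ⟨y, rfl⟩ := toFO_surjective q
    rw [← toFO_add, mapFun_toFO, mapFun_toFO, mapFun_toFO, ← toSQ_add]
    exact congrArg toSQ (Subtype.ext (funext fun n => map_add α _ _))
  commutes' c := by
    rw [← toFO_algebraMap, mapFun_toFO, ← toSQ_algebraMap]
    exact congrArg toSQ (Subtype.ext (funext fun n => AlgHomClass.commutes α c))
  map_star' p := by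
    obtain ⟨x, rfl⟩ := toFO_surjective p
    rw [P101.star_toFO, mapFun_toFO, mapFun_toFO, star_toSQ]
    exact congrArg toSQ (Subtype.ext (funext fun n => map_star α _))

theorem mapHom_toFO (α : A →⋆ₐ[ℂ] B) (x : cseq A ω) :
    mapHom α (toFO x) = toSQ (mapSeq α x) :=
  mapFun_toFO α x

variable (ω) in
/-- The constant sequences. -/
noncomputable def const : B →⋆ₐ[ℂ] SQ B ω where
  toFun b := toSQ ⟨fun _ => b, ‖b‖, fun _ => le_rfl⟩
  map_one' := rfl
  map_mul' _ _ := rfl
  map_zero' := rfl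
  map_add' _ _ := rfl
  commutes' _ := rfl
  map_star' b := by rw [star_toSQ]; rfl

variable (ω) in
theorem norm_const (b : B) : ‖const ω b‖ = ‖b‖ :=
  tendsto_nhds_unique (f := fun _ : ℕ => ‖b‖) (l := (ω : Filter ℕ))
    (tendsto_norm_toSQ (⟨fun _ => b, ‖b‖, fun _ => le_rfl⟩ : bseq B ω)) tendsto_const_nhds

/-- The image of the central sequence algebra commutes with the image of the algebra. -/
theorem commute_mapHom_const (α : A →⋆ₐ[ℂ] B) (p : FO A ω) (a : A) :
    Commute (mapHom α p) (const ω (α a)) := by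
  obtain ⟨x, rfl⟩ := toFO_surjective p
  rw [mapHom_toFO]
  show _ * toSQ _ = toSQ _ * _
  rw [← toSQ_mul, ← toSQ_mul, toSQ_eq_iff]
  refine squeeze_zero_norm (fun n => ?_) (by simpa using (x.2.2 a).norm)
  show ‖α ((x : ℕ → A) n) * α a - α a * α ((x : ℕ → A) n)‖ ≤ _
  rw [← map_mul, ← map_mul, ← map_sub]
  exact NonUnitalStarAlgHom.norm_apply_le α _

/-- An almost unitary element is close to a unitary. -/
theorem exists_unitary_near {x : B} {δ : ℝ} (h : ‖star x * x - 1‖ ≤ δ) (hδ : δ ≤ 1 / 2)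
    (h' : ‖x * star x - 1‖ < 1) : ∃ v : unitary B, ‖x - v‖ ≤ 4 * δ := by
  rcases subsingleton_or_nontrivial B with hB | hB
  · refine ⟨1, ?_⟩
    rw [Subsingleton.elim (x - _) 0, norm_zero]
    linarith [(norm_nonneg _).trans h]
  have hy : IsSelfAdjoint (star x * x) := IsSelfAdjoint.star_mul_self x
  have hsp : ∀ t ∈ spectrum ℝ (star x * x), |t - 1| ≤ δ := fun t ht => by
    have e : cfc (fun s : ℝ => s - 1) (star x * x) = star x * x - 1 := by
      rw [cfc_sub (a := star x * x) (fun s : ℝ => s) (fun _ => 1), cfc_id' ℝ (star x * x),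
        cfc_const_one ℝ (star x * x)]
    refine le_trans ?_ (e.symm ▸ h : ‖cfc (fun s : ℝ => s - 1) (star x * x)‖ ≤ δ)
    exact norm_apply_le_norm_cfc (fun s : ℝ => s - 1) (star x * x) ht
  have hpos : ∀ t ∈ spectrum ℝ (star x * x), 1 / 2 ≤ t := fun t ht => by
    linarith [(abs_le.1 (hsp t ht)).1]
  set f : ℝ → ℝ := fun t => (√t)⁻¹ with hf
  have hfc : ContinuousOn f (spectrum ℝ (star x * x)) :=
    Real.continuous_sqrt.continuousOn.inv₀ fun t ht => by
      have := hpos t ht
      positivity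
  set r := cfc f (star x * x) with hr
  have hrsa : IsSelfAdjoint r := cfc_predicate f _
  have hv : star (x * r) * (x * r) = 1 := by
    have e : r * (star x * x) * r = cfc (fun t => f t * t * f t) (star x * x) := by
      rw [cfc_mul (fun t => f t * t) f (star x * x) (hfc.mul continuousOn_id) hfc,
        cfc_mul f (fun t => t) (star x * x) hfc continuousOn_id, cfc_id' ℝ (star x * x)]
    rw [star_mul, hrsa.star_eq, show r * star x * (x * r) = r * (star x * x) * r by
      simp only [mul_assoc], e, ← cfc_const_one ℝ (star x * x)]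
    refine cfc_congr fun t ht => ?_
    have := hpos t ht
    have hs : √t * √t = t := Real.mul_self_sqrt (by linarith)
    have hs' : √t ≠ 0 := by positivity
    simp only [hf]
    field_simp
    linarith
  have hu : IsUnit r := by
    rw [hr, isUnit_cfc_iff f (star x * x) hfc]
    exact fun t ht => by
      have := hpos t ht
      simp only [hf]
      positivity
  have hxu : IsUnit (x * star x) := by
    have := Units.oneSub (1 - x * star x) (by rwa [norm_sub_rev])
    have e : ((Units.oneSub (1 - x * star x) (by rwa [norm_sub_rev])) : B) = x * star x := by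
      rw [Units.val_oneSub]; abel
    exact e ▸ Units.isUnit _
  have hv' : x * r * star (x * r) = 1 := by
    have h1 : IsUnit (star x * x) := by
      rw [← cfc_id' ℝ (star x * x), isUnit_cfc_iff (fun t : ℝ => t) (star x * x)]
      exact fun t ht => by linarith [hpos t ht]
    have hx : IsUnit x := by
      obtain ⟨a, ha⟩ := h1.exists_left_inv
      obtain ⟨b, hb⟩ := hxu.exists_right_inv
      exact isUnit_iff_exists_and_exists.2
        ⟨⟨star x * b, by rw [← mul_assoc]; exact hb⟩, ⟨a * star x, by rw [mul_assoc]; exact ha⟩⟩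
    obtain ⟨c, hc⟩ := (hx.mul hu).exists_right_inv
    rwa [left_inv_eq_right_inv hv hc]
  refine ⟨⟨x * r, Unitary.mem_iff.2 ⟨hv, hv'⟩⟩, ?_⟩
  have hx2 : ‖x‖ ≤ 2 := by
    have h1 : ‖star x * x‖ ≤ 3 / 2 := by
      linarith [norm_le_insert' (star x * x) (1 : B), (norm_one : ‖(1 : B)‖ = 1)]
    rw [CStarRing.norm_star_mul_self] at h1
    nlinarith [norm_nonneg x]
  have hr1 : ‖1 - r‖ ≤ 2 * δ := by
    have e : 1 - r = cfc (fun t => 1 - f t) (star x * x) := by
      rw [cfc_sub (fun _ => (1 : ℝ)) f (star x * x) continuousOn_const hfc,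
        cfc_const_one ℝ (star x * x)]
    rw [e]
    refine norm_cfc_le (by linarith [(norm_nonneg _).trans h]) fun t ht => ?_
    have h2 := hsp t ht
    have h3 := hpos t ht
    have hs : √t * √t = t := Real.mul_self_sqrt (by linarith)
    have hsn : 0 ≤ √t := Real.sqrt_nonneg t
    have hs1 : (1 : ℝ) / 2 ≤ √t := by nlinarith
    simp only [hf, Real.norm_eq_abs]
    rw [show 1 - (√t)⁻¹ = (√t - 1) / √t by field_simp, abs_div, abs_of_nonneg hsn,
      div_le_iff₀ (by linarith)]
    have h4 : |√t - 1| * (√t + 1) = |t - 1| := by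
      rw [← abs_of_nonneg (show 0 ≤ √t + 1 by linarith), ← abs_mul]
      congr 1
      linarith
    nlinarith [abs_nonneg (√t - 1)]
  calc ‖x - x * r‖ = ‖x * (1 - r)‖ := by rw [mul_sub, mul_one]
    _ ≤ ‖x‖ * ‖1 - r‖ := norm_mul_le _ _
    _ ≤ 2 * (2 * δ) := mul_le_mul hx2 hr1 (norm_nonneg _) zero_le_two
    _ = 4 * δ := by ring

/-- The bounded sequence given by unitaries. -/
def unitarySeq (v : ℕ → unitary B) : bseq B ω :=
  ⟨fun n => v n, ‖(1 : B)‖, fun n => by
    rw [show ‖((v n : unitary B) : B)‖ = ‖((v n : unitary B) : B) * 1‖ by rw [mul_one],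
      CStarRing.norm_coe_unitary_mul]⟩

/-- Unitaries lift to sequences of unitaries. -/
theorem exists_unitary_lift {u : SQ B ω} (hu : u ∈ unitary (SQ B ω)) :
    ∃ v : ℕ → unitary B, toSQ (unitarySeq v) = u := by
  classical
  obtain ⟨x, rfl⟩ := toSQ_surjective u
  obtain ⟨h1, h2⟩ := Unitary.mem_iff.1 hu
  rw [star_toSQ, ← toSQ_mul, ← toSQ_one, toSQ_eq_iff, tendsto_zero_iff_norm_tendsto_zero] at h1 h2
  let z : ℕ → B := fun n => (x : ℕ → B) n
  let P : ℕ → Prop := fun n =>
    ‖star (z n) * z n - 1‖ ≤ 1 / 2 ∧ ‖z n * star (z n) - 1‖ < 1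
  have hc : ∀ n, ∃ v : unitary B, P n → ‖z n - v‖ ≤ 4 * ‖star (z n) * z n - 1‖ := fun n => by
    by_cases hP : P n
    · obtain ⟨v, hv⟩ := exists_unitary_near le_rfl hP.1 hP.2
      exact ⟨v, fun _ => hv⟩
    · exact ⟨1, fun h => absurd h hP⟩
  choose v hv using hc
  refine ⟨v, ?_⟩
  rw [eq_comm, toSQ_eq_iff]
  refine squeeze_zero_norm' ?_ (by simpa using h1.const_mul 4)
  filter_upwards [h1.eventually (eventually_le_nhds (by norm_num : (0 : ℝ) < 1 / 2)),
    h2.eventually (eventually_lt_nhds (by norm_num : (0 : ℝ) < 1))] with n ha hb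
  exact hv n ⟨ha, hb⟩

end Vale.Agent.P101.SeqAlg
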