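import Vale.Agent.P101.Statement
import Vale.Agent.P101.Central
import Vale.Agent.P101.Limit.JiangSu

/-!
# P101: the elementary wording agrees with the working definitions
-/

set_option maxSynthPendingDepth 3

open Filter Topology
open scoped ComplexOrder
open Vale.Agent.P101.Drop (dropAlg)

namespace Vale.Agent.P101.Statement

universe u

/-- A character of `F_ω(A)` gives one on representing sequences. -/
theorem hasCharacter_of_hom {A : Type u} [CStarAlgebra A] {ω : Ultrafilter ℕ}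
    (χ : FO A ω →⋆ₐ[ℂ] ℂ) : HasCharacter A ω := by
  classical
  let ψ : (ℕ → A) → ℂ := fun x => if h : x ∈ cseq A ω then χ (toFO ⟨x, h⟩) else 0
  have hψ : ∀ x : cseq A ω, ψ x.1 = χ (toFO x) := fun x => dif_pos x.2
  refine ⟨ψ, ?_, fun x hx hx0 => ?_, fun x hx => ?_, fun z x hx => ?_,
    fun x y hx hy => ⟨?_, ?_⟩⟩
  · exact (hψ 1).trans (by rw [toFO_one, map_one])
  · have : toFO ⟨x, hx⟩ = 0 := by
      rw [← toFO_zero, toFO_eq_iff]
      simpa using hx0
    exact (hψ ⟨x, hx⟩).trans (by rw [this, map_zero])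
  · rw [show ψ x = _ from hψ ⟨x, hx⟩]
    exact (hψ (star ⟨x, hx⟩)).trans (by rw [← star_toFO, map_star]; rfl)
  · rw [show ψ x = _ from hψ ⟨x, hx⟩]
    exact (hψ (z • ⟨x, hx⟩)).trans (by rw [toFO_smul, map_smul, smul_eq_mul])
  · rw [show ψ x = _ from hψ ⟨x, hx⟩, show ψ y = _ from hψ ⟨y, hy⟩]
    exact (hψ (⟨x, hx⟩ + ⟨y, hy⟩)).trans (by rw [toFO_add, map_add])
  · rw [show ψ x = _ from hψ ⟨x, hx⟩, show ψ y = _ from hψ ⟨y, hy⟩]
    exact (hψ (⟨x, hx⟩ * ⟨y, hy⟩)).trans (by rw [toFO_mul, map_mul])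

theorem isDropFun_val {p q : ℕ} (f : dropAlg p q ℂ) : IsDropFun p q (Limit.val f) :=
  ⟨Limit.continuous_val f, Limit.val_zero_left f, Limit.val_one_right f⟩

/-- A homomorphism of the dimension drop algebra read on functions. -/
noncomputable def onFun {Z : Type} [CStarAlgebra Z] {p q : ℕ} (φ : dropAlg p q ℂ →⋆ₐ[ℂ] Z)
    (F : MatFun p q) : Z := by
  classical
  exact if h : IsDropFun p q F then φ (Limit.el F h.1 h.2.1 h.2.2) else 0

theorem onFun_val {Z : Type} [CStarAlgebra Z] {p q : ℕ} (φ : dropAlg p q ℂ →⋆ₐ[ℂ] Z)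
    (f : dropAlg p q ℂ) : onFun φ (Limit.val f) = φ f := by
  rw [onFun, dif_pos (isDropFun_val f)]
  exact congrArg φ (Limit.val_ext fun t => rfl)

theorem exists_val {p q : ℕ} {F : MatFun p q} (h : IsDropFun p q F) :
    ∃ f : dropAlg p q ℂ, Limit.val f = F :=
  ⟨Limit.el F h.1 h.2.1 h.2.2, rfl⟩

theorem image_onFun {Z : Type} [CStarAlgebra Z] {p q : ℕ} (φ : dropAlg p q ℂ →⋆ₐ[ℂ] Z) :
    onFun φ '' {F | IsDropFun p q F} = Set.range φ := by
  ext z
  constructor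
  · rintro ⟨F, hF, rfl⟩
    obtain ⟨f, rfl⟩ := exists_val hF
    exact ⟨f, (onFun_val φ f).symm⟩
  · rintro ⟨f, rfl⟩
    exact ⟨_, isDropFun_val f, onFun_val φ f⟩

theorem isDropEmb_onFun {Z : Type} [CStarAlgebra Z] {p q : ℕ} (φ : dropAlg p q ℂ →⋆ₐ[ℂ] Z)
    (hφ : Function.Injective φ) : IsDropEmb p q (onFun φ) := by
  refine ⟨(onFun_val φ 1).trans (map_one φ), fun F G hF hG => ?_⟩
  obtain ⟨f, rfl⟩ := exists_val hF
  obtain ⟨g, rfl⟩ := exists_val hG
  refine ⟨?_, ?_, fun c => ?_, ?_, fun h => ?_⟩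
  · rw [onFun_val, onFun_val, ← map_add]; exact onFun_val φ (f + g)
  · rw [onFun_val, onFun_val, ← map_mul]; exact onFun_val φ (f * g)
  · rw [onFun_val, ← map_smul]; exact onFun_val φ (c • f)
  · rw [onFun_val, ← map_star]; exact onFun_val φ (star f)
  · rw [onFun_val, onFun_val] at h; rw [hφ h]

/-- An algebra with the working characterisation satisfies the elementary one. -/
theorem isJiangSuAlgebra {Z : Type} [CStarAlgebra Z] (h : IsJiangSu Z) : IsJiangSuAlgebra Z := by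
  obtain ⟨⟨p, q, ψ, hψ, hd⟩, hs, ht⟩ := h
  refine ⟨⟨p, q, fun j => onFun (ψ j), fun j => ?_, ?_⟩, hs, ht⟩
  · obtain ⟨hp, hq, hc, hi, hm⟩ := hψ j
    exact ⟨hp, hq, hc, isDropEmb_onFun _ hi, by simpa only [image_onFun] using hm⟩
  · simpa only [image_onFun] using hd

end Vale.Agent.P101.Statement
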