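import Mathlib

/-!
Compressions of matrices by columns: `‖∑ (r i)* M i j r j‖ ≤ ‖M‖ ‖∑ (r i)* r i‖`, also along a
family of entrywise images of matrices over another algebra.
-/

open scoped CStarAlgebra

namespace Vale.Agent.P101

section

variable {B : Type*} [CStarAlgebra B] [PartialOrder B] [StarOrderedRing B]
variable {μ : Type*} [Fintype μ]

open WithCStarModule in
/-- The compression of a matrix by a column. -/
theorem norm_column_le (r : μ → B) (M : CStarMatrix μ μ B) :
    ‖∑ i, ∑ j, star (r i) * M i j * r j‖ ≤ ‖M‖ * ‖∑ i, star (r i) * r i‖ := by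
  set v : C⋆ᵐᵒᵈ(B, μ → B) := (equiv _ _).symm fun i => star (r i) with hv
  have e : ∑ i, ∑ j, star (r i) * M i j * r j = inner B v (CStarMatrix.toCLM M v) := by
    simp only [hv, CStarMatrix.toCLM_apply_eq_sum, pi_inner, equiv_symm_pi_apply, inner_def,
      star_star, Finset.sum_mul]
    exact Finset.sum_comm
  have e2 : ‖∑ i, star (r i) * r i‖ = ‖v‖ ^ 2 := by
    rw [pi_norm_sq]
    simp [hv, inner_def]
  rw [e, e2, CStarMatrix.norm_def, sq, ← mul_assoc]
  refine (CStarModule.norm_inner_le (C⋆ᵐᵒᵈ(B, μ → B))).trans ?_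
  rw [mul_comm]
  exact mul_le_mul_of_nonneg_right ((CStarMatrix.toCLM M).le_opNorm v) (norm_nonneg _)

end

variable {A B : Type*} [CStarAlgebra A] [PartialOrder A] [StarOrderedRing A]
  [CStarAlgebra B] [PartialOrder B] [StarOrderedRing B]
variable {κ ν : Type*} [Fintype κ] [DecidableEq κ] [Fintype ν] [DecidableEq ν]

omit [CStarAlgebra A] [PartialOrder A] [StarOrderedRing A] [CStarAlgebra B] [PartialOrder B]
  [StarOrderedRing B] in
private theorem ofMatrix_mk {μ : Type*} (f : μ → μ → B) (p q : μ) :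
    CStarMatrix.ofMatrix (fun a b => f a b) p q = f p q := rfl

/-- The block diagonal of entrywise images. -/
noncomputable def blockMap (φ : A →⋆ₐ[ℂ] B) :
    (κ → CStarMatrix ν ν A) →⋆ₙₐ[ℂ] CStarMatrix (ν × κ) (ν × κ) B where
  toFun y := CStarMatrix.ofMatrix fun p q => if p.2 = q.2 then φ (y p.2 p.1 q.1) else 0
  map_smul' c y := by
    ext ⟨i, k⟩ ⟨j, l⟩
    rcases eq_or_ne k l with h | h <;> simp [h, ofMatrix_mk]
  map_zero' := by
    ext ⟨i, k⟩ ⟨j, l⟩
    rcases eq_or_ne k l with h | h <;> simp [h, ofMatrix_mk, CStarMatrix.zero_apply]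
  map_add' y z := by
    ext ⟨i, k⟩ ⟨j, l⟩
    rcases eq_or_ne k l with h | h <;> simp [h, ofMatrix_mk]
  map_mul' y z := by
    ext ⟨i, k⟩ ⟨j, l⟩
    rcases eq_or_ne k l with h | h <;>
      simp [h, ofMatrix_mk, CStarMatrix.mul_apply, Fintype.sum_prod_type]
  map_star' y := by
    ext ⟨i, k⟩ ⟨j, l⟩
    rcases eq_or_ne k l with h | h <;>
      simp [h, ofMatrix_mk, CStarMatrix.star_apply, eq_comm (a := l), map_star]

/-- A sum of compressed images is bounded by the largest matrix. -/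
theorem norm_compress_le (φ : A →⋆ₐ[ℂ] B) (r : κ → ν → B)
    (hr : ‖∑ k, ∑ i, star (r k i) * r k i‖ ≤ 1) (y : κ → CStarMatrix ν ν A) :
    ‖∑ k, ∑ i, ∑ j, star (r k i) * φ (y k i j) * r k j‖ ≤ ‖y‖ := by
  have h := norm_column_le (fun p : ν × κ => r p.2 p.1) (blockMap φ y)
  have e : ∑ p : ν × κ, ∑ q : ν × κ, star (r p.2 p.1) * blockMap φ y p q * r q.2 q.1 =
      ∑ k, ∑ i, ∑ j, star (r k i) * φ (y k i j) * r k j := by
    rw [Fintype.sum_prod_type_right]
    refine Finset.sum_congr rfl fun k _ => Finset.sum_congr rfl fun i _ => ?_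
    simp [blockMap, ofMatrix_mk, Fintype.sum_prod_type]
  rw [e, Fintype.sum_prod_type_right] at h
  refine h.trans ?_
  exact (mul_le_of_le_one_right (norm_nonneg _) hr).trans
    (NonUnitalStarAlgHom.norm_apply_le (blockMap φ) y)

end Vale.Agent.P101
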