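import Mathlib

/-!
# The one-parameter unitary group of a self-adjoint involution

For `u = u*`, `u * u = 1` in a C*-algebra, `invPath u r = (1+u)/2 + e^{iπr} (1-u)/2` is a
unitary group with `invPath u 0 = 1` and `invPath u 1 = u`, commuting with everything
commuting with `u`.
-/

namespace Vale.Agent.P101.HalfFlip

open Complex

variable {R : Type*} [CStarAlgebra R]

/-- `invPath u r = (1+u)/2 + e^{iπr} (1-u)/2`. -/
noncomputable def invPath (u : R) (r : ℝ) : R :=
  (1 / 2 : ℂ) • (1 + u) + ((exp (Real.pi * r * I)) / 2) • (1 - u)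

lemma invPath_zero (u : R) : invPath u 0 = 1 := by
  simp only [invPath, Complex.ofReal_zero, mul_zero, zero_mul, exp_zero]
  rw [← smul_add]
  have : (1 + u) + (1 - u) = (2 : ℂ) • (1 : R) := by
    rw [show (2 : ℂ) • (1 : R) = (1 : R) + 1 from two_smul ℂ 1]; abel
  rw [this, smul_smul]
  norm_num

lemma invPath_one (u : R) : invPath u 1 = u := by
  simp only [invPath, Complex.ofReal_one, mul_one, exp_pi_mul_I]
  rw [neg_div, neg_smul, ← sub_eq_add_neg, ← smul_sub]
  have : (1 + u) - (1 - u) = (2 : ℂ) • u := by
    rw [two_smul]; abel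
  rw [this, smul_smul]
  norm_num

lemma commute_invPath {u x : R} (h : Commute u x) (r : ℝ) : Commute (invPath u r) x :=
  (((Commute.one_left x).add_left h).smul_left _).add_left
    (((Commute.one_left x).sub_left h).smul_left _)

lemma invPath_mul {u : R} (hu : u * u = 1) (r r' : ℝ) :
    invPath u r * invPath u r' = invPath u (r + r') := by
  have h1 : (1 + u) * (1 + u) = (2 : ℂ) • (1 + u) := by
    rw [two_smul]; simp only [mul_add, add_mul, one_mul, mul_one, hu]; abel
  have h2 : (1 - u) * (1 - u) = (2 : ℂ) • (1 - u) := by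
    rw [two_smul]; simp only [mul_sub, sub_mul, one_mul, mul_one, hu]; abel
  have h3 : (1 + u) * (1 - u) = 0 := by
    simp only [mul_sub, add_mul, one_mul, mul_one, hu]; abel
  have h4 : (1 - u) * (1 + u) = 0 := by
    simp only [mul_add, sub_mul, one_mul, mul_one, hu]; abel
  have he : exp (Real.pi * (r + r' : ℝ) * I) = exp (Real.pi * r * I) * exp (Real.pi * r' * I) := by
    rw [← exp_add]; congr 1; push_cast; ring
  unfold invPath
  generalize (1 + u : R) = p at *
  generalize (1 - u : R) = q at *
  rw [he]
  simp only [mul_add, add_mul, smul_mul_assoc, mul_smul_comm, smul_smul, h1, h2, h3, h4,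
    smul_zero, zero_add, add_zero]
  congr 1 <;> congr 1 <;> ring

lemma star_invPath {u : R} (hs : IsSelfAdjoint u) (r : ℝ) :
    star (invPath u r) = invPath u (-r) := by
  simp only [invPath, star_add, star_smul, star_sub, star_one, hs.star_eq]
  have hc : star (exp (Real.pi * r * I) / 2 : ℂ) = exp (Real.pi * (-r : ℝ) * I) / 2 := by
    rw [Complex.star_def, map_div₀, ← exp_conj]
    simp [Complex.conj_ofNat]
  have h2 : star (1 / 2 : ℂ) = 1 / 2 := by simp
  rw [hc, h2]

lemma invPath_mem_unitary {u : R} (hs : IsSelfAdjoint u) (hu : u * u = 1) (r : ℝ) :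
    invPath u r ∈ unitary R := by
  rw [Unitary.mem_iff, star_invPath hs, invPath_mul hu, invPath_mul hu]
  simp [invPath_zero]

lemma continuous_invPath (u : R) : Continuous (invPath u) := by
  unfold invPath
  fun_prop

end Vale.Agent.P101.HalfFlip
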