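import Mathlib
import Vale.Agent.P101.Involution

/-!
# A closed formula for the half flip of dimension drop algebras

Abstract form: `M` plays `M_P ⊗ M_Q`, `R` plays `M ⊗ M`, `L x = x ⊗ 1`, `Rt x = 1 ⊗ x`,
`fP`, `fQ` are the partial flips, `SP = M_P ⊗ 1`, `SQ = 1 ⊗ M_Q`.
-/

namespace Vale.Agent.P101.HalfFlip

open scoped ComplexOrder

variable {M R : Type*} [CStarAlgebra M] [CStarAlgebra R]

/-- Two commuting copies of `M` in `R` with the two partial flips. -/
structure FlipData (M R : Type*) [CStarAlgebra M] [CStarAlgebra R] where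
  L : M →⋆ₐ[ℂ] R
  Rt : M →⋆ₐ[ℂ] R
  fP : R
  fQ : R
  SP : Set M
  SQ : Set M
  commute_L_Rt : ∀ x y, Commute (L x) (Rt y)
  fP_sa : IsSelfAdjoint fP
  fQ_sa : IsSelfAdjoint fQ
  fP_sq : fP * fP = 1
  fQ_sq : fQ * fQ = 1
  fP_fQ : Commute fP fQ
  fP_L_SQ : ∀ y ∈ SQ, Commute fP (L y)
  fP_Rt_SQ : ∀ y ∈ SQ, Commute fP (Rt y)
  fQ_L_SP : ∀ x ∈ SP, Commute fQ (L x)
  fQ_Rt_SP : ∀ x ∈ SP, Commute fQ (Rt x)
  fP_swap : ∀ x ∈ SP, fP * L x = Rt x * fP
  fQ_swap : ∀ y ∈ SQ, fQ * L y = Rt y * fQ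
  flip_swap : ∀ x, fP * fQ * L x = Rt x * (fP * fQ)

namespace FlipData

variable (D : FlipData M R)

/-- The full flip. -/
def flip : R := D.fP * D.fQ

lemma flip_sa : IsSelfAdjoint D.flip := by
  rw [IsSelfAdjoint, flip, star_mul, D.fP_sa.star_eq, D.fQ_sa.star_eq, D.fP_fQ.eq]

lemma flip_sq : D.flip * D.flip = 1 := by
  rw [flip, mul_assoc, ← mul_assoc D.fQ, ← D.fP_fQ.eq, mul_assoc D.fP D.fQ D.fQ, D.fQ_sq,
    mul_one, D.fP_sq]

lemma flip_Rt (x : M) : D.flip * D.Rt x = D.L x * D.flip := by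
  have h := D.flip_swap x
  calc D.flip * D.Rt x = D.flip * D.Rt x * (D.flip * D.flip) := by rw [D.flip_sq, mul_one]
    _ = D.flip * (D.Rt x * D.flip) * D.flip := by simp only [mul_assoc]
    _ = D.flip * (D.flip * D.L x) * D.flip := by simp only [flip, h]
    _ = D.L x * D.flip := by rw [← mul_assoc D.flip D.flip, D.flip_sq, one_mul]

lemma Rt_flip (x : M) : D.Rt x * D.flip = D.flip * D.L x := (D.flip_swap x).symm

lemma flip_mem : D.flip ∈ unitary R := by
  rw [Unitary.mem_iff, D.flip_sa.star_eq]; exact ⟨D.flip_sq, D.flip_sq⟩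

/-- The unitary: `v'_t v'^* P(p₁) v' Q(σ) v'^* P(p₂) v' v'_s^* F`. -/
noncomputable def flipW (v vt vs : M) (p₁ sg p₂ : ℝ) : R :=
  D.Rt vt * D.Rt (star v) * invPath D.fP p₁ * D.Rt v * invPath D.fQ sg * D.Rt (star v) *
    invPath D.fP p₂ * D.Rt v * D.Rt (star vs) * D.flip

lemma Rt_mem {x : M} (hx : x ∈ unitary M) : D.Rt x ∈ unitary R := Unitary.map_mem _ hx

lemma flipW_mem {v vt vs : M} (hv : v ∈ unitary M) (ht : vt ∈ unitary M) (hs : vs ∈ unitary M)
    (p₁ sg p₂ : ℝ) : D.flipW v vt vs p₁ sg p₂ ∈ unitary R := by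
  refine mul_mem (mul_mem (mul_mem (mul_mem (mul_mem (mul_mem (mul_mem (mul_mem (mul_mem
    ?_ ?_) ?_) ?_) ?_) ?_) ?_) ?_) ?_) D.flip_mem
  all_goals first
    | exact D.Rt_mem (Unitary.star_mem hv)
    | exact D.Rt_mem (Unitary.star_mem hs)
    | exact D.Rt_mem hv
    | exact D.Rt_mem ht
    | exact invPath_mem_unitary D.fP_sa D.fP_sq _
    | exact invPath_mem_unitary D.fQ_sa D.fQ_sq _

end FlipData

/-- conjugation by a unitary followed by a further perturbation -/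
lemma norm_conj_step {u a b c : R} (hu : u ∈ unitary R) {δ δ' : ℝ} (h : ‖a - b‖ ≤ δ)
    (h' : ‖star u * b * u - c‖ ≤ δ') : ‖star u * a * u - c‖ ≤ δ + δ' := by
  have e : star u * a * u - c = star u * (a - b) * u + (star u * b * u - c) := by
    rw [mul_sub, sub_mul]; abel
  rw [e]
  refine (norm_add_le _ _).trans (add_le_add ?_ h')
  rcases subsingleton_or_nontrivial R with hR | hR
  · have : star u * (a - b) * u = 0 := Subsingleton.elim _ _
    rw [this, norm_zero]; exact (norm_nonneg _).trans h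
  · rwa [CStarRing.norm_mul_mem_unitary _ hu,
      CStarRing.norm_mem_unitary_mul _ (Unitary.star_mem hu)]

lemma reassoc_left {a b c : R} (h : a * b = c) (x : R) : a * (b * x) = c * x := by
  rw [← mul_assoc, h]

lemma star_conj_eq_of_commute {u a : R} (hu : u ∈ unitary R) (h : Commute u a) :
    star u * a * u = a := by
  rw [mul_assoc, ← h.eq, ← mul_assoc, Unitary.star_mul_self_of_mem hu, one_mul]

namespace FlipData

variable (D : FlipData M R)

lemma norm_Rt_le (x : M) : ‖D.Rt x‖ ≤ ‖x‖ := NonUnitalStarAlgHom.norm_apply_le _ x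

/-- The main estimate. -/
lemma norm_flipW_conj {v vt vs : M} (hv : v ∈ unitary M) (ht : vt ∈ unitary M)
    (hs : vs ∈ unitary M) (p₁ sg p₂ : ℝ) {X Y ft fs : M} {ε : ℝ}
    (hX : X ∈ D.SP) (hY : Y ∈ D.SQ) (hXY : ‖Y - v * X * star v‖ ≤ ε)
    (hft : ‖ft - vt * X * star vt‖ ≤ ε) (hfs : ‖fs - vs * X * star vs‖ ≤ ε) :
    ‖star (D.flipW v vt vs p₁ sg p₂) * D.Rt ft * D.flipW v vt vs p₁ sg p₂ - D.L fs‖ ≤ 6 * ε := by
  -- conjugated target
  have hY' : ‖X - star v * Y * v‖ ≤ ε := by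
    have h2 := norm_conj_step (R := M) hv hXY (c := X) (δ' := 0) (by
      have : star v * (v * X * star v) * v = (star v * v) * X * (star v * v) := by
        simp only [mul_assoc]
      rw [this, Unitary.star_mul_self_of_mem hv, one_mul, mul_one, sub_self, norm_zero])
    rw [norm_sub_rev, add_zero] at h2
    exact h2
  have hRtv := D.Rt_mem hv
  have hRtv' := D.Rt_mem (Unitary.star_mem hv)
  set P₁ := invPath D.fP p₁
  set P₂ := invPath D.fP p₂
  set Qs := invPath D.fQ sg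
  have hP : ∀ r, Commute (invPath D.fP r) (D.Rt Y) := fun r =>
    commute_invPath (D.fP_Rt_SQ Y hY) r
  -- one round trip through `Y`
  have round : ∀ r, ‖star (D.Rt (star v) * invPath D.fP r * D.Rt v) * D.Rt X *
      (D.Rt (star v) * invPath D.fP r * D.Rt v) - D.Rt X‖ ≤ 2 * ε := by
    intro r
    have hu : D.Rt (star v) * invPath D.fP r * D.Rt v ∈ unitary R :=
      mul_mem (mul_mem hRtv' (invPath_mem_unitary D.fP_sa D.fP_sq _)) hRtv
    rw [two_mul]
    refine norm_conj_step hu (b := D.Rt (star v * Y * v)) ?_ ?_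
    · rw [← map_sub]; exact (D.norm_Rt_le _).trans hY'
    · have e : star (D.Rt (star v) * invPath D.fP r * D.Rt v) * D.Rt (star v * Y * v) *
          (D.Rt (star v) * invPath D.fP r * D.Rt v) = D.Rt (star v * Y * v) := by
        have h1 : D.Rt v * D.Rt (star v) = 1 := by
          rw [← map_mul, Unitary.mul_star_self_of_mem hv, map_one]
        simp only [star_mul, ← map_star, star_star, map_mul, mul_assoc]
        simp only [reassoc_left h1, one_mul]
        rw [← mul_assoc (star (invPath D.fP r)), ← mul_assoc (star (invPath D.fP r) * D.Rt Y),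
          star_conj_eq_of_commute (invPath_mem_unitary D.fP_sa D.fP_sq r) (hP r)]
      rw [e, ← map_sub]
      exact (D.norm_Rt_le _).trans (by rw [norm_sub_rev]; exact hY')
  have hQ : star Qs * D.Rt X * Qs = D.Rt X :=
    star_conj_eq_of_commute (invPath_mem_unitary D.fQ_sa D.fQ_sq _)
      (commute_invPath (D.fQ_Rt_SP X hX) _)
  set B₁ := D.Rt (star v) * P₁ * D.Rt v with hB₁
  set B₂ := D.Rt (star v) * P₂ * D.Rt v with hB₂
  have hB₁u : B₁ ∈ unitary R := mul_mem (mul_mem hRtv' (invPath_mem_unitary D.fP_sa D.fP_sq _)) hRtv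
  have hB₂u : B₂ ∈ unitary R := mul_mem (mul_mem hRtv' (invPath_mem_unitary D.fP_sa D.fP_sq _)) hRtv
  have hQu : Qs ∈ unitary R := invPath_mem_unitary D.fQ_sa D.fQ_sq _
  set Tl := D.Rt (star vs) * D.flip with hTl
  have hTlu : Tl ∈ unitary R := mul_mem (D.Rt_mem (Unitary.star_mem hs)) D.flip_mem
  have hW : D.flipW v vt vs p₁ sg p₂ = D.Rt vt * (B₁ * (Qs * (B₂ * Tl))) := by
    simp only [flipW, hB₁, hB₂, hTl, mul_assoc, P₁, P₂, Qs]
  have s0 : ‖star Tl * D.Rt X * Tl - D.L fs‖ ≤ ε := by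
    have e : star Tl * D.Rt X * Tl = D.L (vs * X * star vs) := by
      calc star Tl * D.Rt X * Tl
          = D.flip * (D.Rt vs * D.Rt X * D.Rt (star vs)) * D.flip := by
            rw [hTl, star_mul, D.flip_sa.star_eq, ← map_star, star_star]
            simp only [mul_assoc]
        _ = D.L (vs * X * star vs) * (D.flip * D.flip) := by
            rw [← map_mul, ← map_mul, D.flip_Rt, mul_assoc]
        _ = D.L (vs * X * star vs) := by rw [D.flip_sq, mul_one]
    rw [e, ← map_sub]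
    refine (NonUnitalStarAlgHom.norm_apply_le _ _).trans ?_
    rw [norm_sub_rev]; exact hfs
  have s1 : ‖star (B₂ * Tl) * D.Rt X * (B₂ * Tl) - D.L fs‖ ≤ 2 * ε + ε := by
    have h0 : ‖star B₂ * D.Rt X * B₂ - D.Rt X‖ ≤ 2 * ε := round p₂
    have := norm_conj_step hTlu h0 s0
    simpa only [star_mul, mul_assoc] using this
  have s2 : ‖star (Qs * (B₂ * Tl)) * D.Rt X * (Qs * (B₂ * Tl)) - D.L fs‖ ≤ 3 * ε := by
    have e : star (Qs * (B₂ * Tl)) * D.Rt X * (Qs * (B₂ * Tl))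
        = star (B₂ * Tl) * (star Qs * D.Rt X * Qs) * (B₂ * Tl) := by
      simp only [star_mul, mul_assoc]
    rw [e, hQ]; linarith
  have s3 : ‖star (B₁ * (Qs * (B₂ * Tl))) * D.Rt X * (B₁ * (Qs * (B₂ * Tl))) - D.L fs‖
      ≤ 2 * ε + 3 * ε := by
    have h0 : ‖star B₁ * D.Rt X * B₁ - D.Rt X‖ ≤ 2 * ε := round p₁
    have := norm_conj_step (mul_mem hQu (mul_mem hB₂u hTlu)) h0 s2
    simpa only [star_mul, mul_assoc] using this
  rw [hW]
  have hb : star (D.Rt vt) * D.Rt ft * D.Rt vt = D.Rt (star vt * ft * vt) := by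
    simp only [← map_star, map_mul]
  have hftX : ‖star (D.Rt vt) * D.Rt ft * D.Rt vt - D.Rt X‖ ≤ ε := by
    rw [hb, ← map_sub]
    refine (D.norm_Rt_le _).trans ?_
    have h2 := norm_conj_step (R := M) ht hft (c := X) (δ' := 0) (by
      have : star vt * (vt * X * star vt) * vt = (star vt * vt) * X * (star vt * vt) := by
        simp only [mul_assoc]
      rw [this, Unitary.star_mul_self_of_mem ht, one_mul, mul_one, sub_self, norm_zero])
    simpa using h2
  have := norm_conj_step (mul_mem hB₁u (mul_mem hQu (mul_mem hB₂u hTlu))) hftX s3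
  simp only [star_mul, mul_assoc] at this ⊢
  linarith

/-! ### The four edges -/

lemma fP_comm_flip : Commute D.fP D.flip := (Commute.refl _).mul_right D.fP_fQ

lemma fQ_flip : D.fQ * D.flip = D.fP := by
  rw [flip, ← mul_assoc, ← D.fP_fQ.eq, mul_assoc, D.fQ_sq, mul_one]

lemma fP_flip : D.fP * D.flip = D.fQ := by rw [flip, ← mul_assoc, D.fP_sq, one_mul]

lemma Rt_star_mul_self {v : M} (hv : v ∈ unitary M) : D.Rt (star v) * D.Rt v = 1 := by
  rw [← map_mul, Unitary.star_mul_self_of_mem hv, map_one]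

lemma Rt_mul_star_self {v : M} (hv : v ∈ unitary M) : D.Rt v * D.Rt (star v) = 1 := by
  rw [← map_mul, Unitary.mul_star_self_of_mem hv, map_one]

lemma edge_s0 {v vt : M} (hv : v ∈ unitary M) (p₁ : ℝ) {y : M} (hy : y ∈ D.SQ) :
    Commute (D.flipW v vt 1 p₁ 1 0) (D.L y) := by
  have e : D.flipW v vt 1 p₁ 1 0
      = D.Rt vt * D.Rt (star v) * invPath D.fP p₁ * D.Rt v * D.fP := by
    simp only [flipW, invPath_zero, invPath_one, star_one, map_one, mul_one, mul_assoc,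
      reassoc_left (D.Rt_star_mul_self hv), one_mul, D.fQ_flip]
  rw [e]
  exact (((((D.commute_L_Rt _ _).symm).mul_left (D.commute_L_Rt _ _).symm).mul_left
    (commute_invPath (D.fP_L_SQ y hy) _)).mul_left (D.commute_L_Rt _ _).symm).mul_left
    (D.fP_L_SQ y hy)

lemma edge_t0 {v vs : M} (hv : v ∈ unitary M) (p₂ : ℝ) {y : M} (hy : y ∈ D.SQ) :
    Commute (D.flipW v 1 vs 0 1 p₂) (D.Rt y) := by
  have hP : invPath D.fP p₂ * D.flip = D.flip * invPath D.fP p₂ :=
    commute_invPath D.fP_comm_flip p₂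
  have e : D.flipW v 1 vs 0 1 p₂
      = D.fP * (D.L (star v) * invPath D.fP p₂ * D.L v * D.L (star vs)) := by
    simp only [flipW, invPath_zero, invPath_one, map_one, mul_one, mul_assoc,
      reassoc_left (D.Rt_star_mul_self hv), one_mul]
    rw [D.Rt_flip, ← mul_assoc (D.Rt v), D.Rt_flip, mul_assoc, ← mul_assoc (invPath D.fP p₂),
      hP, mul_assoc, ← mul_assoc (D.Rt (star v)), D.Rt_flip, mul_assoc, ← mul_assoc D.fQ,
      D.fQ_flip]
  rw [e]
  exact (D.fP_Rt_SQ y hy).mul_left ((((D.commute_L_Rt _ _).mul_left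
    (commute_invPath (D.fP_Rt_SQ y hy) _)).mul_left (D.commute_L_Rt _ _)).mul_left
    (D.commute_L_Rt _ _))

lemma edge_t1 {v vs : M} (hv : v ∈ unitary M) (p₁ sg p₂ : ℝ)
    (h : p₁ = 1 ∧ p₂ = 0 ∨ sg = 0 ∧ p₁ + p₂ = 1) {x : M} (hx : x ∈ D.SP) :
    Commute (D.flipW v v vs p₁ sg p₂) (D.Rt x) := by
  rcases h with ⟨rfl, rfl⟩ | ⟨rfl, hsum⟩
  · have e : D.flipW v v vs 1 sg 0
        = D.fP * (D.Rt v * (invPath D.fQ sg * (D.flip * D.L (star vs)))) := by
      simp only [flipW, invPath_zero, invPath_one, mul_one, mul_assoc,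
        reassoc_left (D.Rt_mul_star_self hv), reassoc_left (D.Rt_star_mul_self hv), one_mul,
        D.Rt_flip]
    rw [e]
    have hQ := commute_invPath (D.fQ_L_SP x hx) sg
    simp only [commute_iff_eq, mul_assoc]
    rw [(D.commute_L_Rt (star vs) x).eq, ← mul_assoc D.flip (D.Rt x), D.flip_Rt, mul_assoc,
      ← mul_assoc (invPath D.fQ sg) (D.L x), hQ.eq, mul_assoc, ← mul_assoc (D.Rt v),
      ← (D.commute_L_Rt x v).eq, mul_assoc, ← mul_assoc D.fP, D.fP_swap x hx, mul_assoc]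
  · have e : D.flipW v v vs p₁ 0 p₂ = D.fQ * (D.L v * D.L (star vs)) := by
      simp only [flipW, invPath_zero, mul_one, mul_assoc,
        reassoc_left (D.Rt_mul_star_self hv), one_mul,
        reassoc_left (invPath_mul D.fP_sq p₁ p₂), hsum, invPath_one]
      rw [D.Rt_flip, ← mul_assoc (D.Rt v), D.Rt_flip, mul_assoc, ← mul_assoc D.fP, D.fP_flip]
    rw [e]
    exact (D.fQ_Rt_SP x hx).mul_left ((D.commute_L_Rt _ _).mul_left (D.commute_L_Rt _ _))

lemma edge_s1 {v vt : M} (hv : v ∈ unitary M) (p₁ sg p₂ : ℝ)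
    (h : p₁ = 0 ∧ p₂ = 1 ∨ sg = 0 ∧ p₁ + p₂ = 1) {x : M} (hx : x ∈ D.SP) :
    Commute (D.flipW v vt v p₁ sg p₂) (D.L x) := by
  rcases h with ⟨rfl, rfl⟩ | ⟨rfl, hsum⟩
  · have e : D.flipW v vt v 0 sg 1
        = D.Rt vt * invPath D.fQ sg * D.Rt (star v) * D.fQ := by
      simp only [flipW, invPath_zero, invPath_one, mul_one, mul_assoc,
        reassoc_left (D.Rt_mul_star_self hv), reassoc_left (D.Rt_star_mul_self hv), one_mul,
        D.fP_flip]
    rw [e]
    exact ((((D.commute_L_Rt _ _).symm).mul_left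
      (commute_invPath (D.fQ_L_SP x hx) _)).mul_left (D.commute_L_Rt _ _).symm).mul_left
      (D.fQ_L_SP x hx)
  · have e : D.flipW v vt v p₁ 0 p₂ = D.Rt vt * D.Rt (star v) * D.fQ := by
      simp only [flipW, invPath_zero, mul_one, mul_assoc,
        reassoc_left (D.Rt_mul_star_self hv), one_mul,
        reassoc_left (invPath_mul D.fP_sq p₁ p₂), hsum, invPath_one, D.fP_flip]
    rw [e]
    exact (((D.commute_L_Rt _ _).symm).mul_left (D.commute_L_Rt _ _).symm).mul_left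
      (D.fQ_L_SP x hx)

/-! ### The unitary on the square -/

/-- `σ(s,t) = max 0 (1 - 2 min s t)`. -/
noncomputable def sigPar (s t : ℝ) : ℝ := max 0 (1 - 2 * min s t)

/-- `p₁(s,t) = t min(1, 2-2s)`. -/
noncomputable def p1Par (s t : ℝ) : ℝ := t * min 1 (2 - 2 * s)

/-- `p₂(s,t) = min(1,2s)(1 - p₁)`. -/
noncomputable def p2Par (s t : ℝ) : ℝ := min 1 (2 * s) * (1 - p1Par s t)

open unitInterval

/-- The half flip unitary at `(s,t)` for a path `v`. -/
noncomputable def squareW (v : I → M) (s t : I) : R :=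
  D.flipW (v 1) (v t) (v s) (p1Par s t) (sigPar s t) (p2Par s t)

variable {v : I → M}

lemma squareW_mem (hv : ∀ t, v t ∈ unitary M) (s t : I) : D.squareW v s t ∈ unitary R :=
  D.flipW_mem (hv _) (hv _) (hv _) _ _ _

lemma continuous_squareW (hc : Continuous v) :
    Continuous fun p : I × I => D.squareW v p.1 p.2 := by
  have hR : Continuous D.Rt :=
    AddMonoidHomClass.continuous_of_bound D.Rt 1 fun x => by simpa using D.norm_Rt_le x
  have hP := continuous_invPath (R := R) D.fP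
  have hQ := continuous_invPath (R := R) D.fQ
  unfold squareW flipW p2Par p1Par sigPar
  fun_prop

lemma squareW_s0 (hv : ∀ t, v t ∈ unitary M) (h0 : v 0 = 1) (t : I) {y : M} (hy : y ∈ D.SQ) :
    Commute (D.squareW v 0 t) (D.L y) := by
  have h1 : sigPar ((0 : I) : ℝ) t = 1 := by
    have := t.2.1
    simp [sigPar, this]
  have h2 : p2Par ((0 : I) : ℝ) t = 0 := by simp [p2Par]
  rw [squareW, h0, h1, h2]
  exact D.edge_s0 (hv 1) _ hy

lemma squareW_t0 (hv : ∀ t, v t ∈ unitary M) (h0 : v 0 = 1) (s : I) {y : M} (hy : y ∈ D.SQ) :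
    Commute (D.squareW v s 0) (D.Rt y) := by
  have h1 : sigPar (s : ℝ) ((0 : I) : ℝ) = 1 := by
    have := s.2.1
    simp [sigPar, this]
  have h2 : p1Par (s : ℝ) ((0 : I) : ℝ) = 0 := by simp [p1Par]
  rw [squareW, h0, h1, h2]
  exact D.edge_t0 (hv 1) _ hy

lemma squareW_t1 (hv : ∀ t, v t ∈ unitary M) (s : I) {x : M} (hx : x ∈ D.SP) :
    Commute (D.squareW v s 1) (D.Rt x) := by
  rw [squareW]
  refine D.edge_t1 (hv 1) _ _ _ ?_ hx
  simp only [p2Par, p1Par, sigPar, Set.Icc.coe_one, one_mul]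
  rcases le_total (s : ℝ) (1 / 2) with h | h
  · left
    rw [min_eq_left (by linarith : (1 : ℝ) ≤ 2 - 2 * s)]
    simp
  · right
    rw [min_eq_left s.2.2, min_eq_left (by linarith : (1 : ℝ) ≤ 2 * s)]
    exact ⟨max_eq_left (by linarith), by ring⟩

lemma squareW_s1 (hv : ∀ t, v t ∈ unitary M) (t : I) {x : M} (hx : x ∈ D.SP) :
    Commute (D.squareW v 1 t) (D.L x) := by
  rw [squareW]
  refine D.edge_s1 (hv 1) _ _ _ (Or.inl ?_) hx
  norm_num [p2Par, p1Par]

lemma norm_squareW_conj (hv : ∀ t, v t ∈ unitary M) {f : I → M} {ε : ℝ}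
    (h0 : f 0 ∈ D.SP) (h1 : f 1 ∈ D.SQ)
    (hf : ∀ t, ‖f t - v t * f 0 * star (v t)‖ ≤ ε) (s t : I) :
    ‖star (D.squareW v s t) * D.Rt (f t) * D.squareW v s t - D.L (f s)‖ ≤ 6 * ε :=
  D.norm_flipW_conj (hv _) (hv _) (hv _) _ _ _ h0 h1 (hf 1) (hf t) (hf s)

end FlipData

end Vale.Agent.P101.HalfFlip
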