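import Mathlib
import Vale.Agent.P101.HalfFlip

/-!
# The concrete flips in `M_{PQ}(M_{PQ})` and what commuting with a leg means
-/

open scoped CStarAlgebra ComplexOrder

namespace Vale.Agent.P101.HalfFlip

variable {P Q : ℕ}

/-- index set of `M_P ⊗ M_Q` -/
abbrev Idx (P Q : ℕ) := Fin P × Fin Q

/-- `M_P ⊗ M_Q` -/
abbrev MM (P Q : ℕ) := CStarMatrix (Idx P Q) (Idx P Q) ℂ

/-- `M_{PQ} ⊗ M_{PQ}` as matrices of matrices -/
abbrev RR (P Q : ℕ) := CStarMatrix (Idx P Q) (Idx P Q) (MM P Q)

theorem mk_apply {m n A : Type*} (f : m → n → A) (i : m) (j : n) :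
    CStarMatrix.ofMatrix (fun a b => f a b) i j = f i j := rfl

theorem RR_ext {X Y : RR P Q} (h : ∀ i j k l, X i j k l = Y i j k l) : X = Y :=
  CStarMatrix.ext fun i j => CStarMatrix.ext fun k l => h i j k l

theorem RR_mul_apply (X Y : RR P Q) (i j k l : Idx P Q) :
    (X * Y) i j k l = ∑ p : Idx P Q × Idx P Q, X i p.1 k p.2 * Y p.1 j p.2 l := by
  have key : ∀ (s : Finset (Idx P Q)) (g : Idx P Q → MM P Q),
      (∑ a ∈ s, g a) k l = ∑ a ∈ s, g a k l := by
    intro s g
    induction s using Finset.induction_on with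
    | empty => simp [CStarMatrix.zero_apply]
    | insert a s ha ih => rw [Finset.sum_insert ha, Finset.sum_insert ha, CStarMatrix.add_apply, ih]
  rw [CStarMatrix.mul_apply, key]
  conv_rhs => rw [Fintype.sum_prod_type]
  exact Finset.sum_congr rfl fun a _ => by rw [CStarMatrix.mul_apply]

theorem RR_one_apply (i j k l : Idx P Q) :
    (1 : RR P Q) i j k l = if (i, k) = (j, l) then 1 else 0 := by
  rcases eq_or_ne i j with h | h
  · subst h
    rcases eq_or_ne k l with h' | h' <;> simp [CStarMatrix.one_apply, h']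
  · simp [CStarMatrix.zero_apply, h]

/-- permutation operator on the two legs -/
def permOp (σ : Idx P Q × Idx P Q → Idx P Q × Idx P Q) : RR P Q :=
  CStarMatrix.ofMatrix fun i j => CStarMatrix.ofMatrix fun k l =>
    if σ (j, l) = (i, k) then 1 else 0

theorem permOp_apply (σ : Idx P Q × Idx P Q → Idx P Q × Idx P Q) (i j k l : Idx P Q) :
    permOp σ i j k l = if σ (j, l) = (i, k) then 1 else 0 := rfl

theorem mul_permOp_apply (X : RR P Q) (σ : Idx P Q × Idx P Q → Idx P Q × Idx P Q)
    (i j k l : Idx P Q) :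
    (X * permOp σ) i j k l = X i (σ (j, l)).1 k (σ (j, l)).2 := by
  rw [RR_mul_apply, Finset.sum_eq_single (σ (j, l))]
  · simp [permOp_apply]
  · intro p _ hp
    simp [permOp_apply, Ne.symm hp]
  · simp

theorem permOp_mul_apply (X : RR P Q) {σ : Idx P Q × Idx P Q → Idx P Q × Idx P Q}
    (hσ : Function.Involutive σ) (i j k l : Idx P Q) :
    (permOp σ * X) i j k l = X (σ (i, k)).1 j (σ (i, k)).2 l := by
  rw [RR_mul_apply, Finset.sum_eq_single (σ (i, k))]
  · simp [permOp_apply, hσ (i, k)]
  · intro p _ hp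
    have : σ p ≠ (i, k) := fun h => hp (by rw [← h, hσ p])
    simp [permOp_apply, this]
  · simp

/-- swap the `P` legs -/
def swP (x : Idx P Q × Idx P Q) : Idx P Q × Idx P Q := ((x.2.1, x.1.2), (x.1.1, x.2.2))

/-- swap the `Q` legs -/
def swQ (x : Idx P Q × Idx P Q) : Idx P Q × Idx P Q := ((x.1.1, x.2.2), (x.2.1, x.1.2))

theorem swP_invol : Function.Involutive (swP (P := P) (Q := Q)) := fun _ => rfl

theorem swQ_invol : Function.Involutive (swQ (P := P) (Q := Q)) := fun _ => rfl

theorem permOp_sa {σ : Idx P Q × Idx P Q → Idx P Q × Idx P Q} (hσ : Function.Involutive σ) :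
    IsSelfAdjoint (permOp σ) := by
  refine RR_ext fun i j k l => ?_
  simp only [CStarMatrix.star_apply, permOp_apply]
  by_cases h : σ (j, l) = (i, k)
  · rw [if_pos h, if_pos (by rw [← h, hσ])]; simp
  · rw [if_neg h, if_neg (fun e => h (by rw [← e, hσ]))]; simp

theorem permOp_sq {σ : Idx P Q × Idx P Q → Idx P Q × Idx P Q} (hσ : Function.Involutive σ) :
    permOp σ * permOp σ = 1 := by
  refine RR_ext fun i j k l => ?_
  rw [mul_permOp_apply, permOp_apply, hσ, RR_one_apply]
  simp only [eq_comm]

/-- `x ↦ x ⊗ 1` -/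
noncomputable def legL : MM P Q →⋆ₐ[ℂ] RR P Q where
  toFun x := CStarMatrix.ofMatrix fun i j => CStarMatrix.ofMatrix fun k l =>
    if k = l then x i j else 0
  map_one' := by
    refine RR_ext fun i j k l => ?_
    rw [RR_one_apply]
    simp only [mk_apply, CStarMatrix.one_apply]
    rcases eq_or_ne i j with h | h <;> rcases eq_or_ne k l with h' | h' <;> simp [h, h']
  map_mul' x y := by
    refine RR_ext fun i j k l => ?_
    rw [RR_mul_apply, Fintype.sum_prod_type]
    simp only [mk_apply, CStarMatrix.mul_apply]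
    rcases eq_or_ne k l with h' | h'
    · subst h'
      rw [if_pos rfl]
      refine Finset.sum_congr rfl fun a _ => ?_
      rw [Finset.sum_eq_single k (fun b _ hb => by simp [Ne.symm hb]) (by simp)]
      simp
    · rw [if_neg h']
      refine (Finset.sum_eq_zero fun a _ => Finset.sum_eq_zero fun b _ => ?_).symm
      rcases eq_or_ne k b with h | h
      · subst h; simp [h']
      · simp [h]
  map_zero' := by
    refine RR_ext fun i j k l => ?_
    simp [mk_apply, CStarMatrix.zero_apply]
  map_add' x y := by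
    refine RR_ext fun i j k l => ?_
    simp only [mk_apply, CStarMatrix.add_apply]
    split <;> simp
  commutes' c := by
    refine RR_ext fun i j k l => ?_
    simp only [mk_apply, Algebra.algebraMap_eq_smul_one, CStarMatrix.smul_apply,
      CStarMatrix.one_apply]
    rcases eq_or_ne i j with h | h <;> rcases eq_or_ne k l with h' | h' <;>
      simp [h, h', CStarMatrix.one_apply]
  map_star' x := by
    refine RR_ext fun i j k l => ?_
    simp only [mk_apply, CStarMatrix.star_apply]
    rcases eq_or_ne k l with h | h <;> simp [h, Ne.symm]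

/-- `x ↦ 1 ⊗ x` -/
noncomputable def legR : MM P Q →⋆ₐ[ℂ] RR P Q where
  toFun x := CStarMatrix.ofMatrix fun i j => CStarMatrix.ofMatrix fun k l =>
    if i = j then x k l else 0
  map_one' := by
    refine RR_ext fun i j k l => ?_
    rw [RR_one_apply]
    simp only [mk_apply, CStarMatrix.one_apply]
    rcases eq_or_ne i j with h | h <;> rcases eq_or_ne k l with h' | h' <;> simp [h, h']
  map_mul' x y := by
    refine RR_ext fun i j k l => ?_
    rw [RR_mul_apply, Fintype.sum_prod_type]
    simp only [mk_apply, CStarMatrix.mul_apply]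
    rcases eq_or_ne i j with h' | h'
    · subst h'
      rw [if_pos rfl]
      conv_rhs => rw [Finset.sum_eq_single i (fun b _ hb => by simp [Ne.symm hb]) (by simp)]
      simp
    · rw [if_neg h']
      refine (Finset.sum_eq_zero fun a _ => Finset.sum_eq_zero fun b _ => ?_).symm
      rcases eq_or_ne i a with h | h
      · subst h; simp [h']
      · simp [h]
  map_zero' := by
    refine RR_ext fun i j k l => ?_
    simp [mk_apply, CStarMatrix.zero_apply]
  map_add' x y := by
    refine RR_ext fun i j k l => ?_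
    simp only [mk_apply, CStarMatrix.add_apply]
    split <;> simp
  commutes' c := by
    refine RR_ext fun i j k l => ?_
    simp only [mk_apply, Algebra.algebraMap_eq_smul_one, CStarMatrix.smul_apply,
      CStarMatrix.one_apply]
    rcases eq_or_ne i j with h | h <;> rcases eq_or_ne k l with h' | h' <;>
      simp [h, h', CStarMatrix.one_apply]
  map_star' x := by
    refine RR_ext fun i j k l => ?_
    simp only [mk_apply, CStarMatrix.star_apply]
    rcases eq_or_ne i j with h | h <;> simp [h, Ne.symm]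

theorem legL_apply (x : MM P Q) (i j k l : Idx P Q) :
    legL x i j k l = if k = l then x i j else 0 := rfl

theorem legR_apply (x : MM P Q) (i j k l : Idx P Q) :
    legR x i j k l = if i = j then x k l else 0 := rfl

theorem legL_mul_apply (x : MM P Q) (X : RR P Q) (i j k l : Idx P Q) :
    (legL x * X) i j k l = ∑ a, x i a * X a j k l := by
  rw [RR_mul_apply, Fintype.sum_prod_type]
  refine Finset.sum_congr rfl fun a _ => ?_
  rw [Finset.sum_eq_single k (fun b _ hb => by simp [legL_apply, Ne.symm hb]) (by simp)]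
  simp [legL_apply]

theorem mul_legL_apply (x : MM P Q) (X : RR P Q) (i j k l : Idx P Q) :
    (X * legL x) i j k l = ∑ a, X i a k l * x a j := by
  rw [RR_mul_apply, Fintype.sum_prod_type]
  refine Finset.sum_congr rfl fun a _ => ?_
  rw [Finset.sum_eq_single l (fun b _ hb => by simp [legL_apply, hb]) (by simp)]
  simp [legL_apply]

theorem legR_mul_apply (x : MM P Q) (X : RR P Q) (i j k l : Idx P Q) :
    (legR x * X) i j k l = ∑ b, x k b * X i j b l := by
  rw [RR_mul_apply, Fintype.sum_prod_type,
    Finset.sum_eq_single i (fun b _ hb => by simp [legR_apply, Ne.symm hb]) (by simp)]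
  simp [legR_apply]

theorem mul_legR_apply (x : MM P Q) (X : RR P Q) (i j k l : Idx P Q) :
    (X * legR x) i j k l = ∑ b, X i j k b * x b l := by
  rw [RR_mul_apply, Fintype.sum_prod_type,
    Finset.sum_eq_single j (fun b _ hb => by simp [legR_apply, hb]) (by simp)]
  simp [legR_apply]

/-- `M_P ⊗ 1` -/
def legP (P Q : ℕ) : Set (MM P Q) :=
  {x | ∃ a : Fin P → Fin P → ℂ, ∀ i j, x i j = if i.2 = j.2 then a i.1 j.1 else 0}

/-- `1 ⊗ M_Q` -/
def legQ (P Q : ℕ) : Set (MM P Q) :=
  {x | ∃ b : Fin Q → Fin Q → ℂ, ∀ i j, x i j = if i.1 = j.1 then b i.2 j.2 else 0}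

/-- The flip data of `M_{PQ} ⊗ M_{PQ}`. -/
noncomputable def flipData (P Q : ℕ) : FlipData (MM P Q) (RR P Q) where
  L := legL
  Rt := legR
  fP := permOp swP
  fQ := permOp swQ
  SP := legP P Q
  SQ := legQ P Q
  commute_L_Rt x y := by
    refine RR_ext fun i j k l => ?_
    rw [legL_mul_apply, mul_legL_apply, Finset.sum_eq_single j, Finset.sum_eq_single i]
    · simp [legR_apply, mul_comm]
    · intro b _ hb; simp [legR_apply, Ne.symm hb]
    · simp
    · intro b _ hb; simp [legR_apply, hb]
    · simp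
  fP_sa := permOp_sa swP_invol
  fQ_sa := permOp_sa swQ_invol
  fP_sq := permOp_sq swP_invol
  fQ_sq := permOp_sq swQ_invol
  fP_fQ := by
    refine RR_ext fun i j k l => ?_
    rw [permOp_mul_apply _ swP_invol, mul_permOp_apply, permOp_apply, permOp_apply]
    obtain ⟨⟨a, b⟩, c, d⟩ := i, j
    obtain ⟨⟨e, f⟩, g, h⟩ := k, l
    simp only [swP, swQ, Prod.mk.injEq]
    split_ifs <;> simp_all
  fP_L_SQ y hy := by
    obtain ⟨b, hb⟩ := hy
    refine RR_ext fun i j k l => ?_
    rw [permOp_mul_apply _ swP_invol, mul_permOp_apply]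
    simp only [legL_apply, hb, swP, Prod.ext_iff]
    split_ifs <;> simp_all
  fP_Rt_SQ y hy := by
    obtain ⟨b, hb⟩ := hy
    refine RR_ext fun i j k l => ?_
    rw [permOp_mul_apply _ swP_invol, mul_permOp_apply]
    simp only [legR_apply, hb, swP, Prod.ext_iff]
    split_ifs <;> simp_all
  fQ_L_SP x hx := by
    obtain ⟨a, ha⟩ := hx
    refine RR_ext fun i j k l => ?_
    rw [permOp_mul_apply _ swQ_invol, mul_permOp_apply]
    simp only [legL_apply, ha, swQ, Prod.ext_iff]
    split_ifs <;> simp_all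
  fQ_Rt_SP x hx := by
    obtain ⟨a, ha⟩ := hx
    refine RR_ext fun i j k l => ?_
    rw [permOp_mul_apply _ swQ_invol, mul_permOp_apply]
    simp only [legR_apply, ha, swQ, Prod.ext_iff]
    split_ifs <;> simp_all
  fP_swap x hx := by
    obtain ⟨a, ha⟩ := hx
    refine RR_ext fun i j k l => ?_
    rw [permOp_mul_apply _ swP_invol, mul_permOp_apply]
    simp only [legL_apply, legR_apply, ha, swP, Prod.ext_iff]
    split_ifs <;> simp_all
  fQ_swap y hy := by
    obtain ⟨b, hb⟩ := hy
    refine RR_ext fun i j k l => ?_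
    rw [permOp_mul_apply _ swQ_invol, mul_permOp_apply]
    simp only [legL_apply, legR_apply, hb, swQ, Prod.ext_iff]
    split_ifs <;> simp_all
  flip_swap x := by
    refine RR_ext fun i j k l => ?_
    rw [mul_assoc, permOp_mul_apply _ swP_invol, permOp_mul_apply _ swQ_invol, ← mul_assoc,
      mul_permOp_apply, mul_permOp_apply]
    simp only [legL_apply, legR_apply, swP, swQ, Prod.mk.eta]

/-- An element commuting with `(1 ⊗ M_Q) ⊗ 1` is `M_P`-valued in the outer leg. -/
theorem apply_of_commute_legL_Q {X : RR P Q}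
    (h : ∀ y ∈ legQ P Q, Commute X (legL y)) (b₀ : Fin Q) (i j : Idx P Q) :
    X i j = if i.2 = j.2 then X (i.1, b₀) (j.1, b₀) else 0 := by
  refine CStarMatrix.ext fun k l => ?_
  have hy : ∀ c d, (CStarMatrix.ofMatrix fun u v : Idx P Q =>
      if u.1 = v.1 ∧ u.2 = c ∧ v.2 = d then (1 : ℂ) else 0) ∈ legQ P Q := by
    intro c d
    refine ⟨fun u v => if u = c ∧ v = d then 1 else 0, fun u v => ?_⟩
    simp only [mk_apply]
    split_ifs <;> simp_all
  have key := fun (u v : Idx P Q) (c d : Fin Q) =>
    congrArg (fun Y : RR P Q => Y u v k l) (h _ (hy c d)).eq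
  have e : ∀ (u v : Idx P Q) (c d : Fin Q),
      (if v.2 = d then X u (v.1, c) k l else 0) = (if u.2 = c then X (u.1, d) v k l else 0) := by
    intro u v c d
    have := key u v c d
    simp only [mul_legL_apply, legL_mul_apply, mk_apply] at this
    rw [Finset.sum_eq_single (v.1, c), Finset.sum_eq_single (u.1, d)] at this
    · simpa [ite_and] using this
    · intro a _ ha
      simp only [Prod.ext_iff, ne_eq] at ha
      split_ifs <;> simp_all
    · simp
    · intro a _ ha
      simp only [Prod.ext_iff, ne_eq] at ha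
      split_ifs <;> simp_all
    · simp
  obtain ⟨i₁, i₂⟩ := i
  obtain ⟨j₁, j₂⟩ := j
  have := e (i₁, b₀) (j₁, j₂) b₀ j₂
  have h2 := e (i₁, i₂) (j₁, b₀) j₂ b₀
  rcases eq_or_ne i₂ j₂ with hij | hij
  · subst hij
    simp only at h2
    rw [if_pos rfl]
    exact h2
  · rw [if_neg hij]
    simp only [if_neg hij] at h2
    simpa [CStarMatrix.zero_apply] using h2

/-- An element commuting with `(M_P ⊗ 1) ⊗ 1` is `M_Q`-valued in the outer leg. -/
theorem apply_of_commute_legL_P {X : RR P Q}
    (h : ∀ x ∈ legP P Q, Commute X (legL x)) (a₀ : Fin P) (i j : Idx P Q) :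
    X i j = if i.1 = j.1 then X (a₀, i.2) (a₀, j.2) else 0 := by
  refine CStarMatrix.ext fun k l => ?_
  have hy : ∀ c d, (CStarMatrix.ofMatrix fun u v : Idx P Q =>
      if u.2 = v.2 ∧ u.1 = c ∧ v.1 = d then (1 : ℂ) else 0) ∈ legP P Q := by
    intro c d
    refine ⟨fun u v => if u = c ∧ v = d then 1 else 0, fun u v => ?_⟩
    simp only [mk_apply]
    split_ifs <;> simp_all
  have e : ∀ (u v : Idx P Q) (c d : Fin P),
      (if v.1 = d then X u (c, v.2) k l else 0) = (if u.1 = c then X (d, u.2) v k l else 0) := by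
    intro u v c d
    have := congrArg (fun Y : RR P Q => Y u v k l) (h _ (hy c d)).eq
    simp only [mul_legL_apply, legL_mul_apply, mk_apply] at this
    rw [Finset.sum_eq_single (c, v.2), Finset.sum_eq_single (d, u.2)] at this
    · simpa [ite_and] using this
    · intro a _ ha
      simp only [Prod.ext_iff, ne_eq] at ha
      split_ifs <;> simp_all
    · simp
    · intro a _ ha
      simp only [Prod.ext_iff, ne_eq] at ha
      split_ifs <;> simp_all
    · simp
  obtain ⟨i₁, i₂⟩ := i
  obtain ⟨j₁, j₂⟩ := j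
  have h2 := e (i₁, i₂) (a₀, j₂) j₁ a₀
  rcases eq_or_ne i₁ j₁ with hij | hij
  · subst hij
    simp only at h2
    rw [if_pos rfl]
    exact h2
  · rw [if_neg hij]
    simp only [if_neg hij] at h2
    simpa [CStarMatrix.zero_apply] using h2

/-- An element commuting with `1 ⊗ (1 ⊗ M_Q)` is `M_P`-valued in the inner leg. -/
theorem apply_of_commute_legR_Q {X : RR P Q}
    (h : ∀ y ∈ legQ P Q, Commute X (legR y)) (b₀ : Fin Q) (i j k l : Idx P Q) :
    X i j k l = if k.2 = l.2 then X i j (k.1, b₀) (l.1, b₀) else 0 := by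
  have hy : ∀ c d, (CStarMatrix.ofMatrix fun u v : Idx P Q =>
      if u.1 = v.1 ∧ u.2 = c ∧ v.2 = d then (1 : ℂ) else 0) ∈ legQ P Q := by
    intro c d
    refine ⟨fun u v => if u = c ∧ v = d then 1 else 0, fun u v => ?_⟩
    simp only [mk_apply]
    split_ifs <;> simp_all
  have e : ∀ (u v : Idx P Q) (c d : Fin Q),
      (if v.2 = d then X i j u (v.1, c) else 0) = (if u.2 = c then X i j (u.1, d) v else 0) := by
    intro u v c d
    have := congrArg (fun Y : RR P Q => Y i j u v) (h _ (hy c d)).eq
    simp only [mul_legR_apply, legR_mul_apply, mk_apply] at this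
    rw [Finset.sum_eq_single (v.1, c), Finset.sum_eq_single (u.1, d)] at this
    · simpa [ite_and] using this
    · intro a _ ha
      simp only [Prod.ext_iff, ne_eq] at ha
      split_ifs <;> simp_all
    · simp
    · intro a _ ha
      simp only [Prod.ext_iff, ne_eq] at ha
      split_ifs <;> simp_all
    · simp
  obtain ⟨k₁, k₂⟩ := k
  obtain ⟨l₁, l₂⟩ := l
  have h2 := e (k₁, k₂) (l₁, b₀) l₂ b₀
  rcases eq_or_ne k₂ l₂ with hij | hij
  · subst hij
    simpa using h2
  · simpa [hij] using h2

/-- An element commuting with `1 ⊗ (M_P ⊗ 1)` is `M_Q`-valued in the inner leg. -/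
theorem apply_of_commute_legR_P {X : RR P Q}
    (h : ∀ x ∈ legP P Q, Commute X (legR x)) (a₀ : Fin P) (i j k l : Idx P Q) :
    X i j k l = if k.1 = l.1 then X i j (a₀, k.2) (a₀, l.2) else 0 := by
  have hy : ∀ c d, (CStarMatrix.ofMatrix fun u v : Idx P Q =>
      if u.2 = v.2 ∧ u.1 = c ∧ v.1 = d then (1 : ℂ) else 0) ∈ legP P Q := by
    intro c d
    refine ⟨fun u v => if u = c ∧ v = d then 1 else 0, fun u v => ?_⟩
    simp only [mk_apply]
    split_ifs <;> simp_all
  have e : ∀ (u v : Idx P Q) (c d : Fin P),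
      (if v.1 = d then X i j u (c, v.2) else 0) = (if u.1 = c then X i j (d, u.2) v else 0) := by
    intro u v c d
    have := congrArg (fun Y : RR P Q => Y i j u v) (h _ (hy c d)).eq
    simp only [mul_legR_apply, legR_mul_apply, mk_apply] at this
    rw [Finset.sum_eq_single (c, v.2), Finset.sum_eq_single (d, u.2)] at this
    · simpa [ite_and] using this
    · intro a _ ha
      simp only [Prod.ext_iff, ne_eq] at ha
      split_ifs <;> simp_all
    · simp
    · intro a _ ha
      simp only [Prod.ext_iff, ne_eq] at ha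
      split_ifs <;> simp_all
    · simp
  obtain ⟨k₁, k₂⟩ := k
  obtain ⟨l₁, l₂⟩ := l
  have h2 := e (k₁, k₂) (a₀, l₂) l₁ a₀
  rcases eq_or_ne k₁ l₁ with hij | hij
  · subst hij
    simpa using h2
  · simpa [hij] using h2

end Vale.Agent.P101.HalfFlip
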