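import Mathlib
import Vale.Agent.P101.Drop.Defs
import Vale.Agent.P101.FlipMatrix

/-!
# The half flip unitary of a dimension drop algebra

For a continuous unitary path `v` with `v 0 = 1` there is a unitary `W` in
`dropAlg p q (dropAlg p q ℂ)` which conjugates `1 ⊗ f` to within `6 ε` of `f ⊗ 1` for every
`f` that is within `ε` of `t ↦ v t * f 0 * (v t)*`.

The work is done for a coefficient algebra `A` with a separating family `ev t : A → M_{pq}`.
-/

open scoped unitInterval ComplexOrder CStarAlgebra

set_option maxSynthPendingDepth 5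

namespace Vale.Agent.P101.HalfFlip

section General

variable {p q : ℕ}
variable {A : Type*} [CStarAlgebra A] [PartialOrder A] [StarOrderedRing A]
variable (ev : I → (A →⋆ₐ[ℂ] MM p q))

/-- evaluation of an element at both variables -/
noncomputable def evalAt (X : Drop.dropAlg p q A) (s t : I) : RR p q :=
  CStarMatrix.mapₙₐ (ev t : A →⋆ₙₐ[ℂ] MM p q) ((X : C(I, Drop.Mat p q A)) s)

theorem evalAt_apply (X : Drop.dropAlg p q A) (s t : I) (i j : Idx p q) :
    evalAt ev X s t i j = ev t ((X : C(I, Drop.Mat p q A)) s i j) := rfl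

theorem evalAt_mul (X Y : Drop.dropAlg p q A) (s t : I) :
    evalAt ev (X * Y) s t = evalAt ev X s t * evalAt ev Y s t := by
  simp only [evalAt, MulMemClass.coe_mul, ContinuousMap.mul_apply, map_mul]

theorem evalAt_sub (X Y : Drop.dropAlg p q A) (s t : I) :
    evalAt ev (X - Y) s t = evalAt ev X s t - evalAt ev Y s t := by
  simp only [evalAt, AddSubgroupClass.coe_sub, ContinuousMap.sub_apply, map_sub]

theorem evalAt_star (X : Drop.dropAlg p q A) (s t : I) :
    evalAt ev (star X) s t = star (evalAt ev X s t) := by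
  simp only [evalAt, StarMemClass.coe_star, ContinuousMap.star_apply, map_star]

theorem evalAt_one (s t : I) : evalAt ev (1 : Drop.dropAlg p q A) s t = 1 := by
  refine CStarMatrix.ext fun i j => ?_
  rw [evalAt_apply]
  simp only [OneMemClass.coe_one, ContinuousMap.one_apply, CStarMatrix.one_apply]
  split <;> simp

variable (hsep : ∀ a b, (∀ t, ev t a = ev t b) → a = b) (hevc : ∀ a, Continuous fun t => ev t a)

include hsep in
theorem eq_of_evalAt {X Y : Drop.dropAlg p q A}
    (h : ∀ s t, evalAt ev X s t = evalAt ev Y s t) : X = Y := by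
  refine Subtype.ext (ContinuousMap.ext fun s => CStarMatrix.ext fun i j => hsep _ _ fun t => ?_)
  exact congrArg (fun Z : RR p q => Z i j) (h s t)

/-- matrices over `A` as matrix valued functions -/
noncomputable def entryFun : Drop.Mat p q A →⋆ₙₐ[ℂ] C(I, RR p q) where
  toFun M := ⟨fun t => CStarMatrix.mapₙₐ (ev t : A →⋆ₙₐ[ℂ] MM p q) M,
    continuous_pi fun i => continuous_pi fun j => (hevc (M i j) :)⟩
  map_smul' c M := ContinuousMap.ext fun t =>
    map_smul (CStarMatrix.mapₙₐ (ev t : A →⋆ₙₐ[ℂ] MM p q)) c M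
  map_zero' := ContinuousMap.ext fun t => map_zero (CStarMatrix.mapₙₐ (ev t : A →⋆ₙₐ[ℂ] MM p q))
  map_add' M N := ContinuousMap.ext fun t =>
    map_add (CStarMatrix.mapₙₐ (ev t : A →⋆ₙₐ[ℂ] MM p q)) M N
  map_mul' M N := ContinuousMap.ext fun t =>
    map_mul (CStarMatrix.mapₙₐ (ev t : A →⋆ₙₐ[ℂ] MM p q)) M N
  map_star' M := ContinuousMap.ext fun t =>
    map_star (CStarMatrix.mapₙₐ (ev t : A →⋆ₙₐ[ℂ] MM p q)) M

include hsep hevc in
theorem norm_le_of_evalAt {X : Drop.dropAlg p q A} {C : ℝ} (hC : 0 ≤ C)
    (h : ∀ s t, ‖evalAt ev X s t‖ ≤ C) : ‖X‖ ≤ C := by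
  change ‖(X : C(I, Drop.Mat p q A))‖ ≤ C
  refine (ContinuousMap.norm_le _ hC).2 fun s => ?_
  have hi : Function.Injective (entryFun ev hevc) := fun M N hMN =>
    CStarMatrix.ext fun i j => hsep _ _ fun t =>
      congrArg (fun Z : C(I, RR p q) => Z t i j) hMN
  rw [← NonUnitalStarAlgHom.norm_map (entryFun ev hevc) hi]
  exact (ContinuousMap.norm_le _ hC).2 fun t => h s t

variable [NeZero p] [NeZero q] (v : I → MM p q) (hv : ∀ t, v t ∈ unitary (MM p q)) (h0 : v 0 = 1)
variable (w : I → Idx p q → Idx p q → A) (hwc : ∀ i j, Continuous fun s => w s i j)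
  (hw : ∀ s t i j, ev t (w s i j) = (flipData p q).squareW v s t i j)

/-- The unitary with coefficients `w`. -/
noncomputable def genW (hsep' : ∀ a b, (∀ t, ev t a = ev t b) → a = b)
    (hv' : ∀ t, v t ∈ unitary (MM p q)) (h0' : v 0 = 1)
    (hwc' : ∀ i j, Continuous fun s => w s i j)
    (hw' : ∀ s t i j, ev t (w s i j) = (flipData p q).squareW v s t i j) : Drop.dropAlg p q A :=
  ⟨⟨fun s => CStarMatrix.ofMatrix fun i j => w s i j,
    continuous_pi fun i => continuous_pi fun j => (hwc' i j :)⟩, by
    constructor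
    · refine ⟨fun a b => w 0 (a, 0) (b, 0), fun i j => hsep' _ _ fun t => ?_⟩
      have h := apply_of_commute_legL_Q
        (fun y hy => (flipData p q).squareW_s0 hv' h0' t hy) 0 i j
      change ev t (w 0 i j) = _
      rcases eq_or_ne i.2 j.2 with hij | hij
      · rw [if_pos hij] at h ⊢
        exact ((hw' 0 t i j).trans h).trans (hw' 0 t _ _).symm
      · rw [if_neg hij] at h ⊢
        rw [map_zero]
        exact (hw' 0 t i j).trans h
    · refine ⟨fun k l => w 1 (0, k) (0, l), fun i j => hsep' _ _ fun t => ?_⟩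
      have h := apply_of_commute_legL_P
        (fun y hy => (flipData p q).squareW_s1 hv' t hy) 0 i j
      change ev t (w 1 i j) = _
      rcases eq_or_ne i.1 j.1 with hij | hij
      · rw [if_pos hij] at h ⊢
        exact ((hw' 1 t i j).trans h).trans (hw' 1 t _ _).symm
      · rw [if_neg hij] at h ⊢
        rw [map_zero]
        exact (hw' 1 t i j).trans h⟩

theorem evalAt_genW (s t : I) :
    evalAt ev (genW ev v w hsep hv h0 hwc hw) s t = (flipData p q).squareW v s t :=
  CStarMatrix.ext fun i j => hw s t i j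

theorem genW_mem : genW ev v w hsep hv h0 hwc hw ∈ unitary (Drop.dropAlg p q A) := by
  rw [Unitary.mem_iff]
  constructor <;> refine eq_of_evalAt ev hsep fun s t => ?_ <;>
    rw [evalAt_mul, evalAt_star, evalAt_genW, evalAt_one]
  · exact Unitary.star_mul_self_of_mem ((flipData p q).squareW_mem hv s t)
  · exact Unitary.mul_star_self_of_mem ((flipData p q).squareW_mem hv s t)

omit [NeZero p] [NeZero q] in
theorem evalAt_tensor_left (a : A) (s t : I) :
    evalAt ev (Drop.tensor a 1) s t = legR (ev t a) := by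
  refine RR_ext fun i j k l => ?_
  rw [evalAt_apply, legR_apply, Drop.tensor_apply, map_smul]
  simp only [OneMemClass.coe_one, ContinuousMap.one_apply, CStarMatrix.one_apply]
  split <;> simp

omit [NeZero p] [NeZero q] in
theorem evalAt_tensor_right (f : Drop.dropAlg p q ℂ) (s t : I) :
    evalAt ev (Drop.tensor 1 f) s t = legL ((f : C(I, MM p q)) s) := by
  refine RR_ext fun i j k l => ?_
  rw [evalAt_apply, legL_apply, Drop.tensor_apply, map_smul, map_one]
  simp only [CStarMatrix.smul_apply, CStarMatrix.one_apply]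
  split <;> simp

include hevc in
/-- The half flip estimate with general coefficients. -/
theorem norm_genW_conj (f : Drop.dropAlg p q ℂ) (a : A)
    (ha : ∀ t, ev t a = (f : C(I, MM p q)) t) {ε : ℝ}
    (hf : ∀ t, ‖(f : C(I, MM p q)) t - v t * (f : C(I, MM p q)) 0 * star (v t)‖ ≤ ε) :
    ‖star (genW ev v w hsep hv h0 hwc hw) * Drop.tensor a 1 * genW ev v w hsep hv h0 hwc hw
      - Drop.tensor 1 f‖ ≤ 6 * ε := by
  have hε : 0 ≤ ε := le_trans (norm_nonneg _) (hf 0)
  refine norm_le_of_evalAt ev hsep hevc (by positivity) fun s t => ?_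
  rw [evalAt_sub, evalAt_mul, evalAt_mul, evalAt_star, evalAt_genW, evalAt_tensor_left,
    evalAt_tensor_right, ha]
  exact (flipData p q).norm_squareW_conj hv (f := fun t => (f : C(I, MM p q)) t)
    f.2.1 f.2.2 hf s t

end General

section Special

variable {p q : ℕ} [NeZero p] [NeZero q] (v : C(I, MM p q))

/-- evaluation on the dimension drop algebra -/
noncomputable def dropEval (t : I) : Drop.dropAlg p q ℂ →⋆ₐ[ℂ] MM p q where
  toFun f := (f : C(I, MM p q)) t
  map_one' := rfl
  map_mul' _ _ := rfl
  map_zero' := rfl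
  map_add' _ _ := rfl
  commutes' _ := rfl
  map_star' _ := rfl

omit [NeZero p] [NeZero q] in
theorem continuous_squareEntry (i j : Idx p q) :
    Continuous fun x : I × I => (flipData p q).squareW (fun t => v t) x.1 x.2 i j :=
  (continuous_apply j).comp
    ((continuous_apply i).comp ((flipData p q).continuous_squareW v.continuous))

/-- the entry of the unitary as a function of the outer and inner variables -/
noncomputable def squareEntry (i j : Idx p q) : C(I, C(I, MM p q)) :=
  ContinuousMap.curry ⟨_, continuous_squareEntry v i j⟩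

omit [NeZero p] [NeZero q] in
theorem squareEntry_apply (i j : Idx p q) (s t : I) :
    squareEntry v i j s t = (flipData p q).squareW (fun t => v t) s t i j := rfl

variable (hv : ∀ t, v t ∈ unitary (MM p q)) (h0 : v 0 = 1)

include hv h0 in
theorem squareEntry_mem (i j : Idx p q) (s : I) : squareEntry v i j s ∈ Drop.dropAlg p q ℂ := by
  rw [Drop.mem_dropAlg]
  constructor
  · rw [Drop.isLeft_iff]
    intro k l
    rw [squareEntry_apply]
    exact apply_of_commute_legR_Q
      (fun y hy => (flipData p q).squareW_t0 hv h0 s hy) 0 i j k l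
  · rw [Drop.isRight_iff]
    intro k l
    rw [squareEntry_apply]
    exact apply_of_commute_legR_P
      (fun y hy => (flipData p q).squareW_t1 hv s hy) 0 i j k l

/-- the coefficient function of the unitary -/
noncomputable def coefW (s : I) (i j : Idx p q) : Drop.dropAlg p q ℂ :=
  ⟨squareEntry v i j s, squareEntry_mem v hv h0 i j s⟩

include hv h0 in
/-- **The half flip of a dimension drop algebra.** -/
theorem exists_halfFlip [PartialOrder (Drop.dropAlg p q ℂ)]
    [StarOrderedRing (Drop.dropAlg p q ℂ)] :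
    ∃ W ∈ unitary (Drop.dropAlg p q (Drop.dropAlg p q ℂ)), ∀ (f : Drop.dropAlg p q ℂ) (ε : ℝ),
      (∀ t, ‖(f : C(I, MM p q)) t - v t * (f : C(I, MM p q)) 0 * star (v t)‖ ≤ ε) →
        ‖star W * Drop.tensor f 1 * W - Drop.tensor 1 f‖ ≤ 6 * ε := by
  have hsep : ∀ a b : Drop.dropAlg p q ℂ, (∀ t, dropEval t a = dropEval t b) → a = b :=
    fun a b h => Subtype.ext (ContinuousMap.ext h)
  have hwc : ∀ i j, Continuous fun s => coefW v hv h0 s i j := fun i j =>
    (squareEntry v i j).continuous.subtype_mk fun s => squareEntry_mem v hv h0 i j s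
  have hw : ∀ s t i j, dropEval t (coefW v hv h0 s i j)
      = (flipData p q).squareW (fun t => v t) s t i j := fun _ _ _ _ => rfl
  have hevc : ∀ a : Drop.dropAlg p q ℂ, Continuous fun t => dropEval t a := fun a =>
    (a : C(I, MM p q)).continuous
  have hmem := genW_mem (A := Drop.dropAlg p q ℂ) dropEval hsep (fun t => v t) hv h0
    (coefW v hv h0) hwc hw
  refine ⟨_, hmem, fun f ε hf => ?_⟩
  have ha : ∀ t, dropEval t f = (f : C(I, MM p q)) t := fun _ => rfl
  exact norm_genW_conj (A := Drop.dropAlg p q ℂ) dropEval hsep hevc (fun t => v t) hv h0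
    (coefW v hv h0) hwc hw f f ha hf

end Special

end Vale.Agent.P101.HalfFlip
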