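import Vale.Agent.P101.SeqAlg
import Vale.Agent.P101.HalfFlipDrop
import Vale.Agent.P101.Drop.Lift
import Vale.Agent.P101.JiangSu.System
import Vale.Agent.P101.Intertwine

/-!
# P101: homomorphisms into the central sequence algebra make the tensor embedding intertwinable

Let `C` be generated by commuting copies of `A` and of the stages of the Jiang-Su system. If every
stage maps unitally into `F_ω(A)`, the half flips of the stages give unitaries of `C` which almost
commute with `A` and move any given elements almost into `A`.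
-/

set_option maxSynthPendingDepth 5

open Filter Topology
open scoped ComplexOrder unitInterval

namespace Vale.Agent.P101.Absorb

open SeqAlg (SQ toSQ bseq)
open JiangSu (p q conn connTo)

variable {A : Type*} [CStarAlgebra A] {C : Type*} [CStarAlgebra C] {ω : Ultrafilter ℕ}

theorem toSQ_sum {ι : Type*} (s : Finset ι) (f : ι → bseq C ω) :
    (toSQ (∑ i ∈ s, f i) : SQ C ω) = ∑ i ∈ s, toSQ (f i) := by
  classical
  induction s using Finset.induction_on with
  | empty => exact SeqAlg.toSQ_zero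
  | insert i s hi ih =>
    rw [Finset.sum_insert hi, Finset.sum_insert hi, ← ih, SeqAlg.toSQ_add]

/-- The image of a central element commutes with whatever the image of the algebra commutes
with. -/
theorem commute_mapHom (α : A →⋆ₐ[ℂ] C) (x : FO A ω) {c : C} (hc : ∀ a, Commute (α a) c) :
    Commute (SeqAlg.mapHom α x) (SeqAlg.const ω c) := by
  obtain ⟨x, rfl⟩ := toFO_surjective x
  rw [SeqAlg.mapHom_toFO]
  show _ * toSQ _ = toSQ _ * _
  rw [← SeqAlg.toSQ_mul, ← SeqAlg.toSQ_mul]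
  exact congrArg toSQ (Subtype.ext (funext fun n => hc _))

/-- A unitary of a dimension drop algebra with coefficients, pushed to a common algebra. -/
theorem exists_pushed_unitary {P Q : ℕ} [NeZero P] [NeZero Q] {D : Type*} [CStarAlgebra D]
    [PartialOrder D] [StarOrderedRing D] {B : Type*} [CStarAlgebra B] (ι : D →⋆ₐ[ℂ] B)
    (ψ : Drop.dropAlg P Q ℂ →⋆ₐ[ℂ] B) (hc : ∀ d z, Commute (ι d) (ψ z))
    {W : Drop.dropAlg P Q D} (hW : W ∈ unitary (Drop.dropAlg P Q D)) :
    ∃ u ∈ unitary B,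
      (∀ b, (∀ d, Commute (ι d) b) → (∀ z, Commute (ψ z) b) → Commute u b) ∧
      ∀ (f : D) (g : Drop.dropAlg P Q ℂ) (ε : ℝ),
        ‖star W * Drop.tensor f 1 * W - Drop.tensor 1 g‖ ≤ ε →
          ‖u * ψ g * star u - ι f‖ ≤ ε := by
  set μ := Drop.lift ι ψ hc with hμ
  have hu : μ W ∈ unitary B := Unitary.map_mem μ hW
  refine ⟨μ W, hu, fun b hι hψ => ?_, fun f g ε h => ?_⟩
  · have hcb : ∀ n, Commute (μ (Drop.bern n W)) b := fun n => by
      simp only [Drop.bern, map_sum, hμ, Drop.lift_tensor]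
      exact Commute.sum_left _ _ _ fun k _ => Commute.sum_left _ _ _ fun i _ =>
        Commute.sum_left _ _ _ fun j _ => (hι _).mul_left (hψ _)
    have hlim := ((Drop.continuous_hom μ).tendsto W).comp (Drop.tendsto_bern W)
    exact tendsto_nhds_unique (hlim.mul_const _) ((hlim.const_mul _).congr fun n => (hcb n).symm)
  · have h' := (NonUnitalStarAlgHom.norm_apply_le μ
      (star W * Drop.tensor f 1 * W - Drop.tensor 1 g)).trans h
    rw [map_sub, map_mul, map_mul, map_star] at h'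
    simp only [hμ, Drop.lift_tensor, map_one, mul_one, one_mul] at h'
    rw [← hμ] at h'
    have e : μ W * ψ g * star (μ W) - ι f =
        -(μ W * (star (μ W) * ι f * μ W - ψ g) * star (μ W)) := by
      rw [mul_sub, sub_mul, neg_sub, ← mul_assoc (μ W), ← mul_assoc (μ W),
        Unitary.mul_star_self_of_mem hu, one_mul, mul_assoc _ (μ W) (star (μ W)),
        Unitary.mul_star_self_of_mem hu, mul_one]
    rw [e, norm_neg, CStarRing.norm_mul_mem_unitary _ (Unitary.star_mem hu),
      CStarRing.norm_mem_unitary_mul _ hu]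
    exact h'

/-- The unitary of the sequence algebra attached to one stage. -/
theorem exists_unitary {P Q : ℕ} [NeZero P] [NeZero Q] (α : A →⋆ₐ[ℂ] C)
    (β : Drop.dropAlg P Q ℂ →⋆ₐ[ℂ] C) (hcomm : ∀ a z, Commute (α a) (β z))
    (φ : Drop.dropAlg P Q ℂ →⋆ₐ[ℂ] FO A ω)
    (v : C(I, HalfFlip.MM P Q)) (hv : ∀ t, v t ∈ unitary (HalfFlip.MM P Q)) (h0 : v 0 = 1) :
    ∃ u ∈ unitary (SQ C ω), (∀ a, Commute u (SeqAlg.const ω (α a))) ∧
      ∀ (f : Drop.dropAlg P Q ℂ) (ε : ℝ),
        (∀ t, ‖(f : C(I, HalfFlip.MM P Q)) t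
            - v t * (f : C(I, HalfFlip.MM P Q)) 0 * star (v t)‖ ≤ ε) →
          ‖u * SeqAlg.const ω (β f) * star u - SeqAlg.mapHom α (φ f)‖ ≤ 6 * ε := by
  let _ := CStarAlgebra.spectralOrder (Drop.dropAlg P Q ℂ)
  have _ := CStarAlgebra.spectralOrderedRing (Drop.dropAlg P Q ℂ)
  obtain ⟨W, hW, hflip⟩ := HalfFlip.exists_halfFlip v hv h0
  obtain ⟨u, hu, hcomm', hest⟩ := exists_pushed_unitary (D := Drop.dropAlg P Q ℂ)
    ((SeqAlg.mapHom α).comp φ) ((SeqAlg.const ω).comp β)
    (fun f g => commute_mapHom α (φ f) fun a => hcomm a g) hW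
  exact ⟨u, hu, fun a => hcomm' _ (fun d => SeqAlg.commute_mapHom_const α (φ d) a)
    (fun z => (hcomm a z).symm.map (SeqAlg.const ω)), fun f ε hf => hest f f _ (hflip f ε hf)⟩

variable (α : A →⋆ₐ[ℂ] C) (β : ∀ j, Drop.dropAlg (p j) (q j) ℂ →⋆ₐ[ℂ] C)

/-- The products of `A` with one stage. -/
noncomputable def stageSpan (j : ℕ) : Submodule ℂ C :=
  Submodule.span ℂ (Set.range fun x : A × Drop.dropAlg (p j) (q j) ℂ => α x.1 * β j x.2)

theorem beta_connTo (hconn : ∀ j z, β (j + 1) (conn j z) = β j z) (i : ℕ)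
    (z : Drop.dropAlg (p i) (q i) ℂ) : ∀ n, β (i + n) (connTo i n z) = β i z
  | 0 => rfl
  | n + 1 => by
    rw [JiangSu.connTo_succ]
    exact (hconn (i + n) _).trans (beta_connTo hconn i z n)

theorem monotone_stageSpan (hconn : ∀ j z, β (j + 1) (conn j z) = β j z) :
    Monotone (stageSpan α β) := by
  refine monotone_nat_of_le_succ fun j => Submodule.span_mono ?_
  rintro _ ⟨⟨a, z⟩, rfl⟩
  exact ⟨(a, conn j z), by simp only [hconn]⟩

/-- **Homomorphisms of all stages into `F_ω(A)` make `α` intertwinable.** -/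
theorem canIntertwine_of_homs (hcomm : ∀ a j z, Commute (α a) (β j z))
    (hconn : ∀ j z, β (j + 1) (conn j z) = β j z)
    (hdense : Dense ((⨆ j, stageSpan α β j : Submodule ℂ C) : Set C))
    (φ : ∀ j, Nonempty (Drop.dropAlg (p j) (q j) ℂ →⋆ₐ[ℂ] FO A ω)) :
    CanIntertwine α := by
  classical
  intro F G ε hε
  have hmono := monotone_stageSpan α β hconn
  have happrox : ∀ b : C, ∃ s i, s ∈ stageSpan α β i ∧ ‖b - s‖ < ε / 4 := fun b => by
    obtain ⟨s, hs, hb⟩ := Metric.mem_closure_iff.1 (hdense b) (ε / 4) (by positivity)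
    obtain ⟨i, hi⟩ := (Submodule.mem_iSup_of_directed _ hmono.directed_le).1 hs
    exact ⟨s, i, hi, by rwa [← dist_eq_norm]⟩
  choose s stage hs hsb using happrox
  set i := G.sup stage with hi
  have hsi : ∀ b : G, ∃ c : (A × Drop.dropAlg (p i) (q i) ℂ) →₀ ℂ,
      (c.sum fun x r => r • (α x.1 * β i x.2)) = s b := fun b =>
    Finsupp.mem_span_range_iff_exists_finsupp.1 (hmono (Finset.le_sup b.2) (hs b))
  choose c hc using hsi
  set M : ℝ := 1 + ∑ b : G, ∑ x ∈ (c b).support, ‖c b x‖ * ‖x.1‖ with hM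
  have hM0 : 0 < M := by positivity
  set δ : ℝ := ε / (24 * M) with hδ
  obtain ⟨n, v, hv, hv0, hvf⟩ := (JiangSu.near_constant i
    (Finset.univ.biUnion fun b : G => (c b).support.image Prod.snd)
    (show 0 < δ by positivity)).exists
  obtain ⟨φm⟩ := φ (i + n)
  obtain ⟨u, hu, hua, huf⟩ := exists_unitary α (β (i + n)) (fun a z => hcomm a _ z) φm v hv hv0
  obtain ⟨V, hV⟩ := SeqAlg.exists_unitary_lift (Unitary.star_mem hu)
  choose x hx using fun z : Drop.dropAlg (p i) (q i) ℂ => toFO_surjective (φm (connTo i n z))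
  let K : C → bseq C ω := fun b => ⟨fun _ => b, ‖b‖, fun _ => le_rfl⟩
  have hK : ∀ b, toSQ (K b) = SeqAlg.const ω b := fun b => rfl
  let Y : G → bseq C ω := fun b =>
    ∑ z ∈ (c b).support, c b z • (K (α z.1) * SeqAlg.mapSeq α (x z.2))
  have hY : ∀ b : G, ‖star (star u) * SeqAlg.const ω (b : C) * star u - toSQ (Y b)‖ < ε := by
    intro b
    rw [star_star]
    have e1 : (SeqAlg.const ω (s b) : SQ C ω) = ∑ z ∈ (c b).support,
        c b z • (SeqAlg.const ω (α z.1) * SeqAlg.const ω (β (i + n) (connTo i n z.2))) := by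
      simp only [← map_mul, ← map_smul, ← map_sum, beta_connTo β hconn, ← hc b, Finsupp.sum]
    have e2 : (toSQ (Y b) : SQ C ω) = ∑ z ∈ (c b).support,
        c b z • (SeqAlg.const ω (α z.1) * SeqAlg.mapHom α (φm (connTo i n z.2))) := by
      simp only [Y, toSQ_sum, SeqAlg.toSQ_smul, SeqAlg.toSQ_mul, hK, ← SeqAlg.mapHom_toFO, hx]
    have e3 : u * SeqAlg.const ω (s b) * star u - toSQ (Y b) = ∑ z ∈ (c b).support,
        c b z • (SeqAlg.const ω (α z.1) *
          (u * SeqAlg.const ω (β (i + n) (connTo i n z.2)) * star u -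
            SeqAlg.mapHom α (φm (connTo i n z.2)))) := by
      rw [e1, e2, Finset.mul_sum, Finset.sum_mul, ← Finset.sum_sub_distrib]
      refine Finset.sum_congr rfl fun z _ => ?_
      rw [mul_smul_comm, smul_mul_assoc, ← smul_sub, mul_sub, ← mul_assoc u, (hua z.1).eq]
      simp only [mul_assoc]
    have h2 : ‖u * SeqAlg.const ω (s b) * star u - toSQ (Y b)‖ ≤ M * (6 * δ) := by
      rw [e3, hM, add_mul, one_mul, Finset.sum_mul]
      refine le_trans ?_ (le_add_of_nonneg_left (by positivity))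
      refine le_trans ?_ (Finset.single_le_sum
        (f := fun b : G => (∑ x ∈ (c b).support, ‖c b x‖ * ‖x.1‖) * (6 * δ))
        (fun b _ => by positivity) (Finset.mem_univ b))
      simp only [Finset.sum_mul]
      refine norm_sum_le_of_le _ fun z hz => ?_
      rw [norm_smul, show ‖c b z‖ * ‖z.1‖ * (6 * δ) = ‖c b z‖ * (‖z.1‖ * (6 * δ)) from mul_assoc _ _ _]
      refine mul_le_mul_of_nonneg_left ((norm_mul_le _ _).trans ?_) (norm_nonneg (c b z))
      refine mul_le_mul ?_ ?_ (norm_nonneg _) (norm_nonneg z.1)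
      · rw [SeqAlg.norm_const]; exact NonUnitalStarAlgHom.norm_apply_le α _
      · exact huf _ δ (hvf z.2 (Finset.mem_biUnion.2
          ⟨b, Finset.mem_univ _, Finset.mem_image_of_mem _ hz⟩))
    have h3 : ‖u * SeqAlg.const ω (b : C) * star u - u * SeqAlg.const ω (s b) * star u‖
        < ε / 4 := by
      rw [← sub_mul, ← mul_sub, CStarRing.norm_mul_mem_unitary _ (Unitary.star_mem hu),
        CStarRing.norm_mem_unitary_mul _ hu, ← map_sub, SeqAlg.norm_const]
      exact hsb _
    have h4 : M * (6 * δ) = ε / 4 := by rw [hδ]; field_simp; ring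
    calc _ ≤ ‖u * SeqAlg.const ω (b : C) * star u - u * SeqAlg.const ω (s b) * star u‖
          + ‖u * SeqAlg.const ω (s b) * star u - toSQ (Y b)‖ :=
          norm_sub_le_norm_sub_add_norm_sub _ _ _
      _ < ε := by linarith
  let S : bseq C ω := SeqAlg.unitarySeq V
  have hFev : ∀ a ∈ F, ∀ᶠ k in (ω : Filter ℕ),
      ‖((V k : unitary C) : C) * α a - α a * (V k : C)‖ < ε := fun a _ => by
    have h : (toSQ (S * K (α a) - K (α a) * S) : SQ C ω) = 0 := by
      rw [SeqAlg.toSQ_sub, SeqAlg.toSQ_mul, SeqAlg.toSQ_mul, hK,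
        show toSQ S = star u from hV, sub_eq_zero]
      have h' := (hua (star a)).star_star
      rw [← map_star, ← map_star α, star_star] at h'
      exact h'.eq
    have hn := SeqAlg.tendsto_norm_toSQ (S * K (α a) - K (α a) * S) (ω := ω)
    rw [h, norm_zero] at hn
    exact hn.eventually (eventually_lt_nhds hε)
  have hGev : ∀ b : G, ∀ᶠ k in (ω : Filter ℕ),
      ‖(star (V k : C)) * (b : C) * (V k : C) - (Y b : ℕ → C) k‖ < ε := fun b => by
    have hn := SeqAlg.tendsto_norm_toSQ (star S * K (b : C) * S - Y b) (ω := ω)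
    rw [SeqAlg.toSQ_sub, SeqAlg.toSQ_mul, SeqAlg.toSQ_mul, ← SeqAlg.star_toSQ, hK,
      show toSQ S = star u from hV] at hn
    exact hn.eventually (eventually_lt_nhds (hY b))
  obtain ⟨k, hkF, hkG⟩ := ((F.eventually_all.2 hFev).and (Filter.eventually_all.2 hGev)).exists
  refine ⟨V k, hkF, fun b hb => ⟨∑ z ∈ (c ⟨b, hb⟩).support,
    c ⟨b, hb⟩ z • (z.1 * (x z.2 : ℕ → A) k), ?_⟩⟩
  refine lt_of_eq_of_lt ?_ (hkG ⟨b, hb⟩)
  congr 2
  simp [Y, K, map_sum, map_smul, SeqAlg.coe_mapSeq]

end Vale.Agent.P101.Absorb
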