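import Mathlib.Analysis.CStarAlgebra.ContinuousFunctionalCalculus.Order
import Mathlib.Analysis.CStarAlgebra.ContinuousFunctionalCalculus.Isometric
import Mathlib.Topology.ContinuousMap.Weierstrass

/-!
# P101: algebraic ideals, positivity tricks, functional calculus lemmas
-/

namespace Vale.Agent.P101

open Polynomial

section Ring

variable {R : Type*} [Ring R]

/-- The algebraic two-sided ideal generated by `X`. -/
inductive Id (X : Set R) : R → Prop
  | gen (p x q : R) (hx : x ∈ X) : Id X (p * x * q)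
  | zero : Id X 0
  | add {a b : R} : Id X a → Id X b → Id X (a + b)

variable {X Y : Set R}

theorem Id.of_mem {x : R} (hx : x ∈ X) : Id X x := by simpa using Id.gen (1 : R) x 1 hx

theorem Id.mul_left {y : R} (h : Id X y) (r : R) : Id X (r * y) := by
  induction h with
  | gen p x q hx => simpa [mul_assoc] using Id.gen (r * p) x q hx
  | zero => simpa using Id.zero
  | add _ _ ha hb => simpa [mul_add] using ha.add hb

theorem Id.mul_right {y : R} (h : Id X y) (r : R) : Id X (y * r) := by
  induction h with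
  | gen p x q hx => simpa [mul_assoc] using Id.gen p x (q * r) hx
  | zero => simpa using Id.zero
  | add _ _ ha hb => simpa [add_mul] using ha.add hb

theorem Id.trans {y : R} (h : Id X y) (hX : ∀ x ∈ X, Id Y x) : Id Y y := by
  induction h with
  | gen p x q hx => exact ((hX x hx).mul_left p).mul_right q
  | zero => exact .zero
  | add _ _ ha hb => exact ha.add hb

theorem mul_mul_mul_interchange {b c d e : R} (hbd : Commute b d) (hcd : Commute c d)
    (hce : Commute c e) (a f : R) : a * b * c * (d * e * f) = a * d * (b * e) * (c * f) := by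
  calc a * b * c * (d * e * f) = a * b * (c * d) * e * f := by simp only [mul_assoc]
    _ = a * (b * d) * (c * e) * f := by rw [hcd.eq]; simp only [mul_assoc]
    _ = _ := by rw [hbd.eq, hce.eq]; simp only [mul_assoc]

theorem Id.mono {y : R} (h : Id X y) (hXY : X ⊆ Y) : Id Y y :=
  h.trans fun _ hx => .of_mem (hXY hx)

theorem Id.neg {y : R} (h : Id X y) : Id X (-y) := by simpa using h.mul_left (-1)

theorem Id.sub {a b : R} (ha : Id X a) (hb : Id X b) : Id X (a - b) := by
  simpa [sub_eq_add_neg] using ha.add hb.neg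

theorem Id.sum {ι : Type*} {s : Finset ι} {f : ι → R} (h : ∀ i ∈ s, Id X (f i)) :
    Id X (∑ i ∈ s, f i) := by
  classical
  induction s using Finset.induction with
  | empty => simpa using Id.zero
  | insert a s ha ih =>
    rw [Finset.sum_insert ha]
    exact (h a (by simp)).add (ih fun i hi => h i (by simp [hi]))

theorem Id.map {S F : Type*} [Ring S] [FunLike F R S] [RingHomClass F R S] (φ : F) {y : R}
    (h : Id X y) : Id (φ '' X) (φ y) := by
  induction h with
  | gen p x q hx => simpa using Id.gen (φ p) (φ x) (φ q) (Set.mem_image_of_mem φ hx)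
  | zero => simpa using Id.zero
  | add _ _ ha hb => simpa using ha.add hb

theorem Id.one_of_isUnit {y : R} (h : Id X y) (hy : IsUnit y) : Id X 1 := by
  simpa using h.mul_left (↑hy.unit⁻¹)

/-- A generating family together with commuting witnesses multiplies. -/
theorem Id.mul_of_commute {A B F G : Type*} [Ring A] [Ring B] [FunLike F A R] [RingHomClass F A R]
    [FunLike G B R] [RingHomClass G B R] (φ : F) (ψ : G) (hc : ∀ a b, Commute (φ a) (ψ b))
    {X : Set A} {Y : Set B} {a : A} {b : B} (ha : Id X a) (hb : Id Y b) :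
    Id {u | ∃ x ∈ X, ∃ y ∈ Y, u = φ x * ψ y} (φ a * ψ b) := by
  induction ha with
  | zero => simpa using Id.zero
  | add _ _ h₁ h₂ => simpa [add_mul] using h₁.add h₂
  | gen p x q hx =>
    induction hb with
    | zero => simpa using Id.zero
    | add _ _ h₁ h₂ => simpa [mul_add] using h₁.add h₂
    | gen p' y q' hy =>
      have : φ (p * x * q) * ψ (p' * y * q')
          = (φ p * ψ p') * (φ x * ψ y) * (φ q * ψ q') := by
        simp only [map_mul]
        exact mul_mul_mul_interchange (hc x p') (hc q p') (hc q y) _ _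
      rw [this]
      exact Id.gen _ _ _ ⟨x, hx, y, hy, rfl⟩

end Ring

section Cfc

variable {F : Type*} [CStarAlgebra F]

/-- Functional calculus intertwines what the elements intertwine. -/
theorem cfc_intertwine {a b X : F} (ha : IsSelfAdjoint a) (hb : IsSelfAdjoint b)
    (h : a * X = X * b) (f : ℝ → ℝ) (hf : Continuous f) : cfc f a * X = X * cfc f b := by
  nontriviality F
  have hpow : ∀ n : ℕ, a ^ n * X = X * b ^ n := fun n =>
    ((show SemiconjBy X b a from h.symm).pow_right n).eq.symm
  have hpoly : ∀ p : ℝ[X], aeval a p * X = X * aeval b p := fun p => by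
    induction p using Polynomial.induction_on' with
    | add p q hp hq => simp [add_mul, mul_add, hp, hq]
    | monomial n c =>
      simp [aeval_monomial, ← Algebra.smul_def, hpow]
  refine eq_of_norm_sub_le_zero (le_of_forall_pos_le_add fun ε hε => ?_)
  set r := max ‖a‖ ‖b‖
  have hδ : (0 : ℝ) < ε / (2 * ‖X‖ + 1) := by positivity
  obtain ⟨p, hp⟩ := exists_polynomial_near_of_continuousOn (-r) r f hf.continuousOn _ hδ
  have hnear : ∀ c : F, IsSelfAdjoint c → ‖c‖ ≤ r →
      ‖cfc f c - aeval c p‖ ≤ ε / (2 * ‖X‖ + 1) := by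
    intro c hc hcr
    rw [← cfc_polynomial p c, ← cfc_sub f p.eval c hf.continuousOn p.continuous.continuousOn]
    refine norm_cfc_le hδ.le fun x hx => ?_
    have hx' : |x| ≤ r := (spectrum.norm_le_norm_of_mem hx).trans hcr
    rw [Real.norm_eq_abs, abs_sub_comm]
    exact (hp x (abs_le.1 hx')).le
  calc ‖cfc f a * X - X * cfc f b‖
      = ‖(cfc f a - aeval a p) * X - X * (cfc f b - aeval b p)‖ := by
        rw [sub_mul, mul_sub, hpoly p]; congr 1; abel
    _ ≤ ε / (2 * ‖X‖ + 1) * ‖X‖ + ‖X‖ * (ε / (2 * ‖X‖ + 1)) :=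
        (norm_sub_le _ _).trans (add_le_add
          ((norm_mul_le _ _).trans
            (mul_le_mul_of_nonneg_right (hnear a ha (le_max_left _ _)) (norm_nonneg _)))
          ((norm_mul_le _ _).trans
            (mul_le_mul_of_nonneg_left (hnear b hb (le_max_right _ _)) (norm_nonneg _))))
    _ = ε * (2 * ‖X‖ / (2 * ‖X‖ + 1)) := by ring
    _ ≤ 0 + ε := by
        rw [zero_add]
        exact mul_le_of_le_one_right hε.le ((div_le_one (by positivity)).2 (by linarith))

theorem cfc_commute {a X : F} (ha : IsSelfAdjoint a) (h : Commute a X) (f : ℝ → ℝ)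
    (hf : Continuous f) : Commute (cfc f a) X :=
  cfc_intertwine ha ha h.eq f hf

theorem cfc_absorb {a X : F} (ha : IsSelfAdjoint a) {c : ℝ} (h : a * X = c • X) (f : ℝ → ℝ)
    (hf : Continuous f) : cfc f a * X = f c • X := by
  have hc : IsSelfAdjoint (algebraMap ℝ F c) := .algebraMap F (.all c)
  rw [cfc_intertwine (b := algebraMap ℝ F c) ha hc (by rw [h, Algebra.smul_def,
    Algebra.commutes c X]) f hf, cfc_algebraMap, ← Algebra.commutes, Algebra.smul_def]

theorem cfc_mul_cfc_eq_zero (a : F) {f g : ℝ → ℝ} (hf : Continuous f) (hg : Continuous g)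
    (h : ∀ x, f x * g x = 0) : cfc f a * cfc g a = 0 := by
  rw [← cfc_mul f g a hf.continuousOn hg.continuousOn]
  simp [h]

theorem cfc_mul_cfc_eq_right (a : F) {f g : ℝ → ℝ} (hf : Continuous f) (hg : Continuous g)
    (h : ∀ x, f x * g x = g x) : cfc f a * cfc g a = cfc g a := by
  rw [← cfc_mul f g a hf.continuousOn hg.continuousOn]
  simp [h]

/-- Functional calculus does not see what happens outside the plateau. -/
theorem cfc_plateau {a B B' : F} (ha : IsSelfAdjoint a) (hB' : IsSelfAdjoint B')
    (h1 : Commute a B') (h2 : Commute a B) (h3 : B' * B = B) (h4 : Commute B' B)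
    {c M : ℝ} (hn : ‖(a - algebraMap ℝ F c) * B'‖ ≤ M) (f : ℝ → ℝ) (hf : Continuous f)
    (hpl : ∀ x, |x - c| ≤ M → f x = 1) : cfc f a * B = B := by
  nontriviality F
  have hc : IsSelfAdjoint (algebraMap ℝ F c) := .algebraMap F (.all c)
  have hac : IsSelfAdjoint (a - algebraMap ℝ F c) := ha.sub hc
  have hcomm : Commute (a - algebraMap ℝ F c) B' := h1.sub_left (Algebra.commutes c B')
  set d := algebraMap ℝ F c + (a - algebraMap ℝ F c) * B'
  have hd : IsSelfAdjoint d := hc.add ((IsSelfAdjoint.commute_iff hac hB').1 hcomm)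
  have hd2 : a * B = B * d := by
    have e : d * B = a * B := by
      simp only [d, add_mul, mul_assoc, h3, sub_mul]; abel
    have hdB : Commute d B := by
      refine (show Commute (algebraMap ℝ F c) B from Algebra.commutes c B).add_left ?_
      exact ((h2.sub_left (Algebra.commutes c B)).mul_left h4)
    rw [← e, hdB.eq]
  rw [cfc_intertwine ha hd hd2 f hf]
  have : cfc f d = 1 := by
    rw [← cfc_const_one ℝ d]
    refine cfc_congr fun x hx => hpl x ?_
    have hx' : x - c ∈ spectrum ℝ ((a - algebraMap ℝ F c) * B') := by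
      have hx0 : x ∈ spectrum ℝ (algebraMap ℝ F c + (a - algebraMap ℝ F c) * B') := hx
      rw [← spectrum.singleton_add_eq, Set.singleton_add, Set.mem_image] at hx0
      obtain ⟨y, hy, rfl⟩ := hx0
      simpa using hy
    exact (spectrum.norm_le_norm_of_mem hx').trans hn
  rw [this, mul_one]

end Cfc

section Full

variable {F : Type*} [CStarAlgebra F] [PartialOrder F] [StarOrderedRing F]

theorem star_add_mul_add_le (y z : F) :
    star (y + z) * (y + z) ≤ (2 : ℝ) • (star y * y + star z * z) := by
  rw [← sub_nonneg]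
  refine le_of_le_of_eq (star_mul_self_nonneg (y - z)) ?_
  rw [two_smul]
  simp only [star_add, star_sub, add_mul, mul_add, sub_mul, mul_sub]
  abel

omit [PartialOrder F] [StarOrderedRing F] in
theorem Id.smul {X : Set F} {y : F} (h : Id X y) (c : ℝ) : Id X (c • y) := by
  rw [Algebra.smul_def]; exact h.mul_left _

/-- If each generator of a full family is dominated by the ideal of `Y`, then `Y` is full. -/
theorem Id.full_of_le {X Y : Set F} (h : Id X 1)
    (hX : ∀ x ∈ X, ∃ T, Id Y T ∧ star x * x ≤ T) : Id Y 1 := by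
  suffices ∀ y, Id X y → ∃ T, Id Y T ∧ star y * y ≤ T by
    obtain ⟨T, hT, h1⟩ := this 1 h
    exact hT.one_of_isUnit (CStarAlgebra.isUnit_of_le 1 (by simpa using h1) isStrictlyPositive_one)
  intro y hy
  induction hy with
  | zero => exact ⟨0, .zero, by simp⟩
  | add _ _ ha hb =>
    obtain ⟨T₁, hT₁, h₁⟩ := ha
    obtain ⟨T₂, hT₂, h₂⟩ := hb
    exact ⟨(2 : ℝ) • (T₁ + T₂), (hT₁.add hT₂).smul _,
      (star_add_mul_add_le _ _).trans (smul_le_smul_of_nonneg_left (add_le_add h₁ h₂) (by norm_num))⟩
  | gen p x q hx =>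
    obtain ⟨T, hT, hle⟩ := hX x hx
    refine ⟨‖star p * p‖ • (star q * T * q), ((hT.mul_left _).mul_right _).smul _, ?_⟩
    calc star (p * x * q) * (p * x * q) = star (x * q) * (star p * p) * (x * q) := by
          simp [mul_assoc]
      _ ≤ ‖star p * p‖ • (star (x * q) * (x * q)) :=
          CStarAlgebra.star_left_conjugate_le_norm_smul (.star_mul_self p)
      _ = ‖star p * p‖ • (star q * (star x * x) * q) := by simp [mul_assoc]
      _ ≤ _ := smul_le_smul_of_nonneg_left (star_left_conjugate_le_conjugate hle q) (norm_nonneg _)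

omit [PartialOrder F] [StarOrderedRing F] in
/-- Fullness survives perturbation of the generators. -/
theorem Id.eventually_full {ι : Type*} {l : Filter ι} {X : Set F} {Y : ι → Set F} (h : Id X 1)
    (hX : ∀ x ∈ X, ∀ ε : ℝ, 0 < ε → ∀ᶠ i in l, ∃ y, Id (Y i) y ∧ ‖x - y‖ ≤ ε) :
    ∀ᶠ i in l, Id (Y i) 1 := by
  suffices ∀ z, Id X z → ∀ ε : ℝ, 0 < ε → ∀ᶠ i in l, ∃ y, Id (Y i) y ∧ ‖z - y‖ ≤ ε by
    refine (this 1 h (1 / 2) (by norm_num)).mono fun i hi => ?_
    obtain ⟨y, hy, hd⟩ := hi
    have hu := (Units.oneSub (1 - y) (hd.trans_lt (by norm_num))).isUnit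
    rw [Units.val_oneSub, sub_sub_cancel] at hu
    exact hy.one_of_isUnit hu
  intro z hz
  induction hz with
  | zero => exact fun ε hε => .of_forall fun i => ⟨0, .zero, by simpa using hε.le⟩
  | add _ _ ha hb =>
    intro ε hε
    filter_upwards [ha (ε / 2) (half_pos hε), hb (ε / 2) (half_pos hε)] with i ⟨y₁, h₁, e₁⟩ ⟨y₂, h₂, e₂⟩
    refine ⟨y₁ + y₂, h₁.add h₂, ?_⟩
    rw [add_sub_add_comm]
    exact (norm_add_le _ _).trans (by linarith)
  | gen p x q hx =>
    intro ε hε
    filter_upwards [hX x hx (ε / (‖p‖ * ‖q‖ + 1)) (by positivity)] with i ⟨y, hy, e⟩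
    refine ⟨p * y * q, (hy.mul_left _).mul_right _, ?_⟩
    rw [← sub_mul, ← mul_sub]
    calc ‖p * (x - y) * q‖ ≤ ‖p‖ * (ε / (‖p‖ * ‖q‖ + 1)) * ‖q‖ := by
          refine norm_mul₃_le.trans ?_
          gcongr
      _ = ε * ((‖p‖ * ‖q‖) / (‖p‖ * ‖q‖ + 1)) := by ring
      _ ≤ ε := mul_le_of_le_one_right hε.le ((div_le_one (by positivity)).2 (by linarith))

end Full

end Vale.Agent.P101
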