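import Vale.Agent.P101.Douglas
import Mathlib.RingTheory.RootsOfUnity.Complex
import Mathlib.Algebra.Ring.GeomSum

/-!
# P101: the bilinear Fourier estimate between two families of commuting copies
-/

namespace Vale.Agent.P101

open Complex

variable {F : Type*} [CStarAlgebra F] [PartialOrder F] [StarOrderedRing F]

/-- The standard `q`-th root of unity. -/
noncomputable def root (q : ℕ) : ℂ := Complex.exp (2 * Real.pi * I / q)

theorem root_prim {q : ℕ} (hq : q ≠ 0) : IsPrimitiveRoot (root q) q :=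
  Complex.isPrimitiveRoot_exp q hq

theorem norm_root {q : ℕ} (hq : q ≠ 0) : ‖root q‖ = 1 :=
  Complex.norm_eq_one_of_pow_eq_one (root_prim hq).pow_eq_one hq

theorem star_root_zpow {q : ℕ} (hq : q ≠ 0) (n : ℤ) : star (root q ^ n) = root q ^ (-n) := by
  rw [zpow_neg]
  exact (Complex.inv_eq_conj (by rw [norm_zpow, norm_root hq, one_zpow])).symm

theorem sum_root_zpow {q : ℕ} (hq : q ≠ 0) {a : ℤ} (ha : ¬ (q : ℤ) ∣ a) :
    ∑ l ∈ Finset.range q, root q ^ (a * l) = 0 := by
  have h1 : root q ^ a ≠ 1 := fun h => ha (((root_prim hq).zpow_eq_one_iff_dvd a).1 h)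
  have h2 : (root q ^ a) ^ q = 1 := by
    rw [← zpow_natCast, ← zpow_mul, mul_comm, zpow_mul, zpow_natCast, (root_prim hq).pow_eq_one,
      one_zpow]
  simp only [zpow_mul, zpow_natCast]
  rw [geom_sum_eq h1, h2, sub_self, zero_div]

/-- The bilinear sum is close to one. -/
theorem norm_bilinear_le {q J : ℕ} (hq : q.Prime) (hJ : J * J < q)
    (b : ℕ → Fin J → Fin J → F) {β : ℝ} (hβ : 0 < β)
    (hb : ∀ l j k, ‖b l j k‖ ≤ β) (hdiag : ∀ l, ∑ j, b l j j = 1) :
    ‖((q : ℝ)⁻¹ * (q : ℝ)⁻¹) • (∑ l ∈ Finset.range q, ∑ l' ∈ Finset.range q,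
        ∑ p : Fin J × Fin J, ∑ p' : Fin J × Fin J,
          root q ^ ((((p'.1 : ℕ) : ℤ) * J + (p'.2 : ℕ) - (((p.1 : ℕ) : ℤ) * J + (p.2 : ℕ))) * l * l') •
            (b l p.1 p'.1 * b (q + l') p.2 p'.2)) - 1‖
      ≤ (J : ℝ) ^ 4 * β ^ 2 / Real.sqrt q := by
  classical
  have hq0 : q ≠ 0 := hq.ne_zero
  have hqr : (0 : ℝ) < q := by exact_mod_cast hq.pos
  let n : Fin J × Fin J → ℤ := fun p => ((p.1 : ℕ) : ℤ) * J + (p.2 : ℕ)
  have hn : ∀ p, 0 ≤ n p ∧ n p < (J * J : ℕ) := fun p => by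
    have h1 := p.1.2
    have h2 := p.2.2
    have h3 : (p.1 : ℕ) * J + p.2 < J * J := by nlinarith
    exact ⟨add_nonneg (mul_nonneg (Int.natCast_nonneg _) (Int.natCast_nonneg _))
      (Int.natCast_nonneg _), by simp only [n]; exact_mod_cast h3⟩
  have hinj : ∀ p p', n p' - n p = 0 → p' = p := by
    intro p p' h
    have h1 : (p'.1 : ℕ) * J + p'.2 = (p.1 : ℕ) * J + p.2 := by
      simp only [n] at h; exact_mod_cast sub_eq_zero.1 h
    have hJ0 : 0 < J := p.2.pos
    have e1 := congrArg (· / J) h1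
    have e2 := congrArg (· % J) h1
    simp only [Nat.mul_comm _ J, Nat.mul_add_div hJ0, Nat.div_eq_of_lt p'.2.2,
      Nat.div_eq_of_lt p.2.2, add_zero, Nat.mul_add_mod, Nat.mod_eq_of_lt p'.2.2,
      Nat.mod_eq_of_lt p.2.2] at e1 e2
    exact Prod.ext (Fin.ext e1) (Fin.ext e2)
  set t : Fin J × Fin J → Fin J × Fin J → F := fun p p' =>
    ∑ l ∈ Finset.range q, ∑ l' ∈ Finset.range q,
      root q ^ ((n p' - n p) * l * l') • (b l p.1 p'.1 * b (q + l') p.2 p'.2) with ht
  have e0 : (∑ l ∈ Finset.range q, ∑ l' ∈ Finset.range q,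
      ∑ p : Fin J × Fin J, ∑ p' : Fin J × Fin J,
        root q ^ ((n p' - n p) * l * l') • (b l p.1 p'.1 * b (q + l') p.2 p'.2))
      = ∑ p, ∑ p', t p p' := by
    simp only [ht]
    rw [Finset.sum_congr rfl fun l _ => Finset.sum_comm, Finset.sum_comm]
    refine Finset.sum_congr rfl fun p _ => ?_
    rw [Finset.sum_congr rfl fun l _ => Finset.sum_comm, Finset.sum_comm]
  have hdiagsum : ∑ p, t p p = ((q : ℝ) * q) • (1 : F) := by
    simp only [ht, sub_self, zero_mul, zpow_zero, one_smul]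
    rw [Finset.sum_comm, Finset.sum_congr rfl fun l _ => Finset.sum_comm]
    have : ∀ l l', ∑ p : Fin J × Fin J, b l p.1 p.1 * b l' p.2 p.2 = 1 := fun l l' => by
      rw [Fintype.sum_prod_type]
      simp only [← Finset.mul_sum, ← Finset.sum_mul, hdiag, one_mul]
    simp [this, smul_smul, ← Nat.cast_smul_eq_nsmul ℝ]
  have hoff : ∀ p p', p' ≠ p → ‖t p p'‖ ≤ q * Real.sqrt q * β ^ 2 := by
    intro p p' hne
    let d := n p' - n p
    have hd : ¬ (q : ℤ) ∣ d := by
      intro h
      refine hne (hinj p p' (Int.eq_zero_of_abs_lt_dvd h ?_))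
      have h1 := hn p
      have h2 := hn p'
      rw [abs_lt]
      have : ((J * J : ℕ) : ℤ) < q := by exact_mod_cast hJ
      constructor <;> linarith
    let C : ℕ → F := fun l => ∑ l' ∈ Finset.range q, root q ^ (d * l * l') • b (q + l') p.2 p'.2
    have et : t p p' = ∑ l ∈ Finset.range q, b l p.1 p'.1 * C l := by
      simp only [ht, C, d, Finset.mul_sum, mul_smul_comm]
    have hB : ‖∑ l ∈ Finset.range q, b l p.1 p'.1 * star (b l p.1 p'.1)‖ ≤ q * β ^ 2 := by
      refine (norm_sum_le _ _).trans ((Finset.sum_le_sum fun l _ =>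
        (?_ : _ ≤ β ^ 2)).trans_eq (by simp))
      rw [CStarRing.norm_self_mul_star, ← sq]
      exact pow_le_pow_left₀ (norm_nonneg _) (hb _ _ _) 2
    have eC : ∑ l ∈ Finset.range q, star (C l) * C l
        = (q : ℝ) • ∑ l' ∈ Finset.range q, star (b (q + l') p.2 p'.2) * b (q + l') p.2 p'.2 := by
      simp only [C, star_sum, star_smul, Finset.sum_mul, Finset.mul_sum, smul_mul_assoc,
        mul_smul_comm, Finset.smul_sum, smul_smul, star_root_zpow hq0]
      rw [Finset.sum_comm]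
      refine Finset.sum_congr rfl fun x hx => ?_
      rw [Finset.sum_comm]
      simp only [← Finset.sum_smul]
      rw [Finset.sum_eq_single x]
      · have h1 : ∀ l : ℕ, root q ^ (d * l * x) * root q ^ (-(d * l * x)) = 1 := fun l => by
          rw [← zpow_add₀ ((root_prim hq0).ne_zero hq0), add_neg_cancel, zpow_zero]
        rw [Finset.sum_congr rfl fun l _ => h1 l, Finset.sum_const, Finset.card_range, nsmul_one,
          ← Complex.ofReal_natCast, Complex.coe_smul]
      · intro y hy hyx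
        have h1 : ∀ l : ℕ, root q ^ (d * l * x) * root q ^ (-(d * l * y))
            = root q ^ ((d * ((x : ℤ) - y)) * l) := fun l => by
          rw [← zpow_add₀ ((root_prim hq0).ne_zero hq0)]
          ring_nf
        have h2 : ¬ (q : ℤ) ∣ d * ((x : ℤ) - y) := by
          intro h
          rcases (Nat.prime_iff_prime_int.1 hq).dvd_mul.1 h with h | h
          · exact hd h
          · have := Int.eq_zero_of_abs_lt_dvd h (by
              simp only [Finset.mem_range] at hx hy; rw [abs_lt]; constructor <;> omega)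
            exact hyx (by omega)
        rw [Finset.sum_congr rfl fun l _ => h1 l, sum_root_zpow hq0 h2, zero_smul]
      · exact fun h => absurd hx h
    have hC : ‖∑ l ∈ Finset.range q, star (C l) * C l‖ ≤ q * (q * β ^ 2) := by
      rw [eC, norm_smul, Real.norm_eq_abs, abs_of_pos hqr]
      gcongr
      refine (norm_sum_le _ _).trans ((Finset.sum_le_sum fun l _ =>
        (?_ : _ ≤ β ^ 2)).trans_eq (by simp))
      rw [CStarRing.norm_star_mul_self, ← sq]
      exact pow_le_pow_left₀ (norm_nonneg _) (hb _ _ _) 2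
    rw [et]
    refine (pow_le_pow_iff_left₀ (norm_nonneg _) (by positivity) two_ne_zero).1
      ((norm_sum_mul_le _ _ C (by positivity) hB hC).trans_eq ?_)
    rw [mul_pow, mul_pow, Real.sq_sqrt hqr.le]
    ring
  rw [show (∑ l ∈ Finset.range q, ∑ l' ∈ Finset.range q,
        ∑ p : Fin J × Fin J, ∑ p' : Fin J × Fin J,
          root q ^ ((((p'.1 : ℕ) : ℤ) * J + (p'.2 : ℕ) - (((p.1 : ℕ) : ℤ) * J + (p.2 : ℕ))) * l * l') •
            (b l p.1 p'.1 * b (q + l') p.2 p'.2)) = ∑ p, ∑ p', t p p' from e0]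
  have split : ∑ p, ∑ p', t p p' = ((q : ℝ) * q) • (1 : F)
      + ∑ p, ∑ p' ∈ Finset.univ.erase p, t p p' := by
    rw [← hdiagsum, ← Finset.sum_add_distrib]
    exact Finset.sum_congr rfl fun p _ => (Finset.add_sum_erase _ _ (Finset.mem_univ p)).symm
  rw [split, smul_add, smul_smul,
    show (q : ℝ)⁻¹ * (q : ℝ)⁻¹ * ((q : ℝ) * q) = 1 by field_simp,
    one_smul, add_sub_cancel_left, norm_smul, Real.norm_eq_abs, abs_of_pos (by positivity)]
  calc (q : ℝ)⁻¹ * (q : ℝ)⁻¹ * ‖∑ p, ∑ p' ∈ Finset.univ.erase p, t p p'‖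
      ≤ (q : ℝ)⁻¹ * (q : ℝ)⁻¹ *
          ((J : ℝ) ^ 2 * ((J : ℝ) ^ 2 * (q * Real.sqrt q * β ^ 2))) := by
        gcongr
        refine (norm_sum_le _ _).trans ((Finset.sum_le_sum fun p _ =>
          (?_ : _ ≤ (J : ℝ) ^ 2 * (q * Real.sqrt q * β ^ 2))).trans_eq (by simp [sq]))
        refine (norm_sum_le _ _).trans ((Finset.sum_le_sum fun p' hp' =>
          hoff p p' (Finset.ne_of_mem_erase hp')).trans ?_)
        rw [Finset.sum_const, nsmul_eq_mul]
        gcongr
        refine (Nat.cast_le.2 (Finset.card_le_univ _)).trans_eq ?_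
        simp [sq]
    _ = (J : ℝ) ^ 4 * β ^ 2 / Real.sqrt q := by
        field_simp
        rw [Real.sq_sqrt hqr.le]
        ring

end Vale.Agent.P101
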