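import Vale.Agent.P101.Copy

/-!
# P101: without characters the commutators of self-adjoint elements are full
-/

namespace Vale.Agent.P101

open scoped ComplexStarModule
open Complex (I)

variable {F : Type*} [CStarAlgebra F]

/-- Commutators of self-adjoint elements. -/
def comms (F : Type*) [CStarAlgebra F] : Set F :=
  {c | ∃ a b : F, IsSelfAdjoint a ∧ IsSelfAdjoint b ∧ c = a * b - b * a}

theorem Id.csmul {X : Set F} {y : F} (h : Id X y) (c : ℂ) : Id X (c • y) := by
  rw [Algebra.smul_def]; exact h.mul_left _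

theorem id_comm (a b : F) : Id (comms F) (a * b - b * a) := by
  have e : a * b - b * a
      = ((ℜ a : F) * ℜ b - ℜ b * ℜ a) + I • ((ℜ a : F) * ℑ b - ℑ b * ℜ a)
        + I • (((ℑ a : F) * ℜ b - ℜ b * ℑ a) + I • ((ℑ a : F) * ℑ b - ℑ b * ℑ a)) := by
    conv_lhs => rw [← realPart_add_I_smul_imaginaryPart a, ← realPart_add_I_smul_imaginaryPart b]
    simp only [add_mul, mul_add, smul_mul_assoc, mul_smul_comm, smul_add, smul_sub, smul_smul]
    abel
  have h : ∀ u v : selfAdjoint F, Id (comms F) ((u : F) * v - v * u) := fun u v =>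
    .of_mem ⟨u, v, u.2, v.2, rfl⟩
  rw [e]
  exact ((h _ _).add ((h _ _).csmul I)).add (((h _ _).add ((h _ _).csmul I)).csmul I)

theorem Id.finite {R : Type*} [Ring R] {X : Set R} {y : R} (h : Id X y) :
    ∃ X' : Set R, X'.Finite ∧ X' ⊆ X ∧ Id X' y := by
  induction h with
  | gen p x q hx =>
    exact ⟨{x}, Set.finite_singleton x, Set.singleton_subset_iff.2 hx, .gen p x q rfl⟩
  | zero => exact ⟨∅, Set.finite_empty, Set.empty_subset _, .zero⟩
  | add _ _ ha hb =>
    obtain ⟨X₁, f₁, s₁, h₁⟩ := ha
    obtain ⟨X₂, f₂, s₂, h₂⟩ := hb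
    exact ⟨X₁ ∪ X₂, f₁.union f₂, Set.union_subset s₁ s₂,
      (h₁.mono Set.subset_union_left).add (h₂.mono Set.subset_union_right)⟩

/-- A unital C*-algebra whose commutators generate a proper ideal has a character. -/
theorem exists_character (h : ¬ Id (comms F) 1) : Nonempty (F →⋆ₐ[ℂ] ℂ) := by
  classical
  obtain ⟨S, hS0, hSmax⟩ := zorn_subset_nonempty {S : Set F | comms F ⊆ S ∧ ¬ Id S 1}
    (fun c hc hchain hne => ⟨⋃₀ c,
      ⟨(hc hne.choose_spec).1.trans (Set.subset_sUnion_of_mem hne.choose_spec), fun h1 => by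
        obtain ⟨X', hf, hsub, hX'⟩ := h1.finite
        obtain ⟨T, hT, hsT⟩ := DirectedOn.exists_mem_subset_of_finite_of_subset_sUnion
          hne hchain.directedOn hf hsub
        exact (hc hT).2 (hX'.mono hsT)⟩,
      fun s hs => Set.subset_sUnion_of_mem hs⟩) (comms F) ⟨subset_rfl, h⟩
  obtain ⟨⟨hcS, hS1⟩, hmax⟩ := hSmax
  have habs : ∀ T : Set F, S ⊆ T → ¬ Id T 1 → T ⊆ S := fun T hST hT =>
    hmax ⟨hcS.trans hST, hT⟩ hST
  -- `S` is a closed ideal
  have hId : ∀ y, Id S y → y ∈ S := fun y hy =>
    habs (insert y S) (Set.subset_insert _ _)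
      (fun h1 => hS1 (h1.trans fun x hx => hx.elim (fun e => e ▸ hy) Id.of_mem))
      (Set.mem_insert _ _)
  have hcl : closure S ⊆ S := by
    refine habs _ subset_closure fun h1 => hS1 ?_
    refine (Id.eventually_full (l := (pure () : Filter Unit)) (Y := fun _ => S) h1
      fun x hx ε hε => ?_).exists.choose_spec
    obtain ⟨y, hy, hd⟩ := Metric.mem_closure_iff.1 hx ε hε
    exact Filter.Eventually.of_forall fun _ => ⟨y, .of_mem hy, by rw [← dist_eq_norm]; exact hd.le⟩
  have hcomm : ∀ a b : F, a * b - b * a ∈ S := fun a b => hId _ ((id_comm a b).mono hcS)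
  have prime : ∀ f g : F, f * g ∈ S → f ∈ S ∨ g ∈ S := by
    intro f g hfg
    by_contra hne
    push Not at hne
    have hf : Id (insert f S) 1 := by
      by_contra h1
      exact hne.1 (habs _ (Set.subset_insert _ _) h1 (Set.mem_insert _ _))
    have key : ∀ z, Id (insert f S) z → Id S (z * g) := by
      intro z hz
      induction hz with
      | zero => simpa using Id.zero
      | add _ _ ha hb => simpa [add_mul] using ha.add hb
      | gen p x q hx =>
        rcases hx with rfl | hx
        · have e : p * x * q * g = p * (x * g) * q + (p * x) * (q * g - g * q) := by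
            simp only [mul_sub, mul_assoc]; abel
          rw [e]
          exact (Id.gen p _ q hfg).add ((Id.of_mem (hcomm q g)).mul_left _)
        · exact (Id.gen p x q hx).mul_right g
    exact hne.2 (hId _ (by simpa using key 1 hf))
  have : Nontrivial F := by
    by_contra hn
    rw [not_nontrivial_iff_subsingleton] at hn
    exact hS1 (Subsingleton.elim (0 : F) 1 ▸ Id.zero)
  -- each self-adjoint element is a scalar modulo `S`
  have real : ∀ a : F, IsSelfAdjoint a → ∃ r : ℝ, a - algebraMap ℝ F r ∈ S := by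
    intro a ha
    obtain ⟨x, hx⟩ : ∃ x : ℝ, ∀ f : ℝ → ℝ, Continuous f → cfc f a ∈ S → f x = 0 := by
      by_contra hne
      push Not at hne
      choose f hfc hfS hfx using hne
      obtain ⟨t, ht⟩ := (ContinuousFunctionalCalculus.isCompact_spectrum (R := ℝ) a).elim_finite_subcover
        (fun x => f x ⁻¹' {0}ᶜ) (fun x => (hfc x).isOpen_preimage _ isOpen_compl_singleton)
        (fun y _ => Set.mem_iUnion.2 ⟨y, hfx y⟩)
      refine hS1 ((Id.sum (s := t) (f := fun x => cfc (f x) a * cfc (f x) a)
        (X := S) fun x _ => (Id.of_mem (hfS x)).mul_right _).one_of_isUnit ?_)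
      have e : ∑ x ∈ t, cfc (f x) a * cfc (f x) a = cfc (fun y => ∑ x ∈ t, f x y * f x y) a := by
        rw [← Finset.sum_fn, cfc_sum (fun x y => f x y * f x y) a t
          (fun x _ => ((hfc x).mul (hfc x)).continuousOn)]
        exact Finset.sum_congr rfl fun x _ =>
          (cfc_mul (f x) (f x) a (hfc x).continuousOn (hfc x).continuousOn).symm
      rw [e, isUnit_cfc_iff (fun y => ∑ x ∈ t, f x y * f x y) a (by fun_prop (disch := assumption))]
      intro y hy h0
      obtain ⟨z, hz, hzy⟩ := Set.mem_iUnion₂.1 (ht hy)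
      exact hzy (mul_self_eq_zero.1
        ((Finset.sum_eq_zero_iff_of_nonneg fun w _ => mul_self_nonneg _).1 h0 z hz))
    refine ⟨x, hcl (Metric.mem_closure_iff.2 fun ε hε => ?_)⟩
    set δ := ε / 2
    have hδ : 0 < δ := half_pos hε
    let h : ℝ → ℝ := fun t => max 0 (δ - |t - x|)
    let g : ℝ → ℝ := fun t => max 0 (t - x - δ) + min 0 (t - x + δ)
    have hh : Continuous h := by fun_prop
    have hg : Continuous g := by fun_prop
    have hhg : ∀ t, h t * g t = 0 := by
      intro t
      rcases le_or_gt δ |t - x| with h1 | h1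
      · simp [h, max_eq_left (by linarith : δ - |t - x| ≤ 0)]
      · obtain ⟨h2, h3⟩ := abs_lt.1 h1
        simp [g, max_eq_left (by linarith : t - x - δ ≤ 0), min_eq_left (by linarith : 0 ≤ t - x + δ)]
    refine ⟨cfc g a, ?_, ?_⟩
    · rcases prime (cfc h a) (cfc g a) (by
        rw [cfc_mul_cfc_eq_zero a hh hg hhg]; exact hId _ .zero) with h1 | h1
      · exact absurd (hx h hh h1) (by simp [h, hδ])
      · exact h1
    · rw [dist_eq_norm]
      have : a - algebraMap ℝ F x - cfc g a = cfc (fun t => t - x - g t) a := by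
        rw [cfc_sub (fun t => t - x) g a (by fun_prop) hg.continuousOn,
          cfc_sub (fun t => t) (fun _ => x) a continuousOn_id continuousOn_const, cfc_id' ℝ a,
          cfc_const x a]
      rw [this]
      refine (norm_cfc_le hδ.le fun t _ => ?_).trans_lt (half_lt_self hε)
      rw [Real.norm_eq_abs, abs_le]
      simp only [g]
      rcases le_or_gt δ (t - x) with h1 | h1
      · rw [max_eq_right (by linarith), min_eq_left (by linarith)]; constructor <;> linarith
      rcases le_or_gt (t - x) (-δ) with h2 | h2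
      · rw [max_eq_left (by linarith), min_eq_right (by linarith)]; constructor <;> linarith
      · rw [max_eq_left (by linarith), min_eq_left (by linarith)]; constructor <;> linarith
  have ex : ∀ a : F, ∃ z : ℂ, a - algebraMap ℂ F z ∈ S ∧ star a - algebraMap ℂ F (star z) ∈ S := by
    intro a
    obtain ⟨r, hr⟩ := real (ℜ a : F) (ℜ a).2
    obtain ⟨s, hs⟩ := real (ℑ a : F) (ℑ a).2
    have hrs : ∀ t : ℝ, algebraMap ℝ F t = algebraMap ℂ F (t : ℂ) := fun t =>
      IsScalarTower.algebraMap_apply ℝ ℂ F t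
    refine ⟨r + I * s, hId _ ?_, hId _ ?_⟩
    · have e : a - algebraMap ℂ F (r + I * s)
          = ((ℜ a : F) - algebraMap ℝ F r) + I • ((ℑ a : F) - algebraMap ℝ F s) := by
        conv_lhs => rw [← realPart_add_I_smul_imaginaryPart a]
        rw [hrs, hrs, smul_sub, map_add, map_mul, Algebra.smul_def I (algebraMap ℂ F (s : ℂ))]
        abel
      rw [e]; exact (Id.of_mem hr).add ((Id.of_mem hs).csmul _)
    · have e : star a - algebraMap ℂ F (star ((r : ℂ) + I * s))
          = ((ℜ a : F) - algebraMap ℝ F r) + (-I) • ((ℑ a : F) - algebraMap ℝ F s) := by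
        conv_lhs => rw [← realPart_add_I_smul_imaginaryPart a]
        rw [hrs, hrs, smul_sub, Algebra.smul_def (-I) (algebraMap ℂ F (s : ℂ)), ← map_mul,
          star_add, star_smul, (ℜ a).2.star_eq, (ℑ a).2.star_eq, star_add, star_mul', map_add]
        simp [Complex.conj_ofReal, Complex.conj_I]
        abel
      rw [e]; exact (Id.of_mem hr).add ((Id.of_mem hs).csmul _)
  have uniq : ∀ (a : F) (z w : ℂ), a - algebraMap ℂ F z ∈ S → a - algebraMap ℂ F w ∈ S → z = w := by
    intro a z w hz hw
    by_contra hzw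
    have e : algebraMap ℂ F (z - w) = (a - algebraMap ℂ F w) - (a - algebraMap ℂ F z) := by
      rw [map_sub]; abel
    exact hS1 (((Id.of_mem hw).sub (Id.of_mem hz)).one_of_isUnit
      (e ▸ (IsUnit.map _ (sub_ne_zero.2 hzw).isUnit)))
  choose χ hχ hχs using ex
  refine ⟨{ toFun := χ
            map_one' := uniq 1 _ _ (hχ 1) (by simpa using hId _ .zero)
            map_mul' := fun a b => uniq (a * b) _ _ (hχ _) (hId _ ?_)
            map_zero' := uniq 0 _ _ (hχ 0) (by simpa using hId _ .zero)
            map_add' := fun a b => uniq (a + b) _ _ (hχ _) (hId _ ?_)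
            commutes' := fun c => uniq _ _ _ (hχ _) (by simpa using hId _ .zero)
            map_star' := fun a => uniq (star a) _ _ (hχ _) (hχs a) }⟩
  · have e : a * b - algebraMap ℂ F (χ a * χ b) = (a - algebraMap ℂ F (χ a)) * b
        + algebraMap ℂ F (χ a) * (b - algebraMap ℂ F (χ b)) := by
      rw [map_mul, sub_mul, mul_sub]; abel
    rw [e]; exact ((Id.of_mem (hχ a)).mul_right _).add ((Id.of_mem (hχ b)).mul_left _)
  · have e : a + b - algebraMap ℂ F (χ a + χ b)
        = (a - algebraMap ℂ F (χ a)) + (b - algebraMap ℂ F (χ b)) := by rw [map_add]; abel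
    rw [e]; exact (Id.of_mem (hχ a)).add (Id.of_mem (hχ b))

/-- Without characters finitely many self-adjoint elements have full commutators. -/
theorem exists_full_commutators (h : IsEmpty (F →⋆ₐ[ℂ] ℂ)) :
    ∃ (k : ℕ) (e : Fin k → F), (∀ i, IsSelfAdjoint (e i)) ∧
      Id {c | ∃ i j, c = e i * e j - e j * e i} 1 := by
  classical
  have h1 : Id (comms F) 1 := by
    by_contra h1
    exact not_isEmpty_iff.2 (exists_character h1) h
  obtain ⟨X, hX, hsub, hX1⟩ := h1.finite
  have := hX.fintype
  choose a b ha hb he using fun x : X => hsub x.2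
  let f : X ⊕ X → F := Sum.elim a b
  let eq := Fintype.equivFin (X ⊕ X)
  refine ⟨_, f ∘ eq.symm, fun i => ?_, hX1.mono fun x hx =>
    ⟨eq (.inl ⟨x, hx⟩), eq (.inr ⟨x, hx⟩), by simpa [f] using he ⟨x, hx⟩⟩⟩
  rcases hi : eq.symm i with x | x <;> simp [f, hi, ha x, hb x]

end Vale.Agent.P101
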