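import Mathlib

/- An exact factorisation in a unital C⋆-algebra: if `P` is self-adjoint and `P * P` is dominated by
a multiple of `star a * a`, then `P * P = star v * v` for some `v` in the closed right multiples
of `a`. -/

namespace Vale.Agent.P101

open Filter Topology

variable {A : Type*} [CStarAlgebra A] [PartialOrder A] [StarOrderedRing A]

/-- The inverse fourth root, cut off at height `d`. -/
noncomputable def cutRoot (d t : ℝ) : ℝ :=
  (Real.sqrt (Real.sqrt (max t d)))⁻¹

/-- The fourth root. -/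
noncomputable def fourthRoot (t : ℝ) : ℝ :=
  Real.sqrt (Real.sqrt t)

theorem cutRoot_continuous {d : ℝ} (hd : 0 < d) : Continuous (cutRoot d) := by
  refine Continuous.inv₀ (by fun_prop) fun t ↦ ?_
  have : 0 < max t d := lt_max_of_lt_right hd
  exact (Real.sqrt_pos.2 (Real.sqrt_pos.2 this)).ne'

theorem fourthRoot_continuous : Continuous fourthRoot :=
  Real.continuous_sqrt.comp Real.continuous_sqrt

theorem cutRoot_nonneg (d t : ℝ) : 0 ≤ cutRoot d t :=
  inv_nonneg.2 (Real.sqrt_nonneg _)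

theorem mul_cutRoot_sq_le {d t : ℝ} (hd : 0 < d) (ht : 0 ≤ t) :
    t * cutRoot d t ^ 2 ≤ Real.sqrt t := by
  have h : (0 : ℝ) < max t d := lt_max_of_lt_right hd
  have hm := Real.sqrt_le_sqrt (le_max_left t d)
  have hs : 0 < Real.sqrt (max t d) := Real.sqrt_pos.2 h
  rw [cutRoot, inv_pow, Real.sq_sqrt hs.le, ← div_eq_mul_inv, div_le_iff₀ hs]
  calc t = Real.sqrt t * Real.sqrt t := (Real.mul_self_sqrt ht).symm
    _ ≤ Real.sqrt t * Real.sqrt (max t d) := mul_le_mul_of_nonneg_left hm (Real.sqrt_nonneg _)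

theorem mul_sub_cutRoot_sq_le {d e b t : ℝ} (hd : 0 < d) (he : 0 < e) (hdb : d ≤ b) (heb : e ≤ b)
    (ht : 0 ≤ t) : t * (cutRoot d t - cutRoot e t) ^ 2 ≤ Real.sqrt b := by
  rcases le_total b t with h | h
  · simp [cutRoot, max_eq_left (hdb.trans h), max_eq_left (heb.trans h), Real.sqrt_nonneg]
  have hst := Real.sqrt_le_sqrt h
  have h1 := mul_cutRoot_sq_le hd ht
  have h2 := mul_cutRoot_sq_le he ht
  have h3 : (cutRoot d t - cutRoot e t) ^ 2 ≤ max (cutRoot d t ^ 2) (cutRoot e t ^ 2) := by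
    have := cutRoot_nonneg d t
    have := cutRoot_nonneg e t
    rcases le_total (cutRoot d t) (cutRoot e t) with h | h
    · exact (by nlinarith : _ ≤ cutRoot e t ^ 2).trans (le_max_right _ _)
    · exact (by nlinarith : _ ≤ cutRoot d t ^ 2).trans (le_max_left _ _)
  have h4 := mul_le_mul_of_nonneg_left h3 ht
  rw [mul_max_of_nonneg _ _ ht] at h4
  exact h4.trans ((max_le h1 h2).trans hst)

theorem mul_one_sub_sq_le {d t : ℝ} (hd : 0 < d) (ht : 0 ≤ t) :
    t * (1 - cutRoot d t * fourthRoot t) ^ 2 ≤ d := by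
  rcases le_total d t with h | h
  · rw [cutRoot, max_eq_left h, fourthRoot, inv_mul_cancel₀
      (Real.sqrt_pos.2 (Real.sqrt_pos.2 (hd.trans_le h))).ne']
    simp [hd.le]
  · have h1 : cutRoot d t * fourthRoot t ≤ 1 := by
      rw [cutRoot, fourthRoot, max_eq_right h, inv_mul_le_one₀
        (Real.sqrt_pos.2 (Real.sqrt_pos.2 hd))]
      exact Real.sqrt_le_sqrt (Real.sqrt_le_sqrt h)
    have h2 : 0 ≤ cutRoot d t * fourthRoot t :=
      mul_nonneg (cutRoot_nonneg _ _) (Real.sqrt_nonneg _)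
    calc t * (1 - cutRoot d t * fourthRoot t) ^ 2 ≤ d * 1 :=
          mul_le_mul h (by nlinarith) (sq_nonneg _) hd.le
      _ = d := mul_one d

theorem norm_cfc_sandwich_le {x y : A} {C B : ℝ} (hy : 0 ≤ y) (hC : 0 ≤ C)
    (hxy : star x * x ≤ C • y) {g : ℝ → ℝ} (hg : Continuous g) (hB : 0 ≤ B)
    (hgB : ∀ t, 0 ≤ t → t * g t ^ 2 ≤ B) : ‖x * cfc g y‖ ^ 2 ≤ C * B := by
  have hy' : IsSelfAdjoint y := .of_nonneg hy
  have hsa : star (cfc g y) = cfc g y := (cfc_predicate g y).star_eq
  have hid : cfc g y * y * cfc g y = cfc (fun t ↦ g t * t * g t) y := by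
    conv_lhs => arg 1; arg 2; rw [← cfc_id ℝ y]
    rw [← cfc_mul g id y hg.continuousOn, ← cfc_mul (fun t ↦ g t * id t) g y
      (hg.mul continuous_id).continuousOn hg.continuousOn]
    rfl
  calc ‖x * cfc g y‖ ^ 2 = ‖star (x * cfc g y) * (x * cfc g y)‖ := by
        rw [CStarRing.norm_star_mul_self, sq]
    _ ≤ ‖C • (cfc g y * y * cfc g y)‖ := by
        refine CStarAlgebra.norm_le_norm_of_nonneg_of_le (star_mul_self_nonneg _) ?_
        have := star_left_conjugate_le_conjugate hxy (cfc g y)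
        rw [hsa] at this
        rw [star_mul, hsa]
        simpa [mul_assoc, mul_smul_comm, smul_mul_assoc] using this
    _ = C * ‖cfc g y * y * cfc g y‖ := by rw [norm_smul, Real.norm_of_nonneg hC]
    _ ≤ C * B := by
        refine mul_le_mul_of_nonneg_left ?_ hC
        rw [hid]
        refine norm_cfc_le hB fun t ht ↦ ?_
        have ht0 : 0 ≤ t := spectrum_nonneg_of_nonneg hy ht
        rw [Real.norm_of_nonneg (by nlinarith [sq_nonneg (g t)])]
        linarith [hgB t ht0, show g t * t * g t = t * g t ^ 2 by ring]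

theorem exists_root_factor {x y : A} {C : ℝ} (hy : 0 ≤ y) (hC : 0 ≤ C)
    (hxy : star x * x ≤ C • y) :
    ∃ u : A, Tendsto (fun n : ℕ ↦ x * cfc (cutRoot (1 / (n + 1))) y) atTop (𝓝 u) ∧
      u * cfc fourthRoot y = x := by
  have hd : ∀ n : ℕ, (0 : ℝ) < 1 / (n + 1) := fun n ↦ by positivity
  have hd0 : Tendsto (fun n : ℕ ↦ (1 / (n + 1) : ℝ)) atTop (𝓝 0) :=
    tendsto_one_div_add_atTop_nhds_zero_nat
  have hy' : IsSelfAdjoint y := .of_nonneg hy
  have hcont := fun n ↦ cutRoot_continuous (hd n)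
  have hmono : Antitone fun n : ℕ ↦ (1 / (n + 1) : ℝ) := fun m n h ↦ by
    dsimp only
    gcongr
  have hcauchy : CauchySeq fun n : ℕ ↦ x * cfc (cutRoot (1 / (n + 1))) y := by
    refine cauchySeq_of_le_tendsto_0
      (fun N : ℕ ↦ Real.sqrt (C * Real.sqrt (1 / (N + 1)))) (fun n m N hn hm ↦ ?_) ?_
    · rw [dist_eq_norm, ← mul_sub, ← cfc_sub _ _ y (hcont n).continuousOn (hcont m).continuousOn]
      exact Real.le_sqrt_of_sq_le (norm_cfc_sandwich_le hy hC hxy ((hcont n).sub (hcont m))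
        (Real.sqrt_nonneg _) fun t ht ↦
          mul_sub_cutRoot_sq_le (hd n) (hd m) (hmono hn) (hmono hm) ht)
    · simpa using ((hd0.sqrt).const_mul C).sqrt
  obtain ⟨u, hu⟩ := cauchySeq_tendsto_of_complete hcauchy
  refine ⟨u, hu, tendsto_nhds_unique (hu.mul_const _) ?_⟩
  rw [tendsto_iff_norm_sub_tendsto_zero]
  refine squeeze_zero (fun n ↦ norm_nonneg _)
    (fun n : ℕ ↦ ?_) (show Tendsto (fun n : ℕ ↦ Real.sqrt (C * (1 / (n + 1)))) atTop (𝓝 0) by
      simpa using (hd0.const_mul C).sqrt)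
  have hh : Continuous fun t ↦ cutRoot (1 / (n + 1)) t * fourthRoot t :=
    (hcont n).mul fourthRoot_continuous
  have : x * cfc (cutRoot (1 / (n + 1))) y * cfc fourthRoot y - x =
      -(x * cfc (fun t ↦ 1 - cutRoot (1 / (n + 1)) t * fourthRoot t) y) := by
    rw [mul_assoc, ← cfc_mul _ _ y (hcont n).continuousOn fourthRoot_continuous.continuousOn,
      cfc_sub _ _ y continuousOn_const hh.continuousOn, cfc_const_one ℝ y, mul_sub, mul_one,
      neg_sub]
  rw [this, norm_neg]
  exact Real.le_sqrt_of_sq_le (norm_cfc_sandwich_le hy hC hxy (continuous_const.sub hh) (hd n).le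
    fun t ht ↦ mul_one_sub_sq_le (hd n) ht)

/-- If `P * P ≤ C • (star a * a)` for a self-adjoint `P`, then `P * P = star v * v` for some `v`
which is fixed by every left multiplier fixing `a`. -/
theorem exists_star_mul_self_eq {a P : A} {C : ℝ} (hP : IsSelfAdjoint P) (hC : 0 ≤ C)
    (h : P * P ≤ C • (star a * a)) :
    ∃ v : A, star v * v = P * P ∧ ∀ e : A, e * a = a → e * v = v := by
  set y := star a * a with hy
  have hy0 : 0 ≤ y := star_mul_self_nonneg a
  obtain ⟨a', ha, ha'⟩ := exists_root_factor hy0 zero_le_one (show star a * a ≤ (1 : ℝ) • y by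
    rw [one_smul])
  obtain ⟨u, -, hu⟩ := exists_root_factor hy0 hC (show star P * P ≤ C • y by rwa [hP.star_eq])
  have hy' : IsSelfAdjoint y := .of_nonneg hy0
  set q := cfc fourthRoot y with hq
  have hqs : star q = q := (cfc_predicate fourthRoot y).star_eq
  have hd : ∀ n : ℕ, (0 : ℝ) < 1 / (n + 1) := fun n ↦ by positivity
  have hlim : Tendsto (fun n : ℕ ↦ cfc (cutRoot (1 / (n + 1))) y * y *
      cfc (cutRoot (1 / (n + 1))) y) atTop (𝓝 (q * q)) := by
    rw [tendsto_iff_norm_sub_tendsto_zero]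
    refine squeeze_zero (fun n ↦ norm_nonneg _) (fun n : ℕ ↦ ?_)
      (show Tendsto (fun n : ℕ ↦ Real.sqrt (1 / (n + 1) : ℝ)) atTop (𝓝 0) by
        simpa using tendsto_one_div_add_atTop_nhds_zero_nat.sqrt)
    have hc := cutRoot_continuous (hd n)
    conv_lhs => arg 1; arg 1; arg 1; arg 2; rw [← cfc_id ℝ y]
    rw [hq, ← cfc_mul _ id y hc.continuousOn,
      ← cfc_mul (fun t ↦ cutRoot (1 / (n + 1)) t * id t) _ y
        (hc.mul continuous_id).continuousOn hc.continuousOn,
      ← cfc_mul _ _ y fourthRoot_continuous.continuousOn fourthRoot_continuous.continuousOn,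
      ← cfc_sub (fun t ↦ cutRoot (1 / (n + 1)) t * id t * cutRoot (1 / (n + 1)) t)
        (fun t ↦ fourthRoot t * fourthRoot t) y ((hc.mul continuous_id).mul hc).continuousOn
        (fourthRoot_continuous.mul fourthRoot_continuous).continuousOn]
    refine norm_cfc_le (Real.sqrt_nonneg _) fun t ht ↦ ?_
    have ht0 : 0 ≤ t := spectrum_nonneg_of_nonneg hy0 ht
    have hrt : fourthRoot t * fourthRoot t = Real.sqrt t :=
      Real.mul_self_sqrt (Real.sqrt_nonneg t)
    have hle := mul_cutRoot_sq_le (hd n) ht0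
    have hnn : 0 ≤ t * cutRoot (1 / (n + 1)) t ^ 2 := by positivity
    simp only [id, hrt]
    rw [show cutRoot (1 / (n + 1)) t * t * cutRoot (1 / (n + 1)) t =
      t * cutRoot (1 / (n + 1)) t ^ 2 by ring, Real.norm_eq_abs, abs_sub_comm,
      abs_of_nonneg (sub_nonneg.2 hle)]
    rcases le_total (1 / (n + 1) : ℝ) t with h' | h'
    · rw [cutRoot, max_eq_left h', inv_pow, Real.sq_sqrt (Real.sqrt_nonneg t), ← div_eq_mul_inv,
        Real.div_sqrt, sub_self]
      exact Real.sqrt_nonneg _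
    · linarith [Real.sqrt_le_sqrt h']
  have haa : star a' * a' = q * q := by
    refine tendsto_nhds_unique (ha.star.mul ha) (hlim.congr fun n ↦ ?_)
    rw [star_mul, (cfc_predicate (cutRoot (1 / (n + 1))) y).star_eq, hy]
    simp [mul_assoc]
  refine ⟨a' * star u, ?_, fun e he ↦ ?_⟩
  · calc star (a' * star u) * (a' * star u) = u * (star a' * a') * star u := by
          rw [star_mul, star_star]; simp [mul_assoc]
      _ = (u * q) * star (u * q) := by rw [haa, star_mul, hqs]; simp [mul_assoc]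
      _ = P * P := by rw [hu, hP.star_eq]
  · rw [← mul_assoc]
    congr 1
    refine tendsto_nhds_unique (ha.const_mul e) (ha.congr fun n ↦ ?_)
    rw [← mul_assoc, he]

end Vale.Agent.P101
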