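import Mathlib
import Vale.Agent.P101.Exact

/- Unital-domain order zero maps on matrices, their square roots, and their commutation rules. -/

open Filter Topology
open scoped ComplexOrder

namespace Vale.Agent.P101

/-- An order zero map on matrices: linear, star preserving, `φ x * φ y = φ 1 * φ (x * y)`, and
`φ 1` is a positive contraction. -/
structure OrderZero (ι : Type*) [Fintype ι] [DecidableEq ι] (B : Type*) [CStarAlgebra B]
    [PartialOrder B] [StarOrderedRing B] where
  toLin : Matrix ι ι ℂ →ₗ[ℂ] B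
  map_star : ∀ x, toLin (star x) = star (toLin x)
  mul : ∀ x y, toLin x * toLin y = toLin 1 * toLin (x * y)
  nonneg : 0 ≤ toLin 1
  le_one : toLin 1 ≤ 1

namespace OrderZero

variable {ι : Type*} [Fintype ι] [DecidableEq ι] {B : Type*} [CStarAlgebra B] [PartialOrder B]
  [StarOrderedRing B] (φ : OrderZero ι B)

theorem commute_one (x : Matrix ι ι ℂ) : Commute (φ.toLin 1) (φ.toLin x) := by
  have h1 := φ.mul x 1
  have h2 := φ.mul 1 x
  rw [mul_one] at h1
  show φ.toLin 1 * φ.toLin x = φ.toLin x * φ.toLin 1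
  rw [h1]

theorem commute_zero (x : Matrix ι ι ℂ) {v : B} (hv : φ.toLin 1 * v = 0) :
    φ.toLin x * v = 0 := by
  rw [← norm_eq_zero, ← mul_self_eq_zero, ← CStarRing.norm_star_mul_self, norm_eq_zero]
  calc star (φ.toLin x * v) * (φ.toLin x * v)
      = star v * ((φ.toLin (star x) * φ.toLin x) * v) := by
        rw [star_mul, φ.map_star]; simp [mul_assoc]
    _ = 0 := by rw [φ.mul, (φ.commute_one _).eq, mul_assoc, hv, mul_zero, mul_zero]

omit [Fintype ι] in
theorem nonneg_of_mul_self {a p : B} (ha : IsSelfAdjoint a) (hp : 0 ≤ p) (hc : Commute p a)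
    (h : a * a = p * a) : 0 ≤ a := by
  have hs : a⁺ - a⁻ = a := CFC.posPart_sub_negPart a ha
  have h1 : a * a⁻ = -(a⁻ * a⁻) := by
    conv_lhs => arg 1; rw [← hs]
    rw [sub_mul, CFC.posPart_mul_negPart, zero_sub]
  have hn : (0 : B) ≤ a⁻ := CFC.negPart_nonneg a
  have hns : IsSelfAdjoint a⁻ := .of_nonneg hn
  have hcn : Commute p a⁻ := by
    rw [CFC.negPart_def, cfcₙ_eq_cfc]
    exact (hc.symm.cfc_real _).symm
  have h2 : a⁻ * a⁻ * a⁻ = -(p * (a⁻ * a⁻)) := by
    calc a⁻ * a⁻ * a⁻ = -(a * a⁻) * a⁻ := by rw [h1, neg_neg]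
      _ = -(a * (a⁻ * a⁻)) := by rw [neg_mul, mul_assoc]
      _ = a * (a * a⁻) := by rw [h1, mul_neg]
      _ = -(p * (a⁻ * a⁻)) := by rw [← mul_assoc, h, mul_assoc, h1, mul_neg]
  have h3 : (0 : B) ≤ a⁻ * a⁻ * a⁻ := by
    have := star_left_conjugate_nonneg hn a⁻
    rwa [hns.star_eq] at this
  have h4 : (0 : B) ≤ p * (a⁻ * a⁻) := by
    refine Commute.mul_nonneg hp ?_ (hcn.mul_right hcn)
    have := star_mul_self_nonneg a⁻
    rwa [hns.star_eq] at this
  have h5 : a⁻ * a⁻ * a⁻ = 0 := le_antisymm (h2 ▸ neg_nonpos.2 h4) h3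
  have h6 : a⁻ * a⁻ = 0 := by
    rw [← norm_eq_zero, ← mul_self_eq_zero, ← CStarRing.norm_star_mul_self, norm_eq_zero,
      star_mul, hns.star_eq, ← mul_assoc, h5, zero_mul]
  have h7 : a⁻ = 0 := by
    rw [← norm_eq_zero, ← mul_self_eq_zero, ← CStarRing.norm_star_mul_self, norm_eq_zero,
      hns.star_eq, h6]
  rw [h7, sub_zero] at hs
  rw [← hs]
  exact CFC.posPart_nonneg a

theorem single_nonneg (j : ι) : 0 ≤ φ.toLin (Matrix.single j j 1) := by
  refine nonneg_of_mul_self (p := φ.toLin 1) ?_ φ.nonneg (φ.commute_one _) ?_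
  · rw [isSelfAdjoint_iff, ← φ.map_star]
    simp [Matrix.star_eq_conjTranspose]
  · rw [φ.mul]
    simp

theorem single_le (j : ι) : φ.toLin (Matrix.single j j 1) ≤ φ.toLin 1 := by
  have h : (1 : Matrix ι ι ℂ) = ∑ k, Matrix.single k k 1 := by
    ext a b
    rw [Matrix.sum_apply, Matrix.one_apply]
    simp only [Matrix.single_apply]
    by_cases hab : a = b
    · subst hab; simp
    · rw [if_neg hab]
      refine (Finset.sum_eq_zero fun k _ ↦ ?_).symm
      rw [if_neg]
      rintro ⟨h1, h2⟩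
      exact hab (h1.symm.trans h2)
  conv_rhs => rw [h, map_sum]
  exact Finset.single_le_sum (fun k _ ↦ φ.single_nonneg k) (Finset.mem_univ j)

/-- The regularised inverse square root of `φ 1`. -/
noncomputable def reg (n : ℕ) : B :=
  cfc (cutRoot (1 / ((n : ℝ) + 1))) (φ.toLin 1 * φ.toLin 1)

theorem exists_root_limit (x : Matrix ι ι ℂ) :
    ∃ u, Tendsto (fun n ↦ φ.toLin x * φ.reg n) atTop (𝓝 u) ∧
      u * cfc fourthRoot (φ.toLin 1 * φ.toLin 1) = φ.toLin x := by
  have hy : (0 : B) ≤ φ.toLin 1 * φ.toLin 1 :=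
    Commute.mul_nonneg φ.nonneg φ.nonneg (Commute.refl _)
  have key : ∀ i j, ∃ u, Tendsto (fun n ↦ φ.toLin (Matrix.single i j 1) * φ.reg n) atTop (𝓝 u) ∧
      u * cfc fourthRoot (φ.toLin 1 * φ.toLin 1) = φ.toLin (Matrix.single i j 1) := by
    intro i j
    refine exists_root_factor (C := 1) hy zero_le_one ?_
    rw [one_smul, ← φ.map_star, φ.mul]
    have h : star (Matrix.single i j (1 : ℂ)) * Matrix.single i j 1 = Matrix.single j j 1 := by
      simp [Matrix.star_eq_conjTranspose]
    rw [h, ← sub_nonneg, ← mul_sub]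
    exact Commute.mul_nonneg φ.nonneg (sub_nonneg.2 (φ.single_le j))
      ((Commute.refl _).sub_right (φ.commute_one _))
  choose u hu hu' using key
  have hx : φ.toLin x = ∑ i, ∑ j, x i j • φ.toLin (Matrix.single i j 1) := by
    conv_lhs => rw [Matrix.matrix_eq_sum_single x]
    simp [map_sum, ← map_smul, Matrix.smul_single]
  refine ⟨∑ i, ∑ j, x i j • u i j, ?_, ?_⟩
  · have : (fun n ↦ φ.toLin x * φ.reg n) =
        fun n ↦ ∑ i, ∑ j, x i j • (φ.toLin (Matrix.single i j 1) * φ.reg n) := by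
      funext n; simp [hx, Finset.sum_mul]
    rw [this]
    exact tendsto_finsetSum _ fun i _ ↦ tendsto_finsetSum _ fun j _ ↦ (hu i j).const_smul _
  · simp [hx, Finset.sum_mul, hu']

/-- The square root of an order zero map. -/
noncomputable def root : Matrix ι ι ℂ →ₗ[ℂ] B where
  toFun x := (φ.exists_root_limit x).choose
  map_add' x y := tendsto_nhds_unique (φ.exists_root_limit (x + y)).choose_spec.1
    (((φ.exists_root_limit x).choose_spec.1.add (φ.exists_root_limit y).choose_spec.1).congr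
      fun n ↦ by rw [map_add, add_mul])
  map_smul' c x := tendsto_nhds_unique (φ.exists_root_limit (c • x)).choose_spec.1
    (((φ.exists_root_limit x).choose_spec.1.const_smul c).congr fun n ↦ by
      rw [map_smul, smul_mul_assoc])

theorem root_tendsto (x : Matrix ι ι ℂ) :
    Tendsto (fun n ↦ φ.toLin x * φ.reg n) atTop (𝓝 (φ.root x)) :=
  (φ.exists_root_limit x).choose_spec.1

theorem commute_reg {c : B} (h : Commute c (φ.toLin 1)) (n : ℕ) : Commute c (φ.reg n) :=
  ((h.mul_right h).symm.cfc_real _).symm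

theorem commute_root {c : B} (h : ∀ x, Commute c (φ.toLin x)) (x : Matrix ι ι ℂ) :
    Commute c (φ.root x) :=
  tendsto_nhds_unique ((φ.root_tendsto x).const_mul c) (((φ.root_tendsto x).mul_const c).congr
    fun n ↦ (((h x).mul_right (φ.commute_reg (h 1) n)).eq).symm)

theorem root_star (x : Matrix ι ι ℂ) : φ.root (star x) = star (φ.root x) := by
  refine tendsto_nhds_unique (φ.root_tendsto (star x)) ((φ.root_tendsto x).star.congr fun n ↦ ?_)
  rw [star_mul, ← φ.map_star, show star (φ.reg n) = φ.reg n from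
    IsSelfAdjoint.star_eq (cfc_predicate _ _)]
  exact (φ.commute_reg (φ.commute_one _).symm n).eq.symm

theorem root_mul_root (x y : Matrix ι ι ℂ) : φ.root x * φ.root y = φ.toLin (x * y) := by
  set q := cfc fourthRoot (φ.toLin 1 * φ.toLin 1) with hq
  have hrq : ∀ z, φ.root z * q = φ.toLin z := fun z ↦ (φ.exists_root_limit z).choose_spec.2
  refine tendsto_nhds_unique ((φ.root_tendsto x).mul (φ.root_tendsto y)) ?_
  have hp : φ.toLin 1 = q * q := by
    have hsa : IsSelfAdjoint (φ.toLin 1) := .of_nonneg φ.nonneg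
    have hpp : φ.toLin 1 * φ.toLin 1 = cfc (fun t : ℝ ↦ t * t) (φ.toLin 1) := by
      rw [cfc_mul (fun t : ℝ ↦ t) (fun t : ℝ ↦ t) (φ.toLin 1), cfc_id' ℝ (φ.toLin 1)]
    rw [hq, ← cfc_mul _ _ _ fourthRoot_continuous.continuousOn fourthRoot_continuous.continuousOn,
      hpp, ← cfc_comp' (fun t ↦ fourthRoot t * fourthRoot t) (fun t : ℝ ↦ t * t) (φ.toLin 1)
        (fourthRoot_continuous.mul fourthRoot_continuous).continuousOn (by fun_prop)]
    conv_lhs => rw [← cfc_id' ℝ (φ.toLin 1)]
    refine cfc_congr fun t ht ↦ ?_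
    show t = fourthRoot (t * t) * fourthRoot (t * t)
    rw [fourthRoot, Real.mul_self_sqrt (Real.sqrt_nonneg _),
      Real.sqrt_mul_self (spectrum_nonneg_of_nonneg φ.nonneg ht)]
  have hcq : ∀ n, Commute q (φ.reg n) := fun n ↦ cfc_commute_cfc _ _ _
  have hlim : Tendsto (fun n ↦ φ.reg n * q * (φ.reg n * q) * φ.toLin (x * y)) atTop
      (𝓝 (φ.toLin (x * y))) := by
    have h1 : ∀ z, Tendsto (fun n ↦ φ.reg n * q * φ.toLin z) atTop (𝓝 (φ.toLin z)) := by
      intro z
      have hcz : Commute q (φ.toLin z) :=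
        (((φ.commute_one z).mul_left (φ.commute_one z)).cfc_real _)
      have := (φ.root_tendsto z).mul_const q
      rw [hrq] at this
      refine this.congr fun n ↦ ?_
      rw [(φ.commute_reg (φ.commute_one z).symm n).eq, mul_assoc, ← hcz.eq, ← mul_assoc]
    have h2 : ∀ n, ‖φ.reg n * q‖ ≤ 1 := fun n ↦ by
      rw [reg, hq, ← cfc_mul _ _ _ (cutRoot_continuous (by positivity)).continuousOn
        fourthRoot_continuous.continuousOn]
      refine norm_cfc_le zero_le_one fun t ht ↦ ?_
      rw [fourthRoot, Real.norm_of_nonneg (mul_nonneg (cutRoot_nonneg _ _) (Real.sqrt_nonneg _)), cutRoot,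
        inv_mul_le_one₀ (Real.sqrt_pos.2 (Real.sqrt_pos.2 (lt_max_of_lt_right (by positivity))))]
      exact Real.sqrt_le_sqrt (Real.sqrt_le_sqrt (le_max_left _ _))
    rw [tendsto_iff_norm_sub_tendsto_zero]
    have h3 := tendsto_iff_norm_sub_tendsto_zero.1 (h1 (x * y))
    refine squeeze_zero (fun n ↦ norm_nonneg _) (fun n ↦ ?_) (by simpa using h3.add h3)
    set g := φ.reg n * q
    set w := φ.toLin (x * y)
    calc ‖g * g * w - w‖ = ‖g * (g * w - w) + (g * w - w)‖ := by noncomm_ring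
      _ ≤ ‖g‖ * ‖g * w - w‖ + ‖g * w - w‖ :=
          (norm_add_le _ _).trans (by gcongr; exact norm_mul_le _ _)
      _ ≤ 1 * ‖g * w - w‖ + ‖g * w - w‖ := by gcongr; exact h2 n
      _ = ‖g * w - w‖ + ‖g * w - w‖ := by rw [one_mul]
  refine hlim.congr fun n ↦ ?_
  calc φ.reg n * q * (φ.reg n * q) * φ.toLin (x * y)
      = φ.reg n * φ.reg n * (φ.toLin 1 * φ.toLin (x * y)) := by
        rw [hp]
        have := (hcq n).eq
        simp only [mul_assoc]
        rw [← mul_assoc q (φ.reg n), this]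
        simp only [mul_assoc]
    _ = φ.reg n * φ.reg n * (φ.toLin x * φ.toLin y) := by rw [φ.mul x y]
    _ = φ.toLin x * φ.reg n * (φ.toLin y * φ.reg n) := by
        have cx := φ.commute_reg (φ.commute_one x).symm n
        have cy := φ.commute_reg (φ.commute_one y).symm n
        calc φ.reg n * φ.reg n * (φ.toLin x * φ.toLin y)
            = φ.reg n * ((φ.reg n * φ.toLin x) * φ.toLin y) := by simp [mul_assoc]
          _ = φ.reg n * (φ.toLin x * φ.reg n * φ.toLin y) := by rw [cx.eq]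
          _ = φ.reg n * φ.toLin x * (φ.reg n * φ.toLin y) := by simp [mul_assoc]
          _ = _ := by rw [← cx.eq, ← cy.eq]

theorem root_one_mul_root (x : Matrix ι ι ℂ) : φ.root 1 * φ.root x = φ.toLin x := by
  rw [root_mul_root, one_mul]

theorem root_mul (x y : Matrix ι ι ℂ) : φ.root x * φ.root y = φ.root 1 * φ.root (x * y) := by
  rw [root_mul_root, root_one_mul_root]

theorem root_zero (x : Matrix ι ι ℂ) {v : B} (hv : φ.toLin 1 * v = 0) : φ.root x * v = 0 := by
  rw [← norm_eq_zero, ← mul_self_eq_zero, ← CStarRing.norm_star_mul_self, norm_eq_zero]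
  calc star (φ.root x * v) * (φ.root x * v)
      = star v * ((φ.root (star x) * φ.root x) * v) := by
        rw [star_mul, φ.root_star]; simp [mul_assoc]
    _ = 0 := by rw [φ.root_mul_root, φ.commute_zero _ hv, mul_zero]

end OrderZero

end Vale.Agent.P101
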