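import Mathlib
import Vale.Agent.P101.OrderZero

/- Combining two commuting order zero maps into one, and tensoring them. -/

open scoped ComplexOrder Kronecker

namespace Vale.Agent.P101.OrderZero

variable {ι κ : Type*} [Fintype ι] [DecidableEq ι] [Fintype κ] [DecidableEq κ]
  {B : Type*} [CStarAlgebra B] [PartialOrder B] [StarOrderedRing B]
  (φ : OrderZero ι B) (ψ : OrderZero κ B)

theorem star_single {n : Type*} [DecidableEq n] [Fintype n] (i j : n) (z : ℂ) :
    star (Matrix.single i j z) = Matrix.single j i (star z) := by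
  simp [Matrix.star_eq_conjTranspose]

/-- The product of the two square roots, on the tensor product of the matrix algebras. -/
noncomputable def pair : Matrix (ι × κ) (ι × κ) ℂ →ₗ[ℂ] B :=
  ∑ a : ι × κ, ∑ b : ι × κ, (Matrix.entryLinearMap ℂ ℂ a b).smulRight
    (φ.root (Matrix.single a.1 b.1 1) * ψ.root (Matrix.single a.2 b.2 1))

theorem pair_single (a b : ι × κ) (c : ℂ) :
    φ.pair ψ (Matrix.single a b c) =
      c • (φ.root (Matrix.single a.1 b.1 1) * ψ.root (Matrix.single a.2 b.2 1)) := by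
  classical
  simp only [pair, LinearMap.coe_sum, Finset.sum_apply, LinearMap.coe_smulRight,
    Matrix.entryLinearMap_apply]
  rw [Finset.sum_eq_single a, Finset.sum_eq_single b] <;>
    simp (config := { contextual := true }) [Matrix.single_apply, eq_comm]

theorem pair_kronecker (x : Matrix ι ι ℂ) (y : Matrix κ κ ℂ) :
    φ.pair ψ (x ⊗ₖ y) = φ.root x * ψ.root y := by
  induction x using Matrix.induction_on' with
  | h_zero => simp
  | h_add x x' h h' => rw [Matrix.add_kronecker, map_add, h, h', map_add, add_mul]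
  | h_std_basis i j c =>
    induction y using Matrix.induction_on' with
    | h_zero => simp
    | h_add y y' h h' => rw [Matrix.kronecker_add, map_add, h, h', map_add, mul_add]
    | h_std_basis k l d =>
      rw [Matrix.single_kronecker_single, pair_single]
      rw [show Matrix.single i j c = c • Matrix.single i j (1 : ℂ) by simp [Matrix.smul_single],
        show Matrix.single k l d = d • Matrix.single k l (1 : ℂ) by simp [Matrix.smul_single],
        map_smul, map_smul, smul_mul_smul_comm]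

section Pair

variable (hc : ∀ x y, Commute (φ.toLin x) (ψ.toLin y))
include hc

theorem root_commute_root (x : Matrix ι ι ℂ) (y : Matrix κ κ ℂ) :
    Commute (φ.root x) (ψ.root y) :=
  (φ.commute_root (fun x' ↦ (ψ.commute_root (fun y' ↦ hc x' y') y).symm) x).symm

theorem pair_mul (Z W : Matrix (ι × κ) (ι × κ) ℂ) :
    φ.pair ψ Z * φ.pair ψ W = φ.root 1 * ψ.root 1 * φ.pair ψ (Z * W) := by
  have hr := φ.root_commute_root ψ hc
  induction Z using Matrix.induction_on' with
  | h_zero => simp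
  | h_add Z Z' h h' => rw [map_add, add_mul, h, h', add_mul, map_add, mul_add]
  | h_std_basis a b c =>
    induction W using Matrix.induction_on' with
    | h_zero => simp
    | h_add W W' h h' => rw [map_add, mul_add, h, h', mul_add, map_add, mul_add]
    | h_std_basis d e c' =>
      rw [pair_single, pair_single, smul_mul_smul_comm,
        Commute.mul_mul_mul_comm (hr _ _).symm, φ.root_mul, ψ.root_mul,
        Commute.mul_mul_mul_comm (hr _ _)]
      have : Matrix.single a b c * Matrix.single d e c' = (c * c') •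
          ((Matrix.single a.1 b.1 (1 : ℂ) * Matrix.single d.1 e.1 1) ⊗ₖ
            (Matrix.single a.2 b.2 (1 : ℂ) * Matrix.single d.2 e.2 1)) := by
        rw [Matrix.mul_kronecker_mul, Matrix.single_kronecker_single,
          Matrix.single_kronecker_single]
        simp only [mul_one, Prod.mk.eta]
        rw [← smul_mul_smul_comm, Matrix.smul_single, Matrix.smul_single]
        simp
      rw [this, map_smul, pair_kronecker, mul_smul_comm]

omit hc in
theorem root_mul_pair (x : Matrix ι ι ℂ) (W : Matrix (ι × κ) (ι × κ) ℂ) :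
    φ.root x * φ.pair ψ W = φ.root 1 * φ.pair ψ ((x ⊗ₖ (1 : Matrix κ κ ℂ)) * W) := by
  induction W using Matrix.induction_on' with
  | h_zero => simp
  | h_add W W' h h' => rw [map_add, mul_add, h, h', mul_add, map_add, mul_add]
  | h_std_basis a b c =>
    rw [show Matrix.single a b c = c • (Matrix.single a.1 b.1 (1 : ℂ) ⊗ₖ Matrix.single a.2 b.2 1)
      by rw [Matrix.single_kronecker_single]; simp [Matrix.smul_single]]
    rw [mul_smul_comm, map_smul, map_smul, ← Matrix.mul_kronecker_mul, one_mul, pair_kronecker,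
      pair_kronecker, mul_smul_comm, mul_smul_comm, ← mul_assoc, φ.root_mul, mul_assoc]

theorem root_mul_pair' (y : Matrix κ κ ℂ) (W : Matrix (ι × κ) (ι × κ) ℂ) :
    ψ.root y * φ.pair ψ W = ψ.root 1 * φ.pair ψ (((1 : Matrix ι ι ℂ) ⊗ₖ y) * W) := by
  have hr := φ.root_commute_root ψ hc
  induction W using Matrix.induction_on' with
  | h_zero => simp
  | h_add W W' h h' => rw [map_add, mul_add, h, h', mul_add, map_add, mul_add]
  | h_std_basis a b c =>
    rw [show Matrix.single a b c = c • (Matrix.single a.1 b.1 (1 : ℂ) ⊗ₖ Matrix.single a.2 b.2 1)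
      by rw [Matrix.single_kronecker_single]; simp [Matrix.smul_single]]
    rw [mul_smul_comm, map_smul, map_smul, ← Matrix.mul_kronecker_mul, one_mul, pair_kronecker,
      pair_kronecker, mul_smul_comm, mul_smul_comm, ← mul_assoc, ← (hr _ y).eq, mul_assoc,
      ψ.root_mul, ← mul_assoc, (hr _ 1).eq, mul_assoc]

theorem pair_star (Z : Matrix (ι × κ) (ι × κ) ℂ) : φ.pair ψ (star Z) = star (φ.pair ψ Z) := by
  induction Z using Matrix.induction_on' with
  | h_zero => simp
  | h_add W W' h h' => rw [star_add, map_add, h, h', map_add, star_add]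
  | h_std_basis a b c =>
    rw [star_single, pair_single, pair_single, star_smul, star_mul, ← ψ.root_star, ← φ.root_star,
      star_single, star_single,
      star_one, (φ.root_commute_root ψ hc _ _).eq]

theorem commute_root_one_pair (W : Matrix (ι × κ) (ι × κ) ℂ) :
    Commute (φ.root 1) (φ.pair ψ W) := by
  induction W using Matrix.induction_on' with
  | h_zero => simp
  | h_add W W' h h' => rw [map_add]; exact h.add_right h'
  | h_std_basis a b c =>
    rw [pair_single]
    refine (Commute.mul_right ?_ (φ.root_commute_root ψ hc _ _)).smul_right c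
    show _ = _
    rw [φ.root_mul (Matrix.single a.1 b.1 1) 1, mul_one]

theorem pair_mul_root (x : Matrix ι ι ℂ) (W : Matrix (ι × κ) (ι × κ) ℂ) :
    φ.pair ψ W * φ.root x = φ.root 1 * φ.pair ψ (W * (x ⊗ₖ (1 : Matrix κ κ ℂ))) := by
  induction W using Matrix.induction_on' with
  | h_zero => simp
  | h_add W W' h h' => rw [map_add, add_mul, h, h', add_mul, map_add, mul_add]
  | h_std_basis a b c =>
    rw [show Matrix.single a b c = c • (Matrix.single a.1 b.1 (1 : ℂ) ⊗ₖ Matrix.single a.2 b.2 1)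
      by rw [Matrix.single_kronecker_single]; simp [Matrix.smul_single]]
    rw [smul_mul_assoc, map_smul, map_smul, ← Matrix.mul_kronecker_mul, mul_one, pair_kronecker,
      pair_kronecker, smul_mul_assoc, mul_smul_comm, mul_assoc,
      ← (φ.root_commute_root ψ hc x _).eq, ← mul_assoc, φ.root_mul, mul_assoc]

omit hc in
theorem commute_pair {c : B} (h₁ : ∀ x, Commute c (φ.toLin x)) (h₂ : ∀ x, Commute c (ψ.toLin x))
    (Z : Matrix (ι × κ) (ι × κ) ℂ) : Commute c (φ.pair ψ Z) := by
  induction Z using Matrix.induction_on' with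
  | h_zero => simp
  | h_add W W' h h' => rw [map_add]; exact h.add_right h'
  | h_std_basis a b z =>
    rw [pair_single]
    exact ((φ.commute_root h₁ _).mul_right (ψ.commute_root h₂ _)).smul_right z

end Pair

/-- Reindexing an order zero map along an equivalence. -/
noncomputable def reindex (e : κ ≃ ι) : OrderZero κ B where
  toLin := φ.toLin.comp (Matrix.reindexLinearEquiv ℂ ℂ e e).toLinearMap
  map_star x := by
    simp only [LinearMap.comp_apply, LinearEquiv.coe_coe, Matrix.reindexLinearEquiv_apply]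
    rw [← φ.map_star]
    rfl
  mul x y := by
    simp only [LinearMap.comp_apply, LinearEquiv.coe_coe, Matrix.reindexLinearEquiv_apply,
      Matrix.reindex_apply, Matrix.submatrix_one_equiv]
    rw [φ.mul, Matrix.submatrix_mul_equiv]
  nonneg := by simpa [Matrix.submatrix_one_equiv] using φ.nonneg
  le_one := by simpa [Matrix.submatrix_one_equiv] using φ.le_one

theorem reindex_apply (e : κ ≃ ι) (x : Matrix κ κ ℂ) :
    (φ.reindex e).toLin x = φ.toLin (x.submatrix e.symm e.symm) := rfl

theorem le_one_mul {p r : B} (hp : 0 ≤ p) (hp1 : p ≤ 1) (hr1 : r ≤ 1) (hpr : Commute p r) :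
    p * r ≤ 1 := by
  have : 1 - p * r = (1 - p) + p * (1 - r) := by noncomm_ring
  rw [← sub_nonneg, this]
  exact add_nonneg (sub_nonneg.2 hp1) (Commute.mul_nonneg hp (sub_nonneg.2 hr1)
    ((Commute.one_right p).sub_right hpr))

/-- The tensor product of two commuting order zero maps. -/
noncomputable def tensor (hc : ∀ x y, Commute (φ.toLin x) (ψ.toLin y)) :
    OrderZero (ι × κ) B where
  toLin := (LinearMap.mulLeft ℂ (φ.root 1 * ψ.root 1)).comp (φ.pair ψ)
  map_star Z := by
    have hPQ : ∀ W, Commute (φ.root 1 * ψ.root 1) (φ.pair ψ W) := fun W ↦ by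
      have h' := φ.pair_mul ψ hc W 1
      rw [mul_one, ← Matrix.one_kronecker_one, pair_kronecker] at h'
      exact h'.symm
    simp only [LinearMap.comp_apply, LinearMap.mulLeft_apply]
    rw [star_mul, star_mul, ← φ.root_star, ← ψ.root_star, star_one, star_one,
      ← (φ.root_commute_root ψ hc 1 1).eq, φ.pair_star ψ hc]
    have := (hPQ (star Z)).eq
    rw [φ.pair_star ψ hc] at this
    exact this
  mul Z W := by
    have h1 : φ.pair ψ 1 = φ.root 1 * ψ.root 1 := by
      rw [← Matrix.one_kronecker_one, pair_kronecker]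
    have hPQ : ∀ W, Commute (φ.root 1 * ψ.root 1) (φ.pair ψ W) := fun W ↦ by
      have h' := φ.pair_mul ψ hc W 1
      rw [h1, mul_one] at h'
      exact h'.symm
    simp only [LinearMap.comp_apply, LinearMap.mulLeft_apply, h1]
    rw [Commute.mul_mul_mul_comm (hPQ Z).symm, φ.pair_mul ψ hc]
  nonneg := by
    simp only [LinearMap.comp_apply, LinearMap.mulLeft_apply, ← Matrix.one_kronecker_one,
      pair_kronecker]
    rw [Commute.mul_mul_mul_comm (φ.root_commute_root ψ hc 1 1).symm, root_mul_root, root_mul_root,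
      one_mul, one_mul]
    exact Commute.mul_nonneg φ.nonneg ψ.nonneg (hc 1 1)
  le_one := by
    simp only [LinearMap.comp_apply, LinearMap.mulLeft_apply, ← Matrix.one_kronecker_one,
      pair_kronecker]
    rw [Commute.mul_mul_mul_comm (φ.root_commute_root ψ hc 1 1).symm, root_mul_root, root_mul_root,
      one_mul, one_mul]
    exact le_one_mul φ.nonneg φ.le_one ψ.le_one (hc 1 1)

theorem tensor_kronecker (hc : ∀ x y, Commute (φ.toLin x) (ψ.toLin y)) (x : Matrix ι ι ℂ)
    (y : Matrix κ κ ℂ) : (φ.tensor ψ hc).toLin (x ⊗ₖ y) = φ.toLin x * ψ.toLin y := by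
  simp only [tensor, LinearMap.comp_apply, LinearMap.mulLeft_apply, pair_kronecker]
  rw [Commute.mul_mul_mul_comm (φ.root_commute_root ψ hc x 1).symm, root_one_mul_root,
    root_one_mul_root]

theorem tensor_one (hc : ∀ x y, Commute (φ.toLin x) (ψ.toLin y)) :
    (φ.tensor ψ hc).toLin 1 = φ.toLin 1 * ψ.toLin 1 := by
  rw [← Matrix.one_kronecker_one, tensor_kronecker]

theorem tensor_commute (hc : ∀ x y, Commute (φ.toLin x) (ψ.toLin y)) {c : B}
    (h₁ : ∀ x, Commute c (φ.toLin x)) (h₂ : ∀ x, Commute c (ψ.toLin x))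
    (Z : Matrix (ι × κ) (ι × κ) ℂ) : Commute c ((φ.tensor ψ hc).toLin Z) :=
  ((φ.commute_root h₁ 1).mul_right (ψ.commute_root h₂ 1)).mul_right (φ.commute_pair ψ h₁ h₂ Z)

section Combine

variable (φ ψ : OrderZero ι B)

/-- The flip. -/
def flip : Matrix (ι × ι) (ι × ι) ℂ :=
  Matrix.of fun a b ↦ if a.1 = b.2 ∧ a.2 = b.1 then 1 else 0

theorem flip_kronecker (x y : Matrix ι ι ℂ) : flip * (x ⊗ₖ y) = (y ⊗ₖ x) * flip := by
  ext ⟨a, b⟩ ⟨c, d⟩
  simp [flip, Matrix.mul_apply, Fintype.sum_prod_type, ite_and, Finset.sum_ite_eq,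
    Finset.sum_ite_eq', mul_comm, eq_comm]

theorem flip_mul_flip : flip * flip = (1 : Matrix (ι × ι) (ι × ι) ℂ) := by
  ext ⟨a, b⟩ ⟨c, d⟩
  simp [flip, Matrix.mul_apply, Fintype.sum_prod_type, ite_and, Matrix.one_apply, Prod.ext_iff]

theorem star_flip : star flip = (flip : Matrix (ι × ι) (ι × ι) ℂ) := by
  ext ⟨a, b⟩ ⟨c, d⟩
  simp [flip, Matrix.star_apply, and_comm, eq_comm, apply_ite]

/-- The commutator of the flip with `x ⊗ 1`. -/
def twist : Matrix ι ι ℂ →ₗ[ℂ] Matrix (ι × ι) (ι × ι) ℂ where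
  toFun x := flip * (x ⊗ₖ (1 : Matrix ι ι ℂ)) - (x ⊗ₖ (1 : Matrix ι ι ℂ)) * flip
  map_add' x y := by rw [Matrix.add_kronecker, mul_add, add_mul]; abel
  map_smul' c x := by simp [Matrix.smul_kronecker, smul_sub]

theorem twist_apply (x : Matrix ι ι ℂ) :
    twist x = flip * (x ⊗ₖ (1 : Matrix ι ι ℂ)) - (x ⊗ₖ (1 : Matrix ι ι ℂ)) * flip := rfl

theorem twist_leibniz_left (x y : Matrix ι ι ℂ) :
    (x ⊗ₖ (1 : Matrix ι ι ℂ)) * twist y + twist x * (y ⊗ₖ (1 : Matrix ι ι ℂ)) = twist (x * y) := by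
  rw [twist_apply, twist_apply, twist_apply,
    show (x * y) ⊗ₖ (1 : Matrix ι ι ℂ) = (x ⊗ₖ 1) * (y ⊗ₖ 1) by
      rw [← Matrix.mul_kronecker_mul, one_mul]]
  noncomm_ring

theorem twist_leibniz_right (x y : Matrix ι ι ℂ) :
    ((1 : Matrix ι ι ℂ) ⊗ₖ x) * twist y + twist x * ((1 : Matrix ι ι ℂ) ⊗ₖ y) = twist (x * y) := by
  have e1 : ∀ z : Matrix ι ι ℂ, flip * (z ⊗ₖ (1 : Matrix ι ι ℂ)) = ((1 : Matrix ι ι ℂ) ⊗ₖ z) * flip :=
    fun z ↦ flip_kronecker z 1
  have e2 : ∀ z : Matrix ι ι ℂ, flip * ((1 : Matrix ι ι ℂ) ⊗ₖ z) = (z ⊗ₖ (1 : Matrix ι ι ℂ)) * flip :=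
    fun z ↦ flip_kronecker 1 z
  rw [twist_apply, twist_apply, twist_apply, e1, e1, e1, mul_sub, sub_mul,
    mul_assoc _ flip, e2, mul_assoc (x ⊗ₖ (1 : Matrix ι ι ℂ)) flip, e2]
  simp only [← mul_assoc, ← Matrix.mul_kronecker_mul, one_mul, mul_one]
  abel

theorem twist_mul (x y : Matrix ι ι ℂ) :
    twist x * twist y = y ⊗ₖ x + x ⊗ₖ y - (1 : Matrix ι ι ℂ) ⊗ₖ (x * y) -
      (x * y) ⊗ₖ (1 : Matrix ι ι ℂ) := by
  have e1 : ∀ z : Matrix ι ι ℂ, flip * (z ⊗ₖ (1 : Matrix ι ι ℂ)) = ((1 : Matrix ι ι ℂ) ⊗ₖ z) * flip :=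
    fun z ↦ flip_kronecker z 1
  have e2 : ∀ z : Matrix ι ι ℂ, flip * ((1 : Matrix ι ι ℂ) ⊗ₖ z) = (z ⊗ₖ (1 : Matrix ι ι ℂ)) * flip :=
    fun z ↦ flip_kronecker 1 z
  rw [twist_apply, twist_apply, e1, e1]
  simp only [mul_sub, sub_mul, mul_assoc]
  simp only [← mul_assoc flip, e1, e2, mul_assoc, flip_mul_flip, mul_one]
  simp only [← mul_assoc, ← Matrix.mul_kronecker_mul, one_mul, mul_one]
  abel

variable (hc : ∀ x y, Commute (φ.toLin x) (ψ.toLin y))

/-- The linear map underlying the combination. -/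
noncomputable def combineLin : Matrix ι ι ℂ →ₗ[ℂ] B :=
  φ.toLin + (LinearMap.mulLeft ℂ (1 - φ.toLin 1)).comp ψ.toLin +
    Complex.I • ((LinearMap.mulLeft ℂ (CFC.sqrt (1 - φ.toLin 1))).comp ((φ.pair ψ).comp twist))

theorem combineLin_apply (x : Matrix ι ι ℂ) :
    φ.combineLin ψ x = φ.toLin x + (1 - φ.toLin 1) * ψ.toLin x +
      Complex.I • (CFC.sqrt (1 - φ.toLin 1) * φ.pair ψ (twist x)) := rfl

theorem combineLin_one : φ.combineLin ψ 1 = φ.toLin 1 + (1 - φ.toLin 1) * ψ.toLin 1 := by
  simp [combineLin_apply, twist_apply, Matrix.one_kronecker_one]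

include hc

theorem commute_one_pair (Z : Matrix (ι × ι) (ι × ι) ℂ) : Commute (φ.toLin 1) (φ.pair ψ Z) := by
  rw [← φ.root_one_mul_root]
  exact (φ.commute_root_one_pair ψ hc Z).mul_left (φ.commute_root_one_pair ψ hc Z)

theorem combine_mul (x y : Matrix ι ι ℂ) :
    φ.combineLin ψ x * φ.combineLin ψ y = φ.combineLin ψ 1 * φ.combineLin ψ (x * y) := by
  set p := φ.toLin 1 with hp
  set r := ψ.toLin 1 with hr
  set q := 1 - p with hq
  set D := CFC.sqrt q with hD
  have hDD : D * D = q := CFC.sqrt_mul_sqrt_self q (sub_nonneg.2 φ.le_one)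
  set C := fun z ↦ φ.pair ψ (twist z) with hC
  have hqA : ∀ z, Commute q (φ.toLin z) := fun z ↦ (Commute.one_left _).sub_left (φ.commute_one z)
  have hqB : ∀ z, Commute q (ψ.toLin z) := fun z ↦ (Commute.one_left _).sub_left (hc 1 z)
  have hqC : ∀ z, Commute q (C z) := fun z ↦
    (Commute.one_left _).sub_left (φ.commute_one_pair ψ hc _)
  have hDA : ∀ z, Commute D (φ.toLin z) := fun z ↦ by
    rw [hD, CFC.sqrt_eq_cfc]; exact (hqA z).cfc_nnreal _
  have hDB : ∀ z, Commute D (ψ.toLin z) := fun z ↦ by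
    rw [hD, CFC.sqrt_eq_cfc]; exact (hqB z).cfc_nnreal _
  have hDC : ∀ z, Commute D (C z) := fun z ↦ by
    rw [hD, CFC.sqrt_eq_cfc]; exact (hqC z).cfc_nnreal _
  have hr' := φ.root_commute_root ψ hc
  have eA : ∀ z, φ.toLin z = φ.root 1 * φ.root z := fun z ↦ (φ.root_one_mul_root z).symm
  have eB : ∀ z, ψ.toLin z = ψ.root 1 * ψ.root z := fun z ↦ (ψ.root_one_mul_root z).symm
  have hP2 : φ.root 1 * φ.root 1 = p := by rw [root_mul_root, one_mul]
  have hQ2 : ψ.root 1 * ψ.root 1 = r := by rw [root_mul_root, one_mul]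
  have hA : φ.toLin x * C y + C x * φ.toLin y = p * C (x * y) := by
    have e1 : φ.toLin x * C y = p * φ.pair ψ ((x ⊗ₖ (1 : Matrix ι ι ℂ)) * twist y) := by
      rw [eA, mul_assoc, φ.root_mul_pair ψ, ← mul_assoc, hP2]
    have e2 : C x * φ.toLin y = p * φ.pair ψ (twist x * (y ⊗ₖ (1 : Matrix ι ι ℂ))) := by
      rw [eA, ← mul_assoc, ← (φ.commute_root_one_pair ψ hc _).eq, mul_assoc,
        φ.pair_mul_root ψ hc, ← mul_assoc, hP2]
    rw [e1, e2, ← mul_add, ← map_add, twist_leibniz_left]
  have hB : ψ.toLin x * C y + C x * ψ.toLin y = r * C (x * y) := by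
    have e1 : ψ.toLin x * C y = r * φ.pair ψ (((1 : Matrix ι ι ℂ) ⊗ₖ x) * twist y) := by
      rw [eB, mul_assoc, φ.root_mul_pair' ψ hc, ← mul_assoc, hQ2]
    have e3 : ψ.toLin (star y) * φ.pair ψ (star (twist x)) =
        r * φ.pair ψ (((1 : Matrix ι ι ℂ) ⊗ₖ star y) * star (twist x)) := by
      rw [eB, mul_assoc, φ.root_mul_pair' ψ hc, ← mul_assoc, hQ2]
    have e2 : C x * ψ.toLin y = r * φ.pair ψ (twist x * ((1 : Matrix ι ι ℂ) ⊗ₖ y)) := by
      have hrp : ∀ Z, Commute r (φ.pair ψ Z) := fun Z ↦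
        φ.commute_pair ψ (fun z ↦ (hc z 1).symm) (fun z ↦ ψ.commute_one z) Z
      have h := congrArg star e3
      rw [star_mul, star_mul, ψ.map_star, star_star, ← φ.pair_star ψ hc, star_star,
        ← φ.pair_star ψ hc, star_mul, star_star,
        show star r = r from (IsSelfAdjoint.of_nonneg ψ.nonneg).star_eq] at h
      rw [hC]
      refine h.trans ?_
      rw [(hrp _).eq]
      simp [Matrix.star_eq_conjTranspose, Matrix.conjTranspose_kronecker]
    rw [e1, e2, ← mul_add, ← map_add, twist_leibniz_right]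
  have hCC : C x * C y = φ.toLin x * ψ.toLin y + ψ.toLin x * φ.toLin y - p * ψ.toLin (x * y) -
      r * φ.toLin (x * y) := by
    have key : ∀ a b, φ.root 1 * ψ.root 1 * φ.pair ψ (a ⊗ₖ b) = φ.toLin a * ψ.toLin b := by
      intro a b
      rw [pair_kronecker, Commute.mul_mul_mul_comm (hr' a 1).symm, root_one_mul_root,
        root_one_mul_root]
    show φ.pair ψ (twist x) * φ.pair ψ (twist y) = _
    rw [φ.pair_mul ψ hc, twist_mul, map_sub, map_sub, map_add, mul_sub, mul_sub, mul_add, key, key,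
      key, key, (hc y x).eq, (hc (x * y) 1).eq]
    abel
  have hpq : p = 1 - q := by rw [hq]; abel
  have hI : ∀ b : B, Complex.I • Complex.I • b = -b := fun b ↦ by
    rw [smul_smul, Complex.I_mul_I, neg_one_smul]
  rw [combineLin_one, combineLin_apply, combineLin_apply, combineLin_apply]
  change (φ.toLin x + q * ψ.toLin x + Complex.I • (D * C x)) *
      (φ.toLin y + q * ψ.toLin y + Complex.I • (D * C y)) =
    (p + q * r) * (φ.toLin (x * y) + q * ψ.toLin (x * y) + Complex.I • (D * C (x * y)))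
  have t1 : ∀ {b c : B}, Commute b c → ∀ d, b * (c * d) = c * (b * d) := fun h d ↦ by
    rw [← mul_assoc, h.eq, mul_assoc]
  have m1 : φ.toLin x * (q * ψ.toLin y) + q * ψ.toLin x * φ.toLin y =
      q * (φ.toLin x * ψ.toLin y + ψ.toLin x * φ.toLin y) := by
    rw [t1 (hqA x).symm, mul_add, mul_assoc]
  have m2 : q * ψ.toLin x * (q * ψ.toLin y) = q * (q * (r * ψ.toLin (x * y))) := by
    rw [mul_assoc, t1 (hqB x).symm, ψ.mul]
  have m3 : φ.toLin x * (D * C y) + D * C x * φ.toLin y = D * (p * C (x * y)) := by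
    rw [t1 (hDA x).symm, mul_assoc, ← mul_add, hA]
  have m4 : q * ψ.toLin x * (D * C y) + D * C x * (q * ψ.toLin y) =
      D * (q * (r * C (x * y))) := by
    rw [mul_assoc, t1 (hDB x).symm, mul_assoc D, t1 (hqC x).symm, ← hB, mul_add, mul_add]
    congr 1
    rw [← mul_assoc, ← mul_assoc D]
    congr 1
    rw [hD, CFC.sqrt_eq_cfc]
    exact ((Commute.refl q).cfc_nnreal _).symm.eq
  have m5 : D * C x * (D * C y) = q * (C x * C y) := by
    rw [Commute.mul_mul_mul_comm (hDC x).symm, hDD]
  have hDp : Commute D (p + q * r) :=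
    (hDA 1).add_right (((by rw [hD, CFC.sqrt_eq_cfc]; exact (Commute.refl q).cfc_nnreal _) :
      Commute D q).mul_right (hDB 1))
  calc _ = φ.toLin x * φ.toLin y + (φ.toLin x * (q * ψ.toLin y) + q * ψ.toLin x * φ.toLin y) +
        q * ψ.toLin x * (q * ψ.toLin y) +
        Complex.I • ((φ.toLin x * (D * C y) + D * C x * φ.toLin y) +
          (q * ψ.toLin x * (D * C y) + D * C x * (q * ψ.toLin y))) -
        D * C x * (D * C y) := by
        simp only [add_mul, mul_add, smul_mul_assoc, mul_smul_comm, hI, smul_add]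
        abel
    _ = p * φ.toLin (x * y) + q * r * φ.toLin (x * y) +
        (p * (q * ψ.toLin (x * y)) + q * r * (q * ψ.toLin (x * y))) +
        Complex.I • (D * ((p + q * r) * C (x * y))) := by
        rw [m1, m2, m3, m4, m5, hCC, φ.mul, ← mul_add D, add_mul, mul_assoc q r,
          t1 (hqA 1).symm, mul_assoc q r, t1 (hqB 1).symm]
        simp only [mul_add, mul_sub, mul_assoc]
        abel
    _ = _ := by
        rw [t1 hDp]
        simp only [add_mul, mul_add, mul_smul_comm, smul_add]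

/-- The combination of two commuting order zero maps on the same matrix algebra; its support is
`1 - (1 - φ 1) * (1 - ψ 1)`. -/
noncomputable def combine : OrderZero ι B where
  toLin := φ.combineLin ψ
  map_star x := by
    have hD : IsSelfAdjoint (CFC.sqrt (1 - φ.toLin 1)) := .of_nonneg (CFC.sqrt_nonneg _)
    have hDC : ∀ Z, Commute (CFC.sqrt (1 - φ.toLin 1)) (φ.pair ψ Z) := fun Z ↦ by
      rw [CFC.sqrt_eq_cfc]
      exact ((Commute.one_left _).sub_left (φ.commute_one_pair ψ hc Z)).cfc_nnreal _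
    have hq : IsSelfAdjoint (1 - φ.toLin 1) := .of_nonneg (sub_nonneg.2 φ.le_one)
    have ht : star (twist x) = -twist (star x) := by
      have hf : (flip : Matrix (ι × ι) (ι × ι) ℂ).conjTranspose = flip := star_flip
      simp [twist_apply, star_sub, star_mul, hf, Matrix.star_eq_conjTranspose,
        Matrix.conjTranspose_kronecker]
    simp only [combineLin_apply, star_add, star_smul, star_mul, φ.map_star, ψ.map_star]
    rw [hq.star_eq, hD.star_eq, ← φ.pair_star ψ hc, ht, map_neg, neg_mul, smul_neg,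
      Complex.star_def, Complex.conj_I, neg_smul, neg_neg, (hDC _).eq,
      ← ψ.map_star x, ((Commute.one_left _).sub_left (hc 1 (star x))).eq]
  mul := φ.combine_mul ψ hc
  nonneg := by
    rw [combineLin_one]
    exact add_nonneg φ.nonneg (Commute.mul_nonneg (sub_nonneg.2 φ.le_one) ψ.nonneg
      ((Commute.one_left _).sub_left (hc 1 1)))
  le_one := by
    rw [combineLin_one, ← sub_nonneg, show 1 - (φ.toLin 1 + (1 - φ.toLin 1) * ψ.toLin 1) =
      (1 - φ.toLin 1) * (1 - ψ.toLin 1) by noncomm_ring]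
    exact Commute.mul_nonneg (sub_nonneg.2 φ.le_one) (sub_nonneg.2 ψ.le_one)
      ((Commute.one_left _).sub_left ((Commute.one_right _).sub_right (hc 1 1)))

theorem one_sub_combine_one :
    1 - (φ.combine ψ hc).toLin 1 = (1 - φ.toLin 1) * (1 - ψ.toLin 1) := by
  show 1 - φ.combineLin ψ 1 = _
  rw [combineLin_one]
  noncomm_ring

theorem combine_commute {c : B} (h₁ : ∀ x, Commute c (φ.toLin x))
    (h₂ : ∀ x, Commute c (ψ.toLin x)) (x : Matrix ι ι ℂ) :
    Commute c ((φ.combine ψ hc).toLin x) := by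
  show Commute c (φ.combineLin ψ x)
  rw [combineLin_apply]
  have hq : Commute c (1 - φ.toLin 1) := (Commute.one_right c).sub_right (h₁ 1)
  refine ((h₁ x).add_right (hq.mul_right (h₂ x))).add_right ((Commute.mul_right ?_ ?_).smul_right _)
  · rw [CFC.sqrt_eq_cfc]; exact (hq.symm.cfc_nnreal _).symm
  · exact φ.commute_pair ψ h₁ h₂ _

/-- On vectors killed by the support of `φ`, the combination acts as `ψ`. -/
theorem combine_apply_of_zero {v : B} (hv : φ.toLin 1 * v = 0) (x : Matrix ι ι ℂ) :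
    (φ.combine ψ hc).toLin x * v = ψ.toLin x * v := by
  show φ.combineLin ψ x * v = _
  have hp : φ.pair ψ (twist x) * v = 0 := by
    induction twist x using Matrix.induction_on' with
    | h_zero => simp
    | h_add W W' h h' => rw [map_add, add_mul, h, h', add_zero]
    | h_std_basis a b c =>
      rw [pair_single, smul_mul_assoc, (φ.root_commute_root ψ hc _ _).eq, mul_assoc,
        φ.root_zero _ hv, mul_zero, smul_zero]
  rw [combineLin_apply, add_mul, add_mul, smul_mul_assoc, mul_assoc _ (φ.pair ψ _), hp,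
    φ.commute_zero x hv, ((Commute.one_left _).sub_left (hc 1 x)).eq, mul_assoc, sub_mul, hv]
  simp

/-- A vector fixed by `φ e` with `e` an idempotent is fixed by the combination. -/
theorem combine_apply_of_fixed {v : B} {e : Matrix ι ι ℂ} (he : e * e = e)
    (hv : φ.toLin e * v = v) : (φ.combine ψ hc).toLin e * v = v := by
  show φ.combineLin ψ e * v = _
  have hpv : φ.toLin 1 * v = v := by
    conv_lhs => rw [← hv, ← mul_assoc, ← congrArg φ.toLin he, ← φ.mul, mul_assoc, hv, hv]
  have hq : (1 - φ.toLin 1) * v = 0 := by rw [sub_mul, one_mul, hpv, sub_self]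
  have hD : CFC.sqrt (1 - φ.toLin 1) * v = 0 := by
    have hs : IsSelfAdjoint (CFC.sqrt (1 - φ.toLin 1)) := .of_nonneg (CFC.sqrt_nonneg _)
    rw [← norm_eq_zero, ← mul_self_eq_zero, ← CStarRing.norm_star_mul_self, norm_eq_zero, star_mul,
      hs.star_eq, mul_assoc, ← mul_assoc (CFC.sqrt _) (CFC.sqrt _),
      CFC.sqrt_mul_sqrt_self _ (sub_nonneg.2 φ.le_one), hq, mul_zero]
  have hDC : Commute (CFC.sqrt (1 - φ.toLin 1)) (φ.pair ψ (twist e)) := by
    rw [CFC.sqrt_eq_cfc]
    exact ((Commute.one_left _).sub_left (φ.commute_one_pair ψ hc _)).cfc_nnreal _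
  rw [combineLin_apply, add_mul, add_mul, smul_mul_assoc, hv,
    ((Commute.one_left _).sub_left (hc 1 e)).eq, mul_assoc, hq, hDC.eq, mul_assoc, hD]
  simp

end Combine

end Vale.Agent.P101.OrderZero
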