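import Vale.Agent.P101.Exact
import Mathlib

/-!
Comparison without perforation: from commuting copies of a full cut, an element `v` with
`star v * v` the product of the low cuts, supported on pairs of high cuts.

If `g * P₀ = 0` and `∑ star (y j) * (g * g) * y j = 1` in `D` and `π` is a family of unital
`*`-homomorphisms `D → F` with commuting ranges, indexed by two copies of `ZMod q`, put
`a = q⁻¹ ∑_{l,t} ∑_{j,m} ζ ^ (c(j,m) l t) π_l (g y_j) π'_t (g y_m) ∏_s π_s P₀`. The ranges of different
pairs `(l,t)` are orthogonal and the off diagonal part of `star a * a` is bilinear in the two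
families with Fourier phases, hence of norm `O(q ^ (-1/2))`.
-/

open scoped CStarAlgebra

namespace Vale.Agent.P101.Comparison

variable {D F : Type*} [CStarAlgebra D] [CStarAlgebra F] [PartialOrder F] [StarOrderedRing F]

/-! ### Bilinear estimates -/

/-- The Cauchy-Schwarz inequality. -/
theorem norm_sum_mul_sq_le {ι : Type*} [Fintype ι] (a b : ι → F) :
    ‖∑ i, a i * b i‖ ^ 2 ≤ ‖∑ i, a i * star (a i)‖ * ‖∑ i, star (b i) * b i‖ := by
  open WithCStarModule in
  set v : C⋆ᵐᵒᵈ(F, ι → F) := (equiv _ _).symm fun i => star (b i) with hv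
  open WithCStarModule in
  set w : C⋆ᵐᵒᵈ(F, ι → F) := (equiv _ _).symm a with hw
  have e : ∑ i, a i * b i = inner F v w := by
    simp [hv, hw, WithCStarModule.pi_inner, WithCStarModule.inner_def]
  have e1 : ‖∑ i, star (b i) * b i‖ = ‖v‖ ^ 2 := by
    rw [WithCStarModule.pi_norm_sq]
    simp [hv, WithCStarModule.inner_def]
  have e2 : ‖∑ i, a i * star (a i)‖ = ‖w‖ ^ 2 := by
    rw [WithCStarModule.pi_norm_sq]
    simp [hw, WithCStarModule.inner_def]
  rw [e, e1, e2, ← mul_pow, mul_comm]
  exact pow_le_pow_left₀ (norm_nonneg _) (CStarModule.norm_inner_le (C⋆ᵐᵒᵈ(F, ι → F))) 2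

omit [PartialOrder F] [StarOrderedRing F] in
theorem norm_sum_mul_star_le {ι : Type*} [Fintype ι] {a : ι → F} {β : ℝ} (ha : ∀ i, ‖a i‖ ≤ β) :
    ‖∑ i, a i * star (a i)‖ ≤ Fintype.card ι * β ^ 2 := by
  calc _ ≤ ∑ i, ‖a i * star (a i)‖ := norm_sum_le _ _
    _ ≤ ∑ _i : ι, β ^ 2 := Finset.sum_le_sum fun i _ => by
        rw [CStarRing.norm_self_mul_star, sq]
        exact mul_self_le_mul_self (norm_nonneg _) (ha i)
    _ = _ := by simp

omit [PartialOrder F] [StarOrderedRing F] in
theorem norm_sum_star_mul_le {ι : Type*} [Fintype ι] {b : ι → F} {β : ℝ} (hb : ∀ i, ‖b i‖ ≤ β) :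
    ‖∑ i, star (b i) * b i‖ ≤ Fintype.card ι * β ^ 2 := by
  simpa using norm_sum_mul_star_le (a := fun i => star (b i)) (β := β) fun i => by simpa using hb i

/-- Orthogonality of characters makes a phase weighted bilinear sum small. -/
theorem norm_sum_char_le {q : ℕ} [Fact q.Prime] {δ : ZMod q} (hδ : δ ≠ 0) {A B : ZMod q → F}
    {β : ℝ} (hA : ∀ l, ‖A l‖ ≤ β) (hB : ∀ l, ‖B l‖ ≤ β) :
    ‖∑ l, ∑ t, ZMod.stdAddChar (δ * (l * t)) • (A l * B t)‖ ≤
      (q : ℝ) * Real.sqrt q * β ^ 2 := by
  set C : ZMod q → F := fun t => ∑ l, ZMod.stdAddChar (δ * (l * t)) • A l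
  have hre : ∑ l, ∑ t, ZMod.stdAddChar (δ * (l * t)) • (A l * B t) = ∑ t, C t * B t := by
    rw [Finset.sum_comm]
    simp [C, Finset.sum_mul]
  have horth : ∀ l m : ZMod q,
      ∑ t : ZMod q, ZMod.stdAddChar (δ * (l * t)) * star (ZMod.stdAddChar (δ * (m * t))) =
        if l = m then (q : ℂ) else 0 := by
    intro l m
    have hs : ∀ t : ZMod q,
        ZMod.stdAddChar (δ * (l * t)) * star (ZMod.stdAddChar (δ * (m * t))) =
          ZMod.stdAddChar (t * (δ * (l - m))) := fun t => by
      change ZMod.stdAddChar (δ * (l * t)) *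
        (starRingEnd ℂ) (ZMod.stdAddChar (δ * (m * t))) = _
      rw [← AddChar.map_neg_eq_conj, ← AddChar.map_add_eq_mul]
      ring_nf
    simp only [hs]
    rw [AddChar.sum_mulShift _ (ZMod.isPrimitive_stdAddChar q)]
    simp [hδ, sub_eq_zero]
  have hCC : ∑ t, C t * star (C t) = (q : ℂ) • ∑ l, A l * star (A l) := by
    calc ∑ t, C t * star (C t)
        = ∑ t, ∑ l, ∑ m, (ZMod.stdAddChar (δ * (l * t)) *
            star (ZMod.stdAddChar (δ * (m * t)))) • (A l * star (A m)) := by
          simp only [C, star_sum, star_smul, Finset.sum_mul, Finset.mul_sum, smul_mul_smul_comm]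
          refine Finset.sum_congr rfl fun t _ => ?_
          rw [Finset.sum_comm]
      _ = ∑ l, ∑ m, (∑ t, ZMod.stdAddChar (δ * (l * t)) *
            star (ZMod.stdAddChar (δ * (m * t)))) • (A l * star (A m)) := by
          rw [Finset.sum_comm]
          refine Finset.sum_congr rfl fun l _ => ?_
          rw [Finset.sum_comm]
          simp only [Finset.sum_smul]
      _ = _ := by
          simp only [horth, ite_smul, zero_smul, Finset.sum_ite_eq, Finset.mem_univ, if_true,
            Finset.smul_sum]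
  have hβ : 0 ≤ β := (norm_nonneg _).trans (hA 0)
  rw [hre]
  refine (pow_le_pow_iff_left₀ (norm_nonneg _) (by positivity) two_ne_zero).1 ?_
  refine (norm_sum_mul_sq_le C B).trans ?_
  rw [hCC, norm_smul, Complex.norm_natCast]
  refine (mul_le_mul (mul_le_mul_of_nonneg_left (norm_sum_mul_star_le hA) (Nat.cast_nonneg q))
    (norm_sum_star_mul_le hB) (norm_nonneg _) (by positivity)).trans (le_of_eq ?_)
  rw [ZMod.card, mul_pow, mul_pow, Real.sq_sqrt (Nat.cast_nonneg q)]
  ring

/-! ### Fullness -/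

variable [PartialOrder D] [StarOrderedRing D]

/-- An element generating the algebra as an ideal has `∑ star (y i) * (star g * g) * y i = 1` for
suitable `y`. -/
theorem exists_sum_star_mul_eq_one {ι : Type*} [Fintype ι] {g : D} (p s : ι → D)
    (h : ∑ i, p i * g * s i = 1) :
    ∃ y : ι → D, ∑ i, star (y i) * (star g * g) * y i = 1 := by
  nontriviality D
  set b : ι → D := fun i => g * s i
  set K := ‖∑ i, p i * star (p i)‖
  set lam : ℝ := 1 / (K + 1)
  have hlam : 0 < lam := by positivity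
  have hpb : ∑ i, p i * b i = 1 := by simpa [b, mul_assoc] using h
  have hbp : ∑ i, star (b i) * star (p i) = 1 := by
    simpa [star_sum] using congrArg star hpb
  set S := ∑ i, star (b i) * b i
  have hle : algebraMap ℝ D lam ≤ S := by
    have h0 : 0 ≤ ∑ i, star (b i - lam • star (p i)) * (b i - lam • star (p i)) :=
      Finset.sum_nonneg fun i _ => star_mul_self_nonneg _
    have e : ∑ i, star (b i - lam • star (p i)) * (b i - lam • star (p i)) =
        S - (2 * lam) • (1 : D) + (lam * lam) • ∑ i, p i * star (p i) := by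
      simp only [star_sub, star_smul, star_star, star_trivial, sub_mul, mul_sub,
        mul_smul_comm, smul_mul_assoc, Finset.sum_sub_distrib, ← Finset.smul_sum, hpb, hbp, S]
      module
    rw [e] at h0
    have hP : ∑ i, p i * star (p i) ≤ algebraMap ℝ D K :=
      IsSelfAdjoint.le_algebraMap_norm_self (by simp [IsSelfAdjoint, star_sum])
    rw [Algebra.algebraMap_eq_smul_one] at hP ⊢
    have hP' : (lam * lam) • ∑ i, p i * star (p i) ≤ (lam * lam) • (K • (1 : D)) :=
      smul_le_smul_of_nonneg_left hP (by positivity)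
    have hc : lam • (1 : D) ≤ (2 * lam - lam * lam * K) • (1 : D) := by
      refine smul_le_smul_of_nonneg_right ?_ zero_le_one
      have hK : lam * K ≤ 1 := by
        rw [one_div_mul_eq_div, div_le_one (by positivity)]
        linarith
      nlinarith
    refine hc.trans ?_
    rw [sub_smul, mul_smul (lam * lam) K, sub_le_iff_le_add]
    calc (2 * lam) • (1 : D) ≤ S + (lam * lam) • ∑ i, p i * star (p i) := by
          rwa [sub_add_eq_add_sub, sub_nonneg] at h0
      _ ≤ _ := add_le_add le_rfl hP'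
  have hS : IsSelfAdjoint S := by simp [S, IsSelfAdjoint, star_sum]
  have hspec : ∀ t ∈ spectrum ℝ S, lam ≤ t := (algebraMap_le_iff_le_spectrum hS).1 hle
  set r := cfc (fun t : ℝ => (Real.sqrt t)⁻¹) S
  have hr : star r = r := (cfc_predicate (fun t : ℝ => (Real.sqrt t)⁻¹) S).star_eq
  have hcont : ContinuousOn (fun t : ℝ => (Real.sqrt t)⁻¹) (spectrum ℝ S) :=
    Real.continuous_sqrt.continuousOn.inv₀ fun t ht =>
      (Real.sqrt_pos.2 (hlam.trans_le (hspec t ht))).ne'
  refine ⟨fun i => s i * r, ?_⟩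
  calc ∑ i, star (s i * r) * (star g * g) * (s i * r) = r * S * r := by
        simp [S, b, star_mul, hr, Finset.mul_sum, Finset.sum_mul, mul_assoc]
    _ = cfc (fun t : ℝ => (Real.sqrt t)⁻¹ * t * (Real.sqrt t)⁻¹) S := by
        rw [cfc_mul (fun t : ℝ => (Real.sqrt t)⁻¹ * t) (fun t : ℝ => (Real.sqrt t)⁻¹) S
          (hcont.mul continuousOn_id) hcont,
          cfc_mul (fun t : ℝ => (Real.sqrt t)⁻¹) (fun t : ℝ => t) S hcont continuousOn_id,
          cfc_id' ℝ S]
    _ = cfc (fun _ : ℝ => (1 : ℝ)) S := cfc_congr fun t ht => by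
        have ht0 : 0 < t := hlam.trans_le (hspec t ht)
        have := Real.sq_sqrt ht0.le
        have := (Real.sqrt_pos.2 ht0).ne'
        field_simp
        linarith
    _ = 1 := cfc_const_one ℝ S hS

/-! ### Products over finitely many copies -/

variable {κ : Type*} {π : κ → D →⋆ₐ[ℂ] F}

/-- The copies commute. -/
def Commuting (π : κ → D →⋆ₐ[ℂ] F) : Prop :=
  ∀ s t, s ≠ t → ∀ a b, Commute (π s a) (π t b)

/-- The product over `S` of the copies of `x`. -/
noncomputable def prod (hπ : Commuting π) (S : Finset κ) (x : D) : F :=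
  S.noncommProd (fun s => π s x) fun s _ t _ h => hπ s t h x x

omit [PartialOrder F] [StarOrderedRing F] [PartialOrder D] [StarOrderedRing D] in
theorem commute_prod (hπ : Commuting π) {S : Finset κ} {t : κ} (ht : t ∉ S) (a x : D) :
    Commute (π t a) (prod hπ S x) :=
  Finset.noncommProd_commute _ _ _ _ fun s hs => hπ t s (fun h => ht (h ▸ hs)) a x

omit [PartialOrder F] [StarOrderedRing F] [PartialOrder D] [StarOrderedRing D] in
theorem prod_eq_mul [DecidableEq κ] (hπ : Commuting π) {S : Finset κ} {t : κ} (ht : t ∈ S)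
    (x : D) : prod hπ S x = π t x * prod hπ (S.erase t) x :=
  (Finset.mul_noncommProd_erase S ht (fun s => π s x) fun s _ u _ h => hπ s u h x x).symm

omit [PartialOrder F] [StarOrderedRing F] [PartialOrder D] [StarOrderedRing D] in
theorem star_prod (hπ : Commuting π) (S : Finset κ) {x : D} (hx : IsSelfAdjoint x) :
    star (prod hπ S x) = prod hπ S x := by
  classical
  induction S using Finset.induction_on with
  | empty => exact star_one F
  | @insert t S ht ih =>
    have e : prod hπ (insert t S) x = π t x * prod hπ S x := by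
      rw [prod_eq_mul hπ (Finset.mem_insert_self t S), Finset.erase_insert ht]
    rw [e, star_mul, ← map_star, hx.star_eq, ih, (commute_prod hπ ht x x).eq]

omit [PartialOrder F] [StarOrderedRing F] [PartialOrder D] [StarOrderedRing D] in
theorem prod_mul (hπ : Commuting π) (S : Finset κ) (x y : D) :
    prod hπ S x * prod hπ S y = prod hπ S (x * y) := by
  simp only [prod, map_mul]
  exact (Finset.noncommProd_mul_distrib _ _
    (fun s _ t _ h => hπ s t h x x) (fun s _ t _ h => hπ s t h y y)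
    (fun s _ t _ h => hπ s t h y x)).symm

/-! ### The comparison -/

omit [PartialOrder D] [StarOrderedRing D] in
/-- Comparison for a prime number of pairs of copies that is large compared with `J` and `β`. -/
theorem exists_v {J q : ℕ} [Fact q.Prime] [Fintype κ] [DecidableEq κ] (e : ZMod q ⊕ ZMod q ≃ κ)
    {g P₀ : D} {y : Fin J → D} (hg : IsSelfAdjoint g) (hP : IsSelfAdjoint P₀) (hgP : g * P₀ = 0)
    (hy : ∑ j, star (y j) * (g * g) * y j = 1) {β : ℝ}
    (hβ : ∀ j j', ‖star (y j) * (g * g) * y j'‖ ≤ β) (hJ : J * J < q)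
    (hq : (J : ℝ) ^ 4 * β ^ 2 ≤ Real.sqrt q / 2) (hπ : Commuting π) :
    ∃ v : F, star v * v = prod hπ Finset.univ (P₀ * P₀) ∧
      ∀ z : F, (∀ (s t : κ) (x : F), s ≠ t → (∀ h, h * g = g → π s h * x = x) →
        (∀ h, h * g = g → π t h * x = x) →
        (∀ u, u ≠ s → u ≠ t → ∀ h, h * P₀ = 0 → π u h * x = 0) → z * x = x) → z * v = v := by
  set L : ZMod q → κ := fun l => e (Sum.inl l) with hL
  set R : ZMod q → κ := fun t => e (Sum.inr t) with hR
  have hLR : ∀ l t, L l ≠ R t := fun l t h => by simpa [hL, hR] using e.injective h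
  have hLL : ∀ l l', L l = L l' → l = l' := fun l l' h => by simpa [hL] using e.injective h
  have hRR : ∀ l l', R l = R l' → l = l' := fun l l' h => by simpa [hR] using e.injective h
  set c : Fin J × Fin J → ZMod q := fun p => ((p.1.val * J + p.2.val : ℕ) : ZMod q) with hc
  have hcinj : Function.Injective c := by
    rintro ⟨⟨j, hj⟩, ⟨m, hm⟩⟩ ⟨⟨j', hj'⟩, ⟨m', hm'⟩⟩ h
    have h' := congrArg ZMod.val h
    have hb : j * J + m < q := by nlinarith
    have hb' : j' * J + m' < q := by nlinarith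
    simp only [hc, ZMod.val_natCast, Nat.mod_eq_of_lt hb, Nat.mod_eq_of_lt hb'] at h'
    obtain rfl : j = j' := by
      rcases lt_trichotomy j j' with h1 | h1 | h1
      · nlinarith
      · exact h1
      · nlinarith
    obtain rfl : m = m' := by omega
    rfl
  set w : ZMod q → ZMod q → Fin J × Fin J → ℂ := fun l t p => ZMod.stdAddChar (c p * (l * t))
  set M : ZMod q → ZMod q → F := fun l t => ∑ p, w l t p • (π (L l) (y p.1) * π (R t) (y p.2))
  set G : ZMod q → ZMod q → F := fun l t => π (L l) g * π (R t) g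
  set P := prod hπ Finset.univ P₀ with hPdef
  set X : ZMod q → ZMod q → F := fun l t => (q : ℂ)⁻¹ • (G l t * M l t * P)
  have hGstar : ∀ l t, star (G l t) = G l t := fun l t => by
    simp only [G, star_mul, ← map_star, hg.star_eq]
    exact (hπ _ _ (hLR l t).symm g g).eq
  have hfixL : ∀ l t h, h * g = g → π (L l) h * X l t = X l t := fun l t h hh => by
    simp only [X, G, mul_smul_comm, ← mul_assoc, ← map_mul, hh]
  have hfixR : ∀ l t h, h * g = g → π (R t) h * X l t = X l t := fun l t h hh => by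
    simp only [X, G, mul_smul_comm, ← mul_assoc]
    rw [(hπ _ _ (hLR l t).symm h g).eq, mul_assoc (π (L l) g), ← map_mul, hh]
  have hkill : ∀ l t u, u ≠ L l → u ≠ R t → ∀ h, h * P₀ = 0 → π u h * X l t = 0 := by
    intro l t u hu1 hu2 h hh
    have hcomm : Commute (π u h) (G l t * M l t) :=
      ((hπ _ _ hu1 h g).mul_right (hπ _ _ hu2 h g)).mul_right
        (Commute.sum_right _ _ _ fun p _ =>
          ((hπ _ _ hu1 h _).mul_right (hπ _ _ hu2 h _)).smul_right _)
    simp only [X, mul_smul_comm]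
    rw [← mul_assoc, hcomm.eq, mul_assoc, hPdef, prod_eq_mul hπ (Finset.mem_univ u),
      ← mul_assoc (π u h), ← map_mul, hh, map_zero, zero_mul, mul_zero, smul_zero]
  have hcross : ∀ l t l' t', (l, t) ≠ (l', t') → star (X l t) * X l' t' = 0 := by
    intro l t l' t' hne
    obtain ⟨u, hu1, hu2, W, hW⟩ : ∃ u, u ≠ L l' ∧ u ≠ R t' ∧ ∃ W, X l t = π u g * W := by
      by_cases hl : l = l'
      · subst hl
        refine ⟨R t, (hLR l t).symm, fun h => hne (by rw [hRR _ _ h]), ?_⟩
        refine ⟨(q : ℂ)⁻¹ • (π (L l) g * M l t * P), ?_⟩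
        simp only [X, G, mul_smul_comm]
        rw [← mul_assoc, ← mul_assoc, (hπ _ _ (hLR l t) g g).eq]
      · refine ⟨L l, fun h => hl (hLL _ _ h), hLR l t', ?_⟩
        refine ⟨(q : ℂ)⁻¹ • (π (R t) g * M l t * P), ?_⟩
        simp only [X, G, mul_smul_comm, mul_assoc]
    rw [hW, star_mul, ← map_star, hg.star_eq, mul_assoc, hkill l' t' u hu1 hu2 g hgP, mul_zero]
  -- the squares of the pairs
  set b : Fin J → Fin J → D := fun j j' => star (y j) * (g * g) * y j'
  set Y : ZMod q → ZMod q → Fin J × Fin J → Fin J × Fin J → F := fun l t p p' =>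
    ZMod.stdAddChar ((c p' - c p) * (l * t)) • (π (L l) (b p.1 p'.1) * π (R t) (b p.2 p'.2))
  have hMM : ∀ l t, star (M l t) * (G l t * G l t) * M l t = ∑ p, ∑ p', Y l t p p' := by
    intro l t
    simp only [M, star_sum, Finset.sum_mul, Finset.mul_sum]
    rw [Finset.sum_comm]
    refine Finset.sum_congr rfl fun p _ => Finset.sum_congr rfl fun p' _ => ?_
    have hw : star (w l t p) * w l t p' = ZMod.stdAddChar ((c p' - c p) * (l * t)) := by
      change (starRingEnd ℂ) (ZMod.stdAddChar (c p * (l * t))) * _ = _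
      rw [← AddChar.map_neg_eq_conj, ← AddChar.map_add_eq_mul]
      ring_nf
    rw [star_smul, smul_mul_assoc, smul_mul_smul_comm, hw]
    simp only [Y, b, G]
    congr 1
    have hc' := fun a b => hπ _ _ (hLR l t).symm a b
    rw [star_mul, ← map_star, ← map_star]
    simp only [map_mul, mul_assoc]
    simp only [(hc' _ _).left_comm]
  have hX : ∀ l t, star (X l t) * X l t =
      ((q : ℂ)⁻¹ * (q : ℂ)⁻¹) • (P * (∑ p, ∑ p', Y l t p p') * P) := by
    intro l t
    simp only [X, star_smul, star_mul, hGstar, smul_mul_smul_comm, ← hMM l t, hPdef,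
      star_prod hπ _ hP]
    simp [mul_assoc]
  set a : F := ∑ l, ∑ t, X l t with ha
  set N : F := ((q : ℂ)⁻¹ * (q : ℂ)⁻¹) • ∑ l, ∑ t, ∑ p, ∑ p', Y l t p p' with hN
  have haa : star a * a = P * N * P := by
    calc star a * a = ∑ l, ∑ t, star (X l t) * X l t := by
          simp only [ha, star_sum, Finset.sum_mul]
          refine Finset.sum_congr rfl fun l _ => Finset.sum_congr rfl fun t _ => ?_
          simp only [Finset.mul_sum]
          rw [Finset.sum_eq_single l (fun l' _ hl => Finset.sum_eq_zero fun t' _ =>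
              hcross l t l' t' fun h => hl (Prod.mk.inj h).1.symm) (by simp),
            Finset.sum_eq_single t (fun t' _ ht =>
              hcross l t l t' fun h => ht (Prod.mk.inj h).2.symm) (by simp)]
      _ = _ := by simp only [hX, hN, Finset.smul_sum, Finset.mul_sum, Finset.sum_mul,
            mul_smul_comm, smul_mul_assoc]
  have hq0 : (0 : ℝ) < q := Nat.cast_pos.2 (Nat.Prime.pos Fact.out)
  have hb1 : ∀ p p', ‖∑ l, ∑ t, Y l t p p' - if p = p' then
      ∑ l : ZMod q, ∑ t : ZMod q, π (L l) (b p.1 p.1) * π (R t) (b p.2 p.2) else 0‖ ≤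
        (q : ℝ) * Real.sqrt q * β ^ 2 := by
    intro p p'
    by_cases h : p = p'
    · subst h
      simp [Y]
      positivity
    · rw [if_neg h, sub_zero]
      exact norm_sum_char_le (sub_ne_zero.2 fun h' => h (hcinj h').symm)
        (fun l => (NonUnitalStarAlgHom.norm_apply_le (π (L l)) _).trans (hβ _ _))
        (fun t => (NonUnitalStarAlgHom.norm_apply_le (π (R t)) _).trans (hβ _ _))
  have hdiag : ∑ p : Fin J × Fin J,
      ∑ l : ZMod q, ∑ t : ZMod q, π (L l) (b p.1 p.1) * π (R t) (b p.2 p.2) =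
        ((q : ℂ) * (q : ℂ)) • (1 : F) := by
    have h1 : ∀ l t : ZMod q,
        ∑ p : Fin J × Fin J, π (L l) (b p.1 p.1) * π (R t) (b p.2 p.2) = 1 := fun l t => by
      rw [Fintype.sum_prod_type]
      dsimp only
      rw [← Finset.sum_mul_sum, ← map_sum, ← map_sum]
      simp only [b, hy, map_one, mul_one]
    rw [Finset.sum_comm, Finset.sum_congr rfl fun l _ => Finset.sum_comm]
    simp only [h1, Finset.sum_const, Finset.card_univ, ZMod.card, ← Nat.cast_smul_eq_nsmul ℂ,
      smul_smul]
  have hN1 : ‖N - 1‖ ≤ 1 / 2 := by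
    have hqC : (q : ℂ) ≠ 0 := Nat.cast_ne_zero.2 (Nat.Prime.pos Fact.out).ne'
    have e1 : N - 1 = ((q : ℂ)⁻¹ * (q : ℂ)⁻¹) • ∑ p, ∑ p', (∑ l, ∑ t, Y l t p p' - if p = p' then
        ∑ l : ZMod q, ∑ t : ZMod q, π (L l) (b p.1 p.1) * π (R t) (b p.2 p.2) else 0) := by
      simp only [Finset.sum_sub_distrib, Finset.sum_ite_eq, Finset.mem_univ, if_true, hdiag,
        smul_sub, smul_smul]
      rw [show (q : ℂ)⁻¹ * (q : ℂ)⁻¹ * ((q : ℂ) * q) = 1 by field_simp, one_smul, hN]
      congr 2
      rw [Finset.sum_congr rfl fun l (_ : l ∈ Finset.univ) =>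
        (Finset.sum_comm : ∑ t, ∑ p, ∑ p', Y l t p p' = _), Finset.sum_comm]
      refine Finset.sum_congr rfl fun p _ => ?_
      rw [Finset.sum_congr rfl fun l (_ : l ∈ Finset.univ) =>
        (Finset.sum_comm : ∑ t, ∑ p', Y l t p p' = _), Finset.sum_comm]
    rw [e1, norm_smul, norm_mul, norm_inv, Complex.norm_natCast]
    calc _ ≤ (q : ℝ)⁻¹ * (q : ℝ)⁻¹ *
          ∑ _p : Fin J × Fin J, ∑ _p' : Fin J × Fin J, (q : ℝ) * Real.sqrt q * β ^ 2 := by
          gcongr
          refine (norm_sum_le _ _).trans (Finset.sum_le_sum fun p _ => ?_)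
          exact (norm_sum_le _ _).trans (Finset.sum_le_sum fun p' _ => hb1 p p')
      _ = (J : ℝ) ^ 4 * β ^ 2 * Real.sqrt q / q := by
          simp
          field_simp
      _ ≤ Real.sqrt q / 2 * Real.sqrt q / q := by gcongr
      _ = 1 / 2 := by
          rw [div_mul_eq_mul_div, Real.mul_self_sqrt hq0.le]
          field_simp
  have hNsa : IsSelfAdjoint N := by
    have h : N = ((q : ℂ)⁻¹ * (q : ℂ)⁻¹) • ∑ l, ∑ t, star (M l t) * (G l t * G l t) * M l t := by
      simp only [hMM, hN]
    rw [h, IsSelfAdjoint, star_smul, star_sum]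
    simp [star_sum, star_mul, hGstar, mul_assoc]
  have hN2 : algebraMap ℝ F (1 / 2) ≤ N := by
    have h1 := IsSelfAdjoint.neg_algebraMap_norm_le_self (a := N - 1) (hNsa.sub (.one F))
    have h2 : -(algebraMap ℝ F (1 / 2)) ≤ N - 1 :=
      (neg_le_neg (algebraMap_mono F hN1)).trans h1
    have h3 := add_le_add_right h2 1
    rw [add_sub_cancel, ← map_one (algebraMap ℝ F), ← sub_eq_add_neg, ← map_sub] at h3
    norm_num at h3 ⊢
    exact h3
  have hPP : P * P ≤ (2 : ℝ) • (star a * a) := by
    have hPs : star P = P := star_prod hπ _ hP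
    have h := star_left_conjugate_le_conjugate hN2 P
    rw [hPs, ← haa, Algebra.algebraMap_eq_smul_one, mul_smul_comm, mul_one, smul_mul_assoc] at h
    have := smul_le_smul_of_nonneg_left h (by norm_num : (0 : ℝ) ≤ 2)
    rwa [smul_smul, show (2 : ℝ) * (1 / 2) = 1 by norm_num, one_smul] at this
  obtain ⟨v, hv, hve⟩ := exists_star_mul_self_eq (star_prod hπ Finset.univ hP) zero_le_two hPP
  refine ⟨v, by rw [hv, prod_mul], fun z hz => hve z ?_⟩
  simp only [ha, Finset.mul_sum]
  exact Finset.sum_congr rfl fun l _ => Finset.sum_congr rfl fun t _ =>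
    hz _ _ _ (hLR l t) (hfixL l t) (hfixR l t) (hkill l t)

omit [PartialOrder D] [StarOrderedRing D] in
/-- Comparison: for suitable `n`, any `n` commuting copies give an exact `v`. -/
theorem exists_comparison {J : ℕ} {g P₀ : D} {y : Fin J → D} (hg : IsSelfAdjoint g)
    (hP : IsSelfAdjoint P₀) (hgP : g * P₀ = 0) (hy : ∑ j, star (y j) * (g * g) * y j = 1)
    (n₀ : ℕ) :
    ∃ n, n₀ ≤ n ∧ ∀ {F : Type*} [CStarAlgebra F] [PartialOrder F] [StarOrderedRing F]
      (π : Fin n → D →⋆ₐ[ℂ] F) (hπ : Commuting π),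
      ∃ v : F, star v * v = prod hπ Finset.univ (P₀ * P₀) ∧
        ∀ z : F, (∀ (s t : Fin n) (x : F), s ≠ t → (∀ h, h * g = g → π s h * x = x) →
          (∀ h, h * g = g → π t h * x = x) →
          (∀ u, u ≠ s → u ≠ t → ∀ h, h * P₀ = 0 → π u h * x = 0) → z * x = x) → z * v = v := by
  set β : ℝ := ∑ j, ∑ j', ‖star (y j) * (g * g) * y j'‖
  obtain ⟨q₁, hq₁⟩ := exists_nat_ge ((2 * ((J : ℝ) ^ 4 * β ^ 2)) ^ 2)
  obtain ⟨q, hq, hqp⟩ := Nat.exists_infinite_primes (n₀ + J * J + q₁ + 1)
  refine ⟨q + q, by omega, fun {F} _ _ _ π hπ => ?_⟩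
  have : Fact q.Prime := ⟨hqp⟩
  refine exists_v (q := q) (Fintype.equivFinOfCardEq (by simp)) hg hP hgP hy (β := β) (fun j j' => ?_)
    (by omega) ?_ hπ
  · refine le_trans ?_ (Finset.single_le_sum (fun i _ => Finset.sum_nonneg fun _ _ => norm_nonneg _)
      (Finset.mem_univ j))
    exact Finset.single_le_sum (f := fun i => ‖star (y j) * (g * g) * y i‖)
      (fun i _ => norm_nonneg _) (Finset.mem_univ j')
  · rw [le_div_iff₀ two_pos, mul_comm]
    refine Real.le_sqrt_of_sq_le (hq₁.trans ?_)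
    exact_mod_cast (by omega : q₁ ≤ q)

end Vale.Agent.P101.Comparison
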