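import Vale.Agent.P101.Absorb
import Vale.Agent.P101.Drop.Unique
import Vale.Agent.P101.Limit.Completion
import Vale.Agent.P101.Limit.JiangSu
import Vale.Agent.P101.Limit.Tensor

/-!
# P101: the tensor product of `A` with the Jiang-Su algebra and the absorption theorem

`C = A ⊗ Z` is the limit of the dimension drop algebras with coefficients in `A`. If all stages of
the Jiang-Su system map unitally into `F_ω(A)`, then `A` is isomorphic to `C`.
-/

set_option maxSynthPendingDepth 3

open Filter Topology
open scoped ComplexOrder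

noncomputable section

universe u

namespace Vale.Agent.P101.Completion

open JiangSu (p q conn)
open Drop (dropAlg tensor)

variable {P Q : ℕ} [NeZero P] [NeZero Q]
variable {A : Type u} [CStarAlgebra A] [PartialOrder A] [StarOrderedRing A]

omit [NeZero P] [NeZero Q] in
theorem tensor_add_left (a b : A) (z : dropAlg P Q ℂ) :
    tensor (a + b) z = tensor a z + tensor b z := by
  ext t i j
  simp [Drop.tensor_apply, smul_add]

omit [NeZero P] [NeZero Q] in
theorem tensor_add_right (a : A) (z w : dropAlg P Q ℂ) :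
    tensor a (z + w) = tensor a z + tensor a w := by
  ext t i j
  simp [Drop.tensor_apply, add_smul]

omit [NeZero P] [NeZero Q] in
theorem tensor_smul_right (c : ℂ) (a : A) (z : dropAlg P Q ℂ) :
    tensor a (c • z) = c • tensor a z := by
  ext t i j
  simp [Drop.tensor_apply, mul_smul]

omit [NeZero P] [NeZero Q] in
theorem tensor_zero_left (z : dropAlg P Q ℂ) : tensor (0 : A) z = 0 := by
  ext t i j
  simp [Drop.tensor_apply]

omit [NeZero P] [NeZero Q] in
theorem tensor_zero_right (a : A) : tensor a (0 : dropAlg P Q ℂ) = 0 := by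
  ext t i j
  simp [Drop.tensor_apply]

variable (P Q A) in
/-- `a ↦ a ⊗ 1`. -/
def embA : A →⋆ₐ[ℂ] dropAlg P Q A where
  toFun a := tensor a 1
  map_one' := Drop.tensor_one
  map_mul' a b := by rw [Drop.tensor_mul, one_mul]
  map_zero' := tensor_zero_left 1
  map_add' a b := tensor_add_left a b 1
  commutes' c := by
    rw [Algebra.algebraMap_eq_smul_one, Algebra.algebraMap_eq_smul_one, Drop.tensor_smul,
      Drop.tensor_one]
  map_star' a := by rw [Drop.tensor_star, star_one]

variable (P Q A) in
/-- `z ↦ 1 ⊗ z`. -/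
def embZ : dropAlg P Q ℂ →⋆ₐ[ℂ] dropAlg P Q A where
  toFun z := tensor 1 z
  map_one' := Drop.tensor_one
  map_mul' z w := by rw [Drop.tensor_mul, one_mul]
  map_zero' := tensor_zero_right 1
  map_add' z w := tensor_add_right 1 z w
  commutes' c := by
    rw [Algebra.algebraMap_eq_smul_one, Algebra.algebraMap_eq_smul_one, tensor_smul_right,
      Drop.tensor_one]
  map_star' z := by rw [Drop.tensor_star, star_one]

theorem embA_apply (a : A) : embA P Q A a = tensor a 1 := rfl
theorem embZ_apply (z : dropAlg P Q ℂ) : embZ P Q A z = tensor 1 z := rfl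

theorem embA_mul_embZ (a : A) (z : dropAlg P Q ℂ) :
    embA P Q A a * embZ P Q A z = tensor a z := by
  rw [embA_apply, embZ_apply, Drop.tensor_mul, mul_one, one_mul]

theorem commute_emb (a : A) (z : dropAlg P Q ℂ) : Commute (embA P Q A a) (embZ P Q A z) := by
  rw [commute_iff_eq, embA_apply, embZ_apply, Drop.tensor_mul, Drop.tensor_mul, mul_one, one_mul,
    one_mul, mul_one]

omit [NeZero P] [NeZero Q] in
theorem tensor_eq_zero {a : A} {z : dropAlg P Q ℂ} (h : tensor a z = 0) : a = 0 ∨ z = 0 := by
  refine or_iff_not_imp_left.2 fun ha => ?_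
  ext t i j
  have e := congrArg (fun f : dropAlg P Q A => (f : C(unitInterval, Drop.Mat P Q A)) t i j) h
  exact (smul_eq_zero.1 e).resolve_right ha

variable (A) in
/-- The connecting maps with coefficients in `A`. -/
def connA (j : ℕ) : dropAlg (p j) (q j) A →⋆ₐ[ℂ] dropAlg (p (j + 1)) (q (j + 1)) A :=
  Drop.lift (embA _ _ A) ((embZ (p (j + 1)) (q (j + 1)) A).comp (conn j))
    fun a z => commute_emb a (conn j z)

theorem connA_tensor (j : ℕ) (a : A) (z : dropAlg (p j) (q j) ℂ) :
    connA A j (tensor a z) = tensor a (conn j z) :=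
  (Drop.lift_tensor _ _ _ a z).trans (embA_mul_embZ a (conn j z))

theorem norm_connA (j : ℕ) (f : dropAlg (p j) (q j) A) : ‖connA A j f‖ = ‖f‖ :=
  Drop.norm_lift _ _ _ (fun a z h => by
    rw [StarAlgHom.comp_apply, embA_mul_embZ] at h
    exact (tensor_eq_zero h).imp id fun hz => JiangSu.conn_injective j (by rw [hz, map_zero])) f

variable (A) in
/-- The system of dimension drop algebras with coefficients in `A`. -/
def sysA : Limit.Sys.{u} where
  D j := dropAlg (p j) (q j) A
  conn := connA A
  injective j := (AddMonoidHomClass.isometry_of_norm (connA A j) (norm_connA j)).injective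

variable (A) in
/-- `A ⊗ Z`. -/
abbrev Tens : Type u := (sysA A).Z

variable (A) in
/-- The stages inside `A ⊗ Z`. -/
def incA (j : ℕ) : dropAlg (p j) (q j) A →⋆ₐ[ℂ] Tens A := (sysA A).incl j

theorem incA_conn (j : ℕ) (f : dropAlg (p j) (q j) A) :
    incA A (j + 1) (connA A j f) = incA A j f :=
  (sysA A).incl_conn j f

variable (A) in
/-- The copy of `A`. -/
def alpha : A →⋆ₐ[ℂ] Tens A := (incA A 0).comp (embA (p 0) (q 0) A)

variable (A) in
/-- The copies of the stages. -/
def beta (j : ℕ) : dropAlg (p j) (q j) ℂ →⋆ₐ[ℂ] Tens A := (incA A j).comp (embZ (p j) (q j) A)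

theorem beta_conn (j : ℕ) (z : dropAlg (p j) (q j) ℂ) :
    beta A (j + 1) (conn j z) = beta A j z :=
  (congrArg (incA A (j + 1)) (connA_tensor j (1 : A) z).symm).trans (incA_conn j _)

theorem alpha_eq (a : A) : ∀ j, alpha A a = incA A j (tensor a 1)
  | 0 => rfl
  | j + 1 => by
    rw [alpha_eq a j, ← incA_conn j, connA_tensor, map_one]

theorem alpha_mul_beta (a : A) (j : ℕ) (z : dropAlg (p j) (q j) ℂ) :
    alpha A a * beta A j z = incA A j (tensor a z) := by
  rw [alpha_eq a j, beta, StarAlgHom.comp_apply, embZ_apply, ← map_mul, Drop.tensor_mul, mul_one,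
    one_mul]

theorem commute_alpha_beta (a : A) (j : ℕ) (z : dropAlg (p j) (q j) ℂ) :
    Commute (alpha A a) (beta A j z) := by
  rw [alpha_eq a j, beta, StarAlgHom.comp_apply]
  exact (commute_emb a z).map (incA A j)

theorem norm_alpha (a : A) : ‖alpha A a‖ = ‖a‖ := by
  have hi : Function.Injective (alpha A) := fun x y h => by
    have h' : tensor x (1 : dropAlg (p 0) (q 0) ℂ) = tensor y 1 := (sysA A).incl_injective 0 h
    have e := congrArg (fun f : dropAlg (p 0) (q 0) A =>
      (f : C(unitInterval, Drop.Mat (p 0) (q 0) A)) 0 (0, 0) (0, 0)) h'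
    simpa [Drop.tensor_apply, CStarMatrix.one_apply] using e
  exact NonUnitalStarAlgHom.norm_map (alpha A) hi a

theorem dense_stageSpan :
    Dense ((⨆ j, Absorb.stageSpan (alpha A) (beta A) j : Submodule ℂ (Tens A)) : Set (Tens A)) := by
  have hsub : ∀ j f, incA A j f ∈ closure
      ((⨆ j, Absorb.stageSpan (alpha A) (beta A) j : Submodule ℂ (Tens A)) : Set (Tens A)) := by
    intro j f
    refine mem_closure_of_tendsto (((Drop.continuous_hom (incA A j)).tendsto f).comp
      (Drop.tendsto_bern f)) (Eventually.of_forall fun n => ?_)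
    simp only [Function.comp_apply, Drop.bern, map_sum]
    refine Submodule.sum_mem _ fun k _ => Submodule.sum_mem _ fun i _ =>
      Submodule.sum_mem _ fun l _ => Submodule.mem_iSup_of_mem j (Submodule.subset_span ?_)
    exact ⟨(_, _), alpha_mul_beta _ j _⟩
  intro c
  have h := (sysA A).dense_iUnion_range c
  rw [← closure_closure]
  exact closure_mono (Set.iUnion_subset fun j => Set.range_subset_iff.2 (hsub j)) h

variable (A) in
/-- The copy of the Jiang-Su algebra. -/
def betaZ : Limit.JS →⋆ₐ[ℂ] Tens A := Limit.jsSys.toSys.lift (beta A) beta_conn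

theorem betaZ_inc (j : ℕ) (z : dropAlg (p j) (q j) ℂ) :
    betaZ A (Limit.jsSys.inc j z) = beta A j z :=
  Limit.jsSys.toSys.lift_incl (beta A) beta_conn j z

theorem commute_alpha_betaZ (a : A) (z : Limit.JS) : Commute (alpha A a) (betaZ A z) := by
  have hc : IsClosed {w : Limit.JS | alpha A a * betaZ A w = betaZ A w * alpha A a} :=
    isClosed_eq (continuous_const.mul (Drop.continuous_hom _))
      ((Drop.continuous_hom _).mul continuous_const)
  refine hc.closure_subset_iff.2 (Set.iUnion_subset fun j => ?_)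
    (Limit.jsSys.toSys.dense_iUnion_range z)
  rintro _ ⟨w, rfl⟩
  change alpha A a * betaZ A (Limit.jsSys.toSys.incl j w) =
    betaZ A (Limit.jsSys.toSys.incl j w) * alpha A a
  rw [show betaZ A (Limit.jsSys.toSys.incl j w) = beta A j w from betaZ_inc j w]
  exact (commute_alpha_beta a j w).eq

theorem stageSpan_le (j : ℕ) :
    Absorb.stageSpan (alpha A) (beta A) j ≤ Submodule.span ℂ
      (Set.range fun x : A × Limit.JS => alpha A x.1 * betaZ A x.2) := by
  refine Submodule.span_mono ?_
  rintro _ ⟨⟨a, z⟩, rfl⟩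
  exact ⟨(a, Limit.jsSys.inc j z), by simp only [betaZ_inc]⟩

theorem dense_span_range :
    Dense (Submodule.span ℂ (Set.range fun x : A × Limit.JS => alpha A x.1 * betaZ A x.2) :
      Set (Tens A)) :=
  dense_stageSpan.mono (SetLike.coe_subset_coe.2 (iSup_le stageSpan_le))

instance [TopologicalSpace.SeparableSpace A] : TopologicalSpace.SeparableSpace (Tens A) := by
  refine TopologicalSpace.isSeparable_univ_iff.1 ?_
  rw [← dense_span_range.closure_eq]
  exact ((TopologicalSpace.isSeparable_range (((Drop.continuous_hom (alpha A)).comp continuous_fst).mul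
    ((Drop.continuous_hom (betaZ A)).comp continuous_snd))).span).closure

theorem isTensor : IsTensor (alpha A) (betaZ A) := by
  refine ⟨commute_alpha_betaZ, Limit.tensor_injective commute_alpha_betaZ
    (fun x y h => ?_), ?_⟩
  · rw [← sub_eq_zero, ← norm_eq_zero, ← norm_alpha, map_sub, h, sub_self, norm_zero]
  · refine dense_span_range.mono ?_
    have h : Submodule.span ℂ (Set.range fun x : A × Limit.JS => alpha A x.1 * betaZ A x.2) ≤
        Subalgebra.toSubmodule (StarAlgebra.adjoin ℂ
          (Set.range (alpha A) ∪ Set.range (betaZ A))).toSubalgebra := by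
      refine Submodule.span_le.2 ?_
      rintro _ ⟨⟨a, z⟩, rfl⟩
      show alpha A a * betaZ A z ∈
        StarAlgebra.adjoin ℂ (Set.range (alpha A) ∪ Set.range (betaZ A))
      exact mul_mem (StarAlgebra.subset_adjoin ℂ _ (Or.inl ⟨a, rfl⟩))
        (StarAlgebra.subset_adjoin ℂ _ (Or.inr ⟨z, rfl⟩))
    exact h

end Completion


/-- **Absorption.** If every stage of the Jiang-Su system maps unitally into `F_ω(A)`, then `A`
is `Z`-stable. -/
theorem isZStable_of_homs {A : Type u} [CStarAlgebra A] [TopologicalSpace.SeparableSpace A]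
    {ω : Ultrafilter ℕ}
    (φ : ∀ j, Nonempty (Drop.dropAlg (JiangSu.p j) (JiangSu.q j) ℂ →⋆ₐ[ℂ] FO A ω)) :
    IsZStable A Limit.JS := by
  let _ := CStarAlgebra.spectralOrder A
  have _ := CStarAlgebra.spectralOrderedRing A
  obtain ⟨e⟩ := exists_equiv_of_canIntertwine (Completion.alpha A) Completion.norm_alpha
    (Absorb.canIntertwine_of_homs (Completion.alpha A) (Completion.beta A)
      Completion.commute_alpha_beta Completion.beta_conn Completion.dense_stageSpan φ)
  obtain ⟨hc, hi, hd⟩ := Completion.isTensor (A := A)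
  set η : Completion.Tens A →⋆ₐ[ℂ] A := (e.symm : Completion.Tens A →⋆ₐ[ℂ] A) with hη
  have hη_apply : ∀ x, η x = e.symm x := fun _ => rfl
  refine ⟨η.comp (Completion.alpha A), η.comp (Completion.betaZ A),
    fun a z => (hc a z).map η, fun n a z hz h => hi n a z hz ?_, ?_⟩
  · have h' : η (∑ i, Completion.alpha A (a i) * Completion.betaZ A (z i)) = η 0 := by
      simpa using h
    exact e.symm.injective h' 
  · have hsurj : Function.Surjective η := e.symm.surjective
    refine (hsurj.denseRange.dense_image (Drop.continuous_hom η) hd).mono ?_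
    rintro _ ⟨x, hx, rfl⟩
    have hmap : (StarAlgebra.adjoin ℂ (Set.range (Completion.alpha A) ∪
        Set.range (Completion.betaZ A))).map η = StarAlgebra.adjoin ℂ
          (η '' (Set.range (Completion.alpha A) ∪ Set.range (Completion.betaZ A))) :=
      StarAlgHom.map_adjoin η _
    rw [Set.image_union, ← Set.range_comp, ← Set.range_comp] at hmap
    exact SetLike.coe_subset_coe.2 hmap.le ⟨x, hx, rfl⟩

end Vale.Agent.P101
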