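import Vale.Agent.P101.Basic

/-!
# P101: copies of finitely generated subalgebras in commutants of finite sets
-/

namespace Vale.Agent.P101

variable {F : Type*} [CStarAlgebra F]

/-- The closed unital star subalgebra generated by a set. -/
abbrev cs (G : Set F) : StarSubalgebra ℂ F :=
  (StarAlgebra.adjoin ℂ G).topologicalClosure

noncomputable instance instCStarAlgebraCs (G : Set F) : CStarAlgebra (cs G) :=
  StarSubalgebra.cstarAlgebra _ (h_closed := StarSubalgebra.isClosed_topologicalClosure _)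

theorem subset_cs (G : Set F) : G ⊆ cs G :=
  (StarAlgebra.subset_adjoin ℂ G).trans subset_closure

/-- Every finitely generated subalgebra has a copy commuting with any given finite set. -/
def Copyable (F : Type*) [CStarAlgebra F] : Prop :=
  ∀ G S : Set F, G.Finite → S.Finite →
    ∃ φ : cs G →⋆ₐ[ℂ] F, ∀ (x : cs G), ∀ s ∈ S, Commute (φ x) s

theorem commute_cs {G : Set F} {y : F} (h : ∀ g ∈ G, Commute y g)
    (h' : ∀ g ∈ G, Commute y (star g)) {x : F} (hx : x ∈ cs G) : Commute y x := by
  have hle : cs G ≤ StarSubalgebra.centralizer ℂ ({y} : Set F) := by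
    refine StarSubalgebra.topologicalClosure_minimal (StarAlgebra.adjoin_le ?_) ?_
    · intro g hg
      simp only [StarSubalgebra.coe_centralizer, Set.mem_centralizer_iff]
      rintro m (rfl | hm)
      · exact (h g hg).eq
      · rw [Set.mem_star, Set.mem_singleton_iff] at hm
        rw [← star_star m, hm]
        simpa using (congr_arg star (h' g hg).eq).symm
    · exact Set.isClosed_centralizer _
  exact (StarSubalgebra.mem_centralizer_iff ℂ).1 (hle hx) y rfl |>.1

theorem commute_map_cs {G : Set F} (φ : cs G →⋆ₐ[ℂ] F) {y : F}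
    (h : ∀ g (hg : g ∈ G), Commute y (φ ⟨g, subset_cs G hg⟩))
    (h' : ∀ g (hg : g ∈ G), Commute y (star (φ ⟨g, subset_cs G hg⟩))) (x : cs G) :
    Commute y (φ x) := by
  have hφ : Continuous φ :=
    AddMonoidHomClass.continuous_of_bound φ 1 fun z => by
      simpa using NonUnitalStarAlgHom.norm_apply_le φ z
  have hC : IsClosed {z : cs G | Commute y (φ z)} :=
    isClosed_eq (continuous_const.mul hφ) (hφ.mul continuous_const)
  let T : StarSubalgebra ℂ (cs G) := (StarSubalgebra.centralizer ℂ ({y} : Set F)).comap φ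
  have hT : ∀ z ∈ T, Commute y (φ z) := fun z hz =>
    ((StarSubalgebra.mem_centralizer_iff ℂ).1 hz y rfl).1
  have hadj : ∀ z (hz : z ∈ StarAlgebra.adjoin ℂ G),
      (⟨z, subset_closure hz⟩ : cs G) ∈ T := by
    intro z hz
    induction hz using StarAlgebra.adjoin_induction with
    | mem g hg =>
      show φ _ ∈ StarSubalgebra.centralizer ℂ ({y} : Set F)
      refine (StarSubalgebra.mem_centralizer_iff ℂ).2 fun g' hg' => ?_
      rw [Set.mem_singleton_iff] at hg'
      subst hg'
      refine ⟨(h g hg).eq, ?_⟩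
      simpa using (congr_arg star (h' g hg).eq).symm
    | algebraMap r => exact algebraMap_mem T r
    | add a b _ _ ha hb => exact add_mem ha hb
    | mul a b _ _ ha hb => exact mul_mem ha hb
    | star a _ ha => exact star_mem ha
  have hd : Dense {z : cs G | (z : F) ∈ StarAlgebra.adjoin ℂ G} := by
    rw [dense_iff_inter_open]
    rintro U hU ⟨z, hz⟩
    obtain ⟨V, hV, rfl⟩ := isOpen_induced_iff.1 hU
    obtain ⟨w, hwV, hw⟩ := mem_closure_iff.1 z.2 V hV hz
    exact ⟨⟨w, subset_closure hw⟩, hwV, hw⟩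
  exact closure_minimal (fun z hz => hT z (hadj _ hz)) hC (hd x)

/-- Any number of pairwise commuting copies, commuting with a given finite set. -/
theorem Copyable.copies (hF : Copyable F) {G S : Set F} (hG : G.Finite) (hS : S.Finite) :
    ∀ N : ℕ, ∃ φ : Fin N → (cs G →⋆ₐ[ℂ] F), (∀ i x, ∀ s ∈ S, Commute (φ i x) s) ∧
      ∀ i j, i ≠ j → ∀ x y, Commute (φ i x) (φ j y) := by
  intro N
  induction N with
  | zero => exact ⟨finZeroElim, fun i => i.elim0, fun i => i.elim0⟩
  | succ N ih =>
    obtain ⟨φ, hφS, hφ⟩ := ih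
    let G' : Set F := ⋃ i, (fun g : G => φ i ⟨g, subset_cs G g.2⟩) '' Set.univ
    have : Finite G := hG
    have hG' : G'.Finite := Set.finite_iUnion fun i => Set.finite_univ.image _
    obtain ⟨ψ, hψ⟩ := hF G (S ∪ (G' ∪ star '' G')) hG (hS.union (hG'.union (hG'.image _)))
    have hψφ : ∀ i x y, Commute (ψ x) (φ i y) := fun i x =>
      commute_map_cs (φ i) (fun g hg => hψ x _ (.inr (.inl (Set.mem_iUnion.2 ⟨i, ⟨g, hg⟩, trivial, rfl⟩))))
        (fun g hg => hψ x _ (.inr (.inr ⟨_, Set.mem_iUnion.2 ⟨i, ⟨g, hg⟩, trivial, rfl⟩, rfl⟩)))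
    refine ⟨Fin.cons ψ φ, fun i => ?_, fun i j => ?_⟩
    · induction i using Fin.cases with
      | zero => exact fun x s hs => hψ x s (.inl hs)
      | succ i => simpa using hφS i
    · induction i using Fin.cases with
      | zero =>
        induction j using Fin.cases with
        | zero => simp
        | succ j => intro _ x y; simpa using hψφ j x y
      | succ i =>
        induction j using Fin.cases with
        | zero => intro _ x y; simpa using (hψφ i y x).symm
        | succ j => intro hij x y; simpa using hφ i j (fun h => hij (by rw [h])) x y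

/-- Fullness is witnessed inside a finitely generated subalgebra. -/
theorem Id.witness {X : Set F} {y : F} (h : Id X y) :
    ∃ G : Set F, G.Finite ∧ ∀ D : StarSubalgebra ℂ F, G ⊆ D →
      ∃ hy : y ∈ D, Id {d : D | (d : F) ∈ X} ⟨y, hy⟩ := by
  induction h with
  | gen p x q hx =>
    refine ⟨{p, x, q}, by simp, fun D hD => ?_⟩
    have hp : p ∈ D := hD (by simp)
    have hx' : x ∈ D := hD (by simp)
    have hq : q ∈ D := hD (by simp)
    exact ⟨mul_mem (mul_mem hp hx') hq, Id.gen (⟨p, hp⟩ : D) ⟨x, hx'⟩ ⟨q, hq⟩ hx⟩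
  | zero => exact ⟨∅, Set.finite_empty, fun D _ => ⟨zero_mem D, Id.zero⟩⟩
  | add _ _ ha hb =>
    obtain ⟨G₁, hf₁, h₁⟩ := ha
    obtain ⟨G₂, hf₂, h₂⟩ := hb
    refine ⟨G₁ ∪ G₂, hf₁.union hf₂, fun D hD => ?_⟩
    obtain ⟨m₁, i₁⟩ := h₁ D (Set.subset_union_left.trans hD)
    obtain ⟨m₂, i₂⟩ := h₂ D (Set.subset_union_right.trans hD)
    exact ⟨add_mem m₁ m₂, i₁.add i₂⟩

/-- A full family stays full in every copy. -/
theorem Id.witness_one {X : Set F} (h : Id X 1) :
    ∃ G : Set F, G.Finite ∧ ∀ G' : Set F, G ⊆ G' → Id {d : cs G' | (d : F) ∈ X} 1 := by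
  obtain ⟨G, hG, hD⟩ := h.witness
  exact ⟨G, hG, fun G' hG' => (hD (cs G') (hG'.trans (subset_cs G'))).2⟩

theorem map_cfc_cs {G : Set F} (φ : cs G →⋆ₐ[ℂ] F) (f : ℝ → ℝ) (hf : Continuous f) (a : cs G)
    (ha : IsSelfAdjoint a) : φ (cfc f a) = cfc f (φ a) :=
  StarAlgHomClass.map_cfc φ f a hf.continuousOn
    (AddMonoidHomClass.continuous_of_bound φ 1 fun z => by
      simpa using NonUnitalStarAlgHom.norm_apply_le φ z) ha (ha.map φ)

theorem coe_cfc_cs {G : Set F} (f : ℝ → ℝ) (hf : Continuous f) (a : cs G)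
    (ha : IsSelfAdjoint a) : ((cfc f a : cs G) : F) = cfc f (a : F) :=
  map_cfc_cs (cs G).subtype f hf a ha

end Vale.Agent.P101
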