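import Mathlib
import Vale.Agent.P101.Drop.Defs

/- Tensor decompositions of C⋆-algebras and the properties characterising the Jiang-Su algebra. -/

open scoped ComplexOrder

namespace Vale.Agent.P101

/-- A tensor decomposition of `B`: commuting unital copies of `A` and `Z` which generate `B` as a
C⋆-algebra and induce an injective map on the algebraic tensor product. -/
def IsTensor {A Z B : Type*} [CStarAlgebra A] [CStarAlgebra Z] [CStarAlgebra B]
    (α : A →⋆ₐ[ℂ] B) (β : Z →⋆ₐ[ℂ] B) : Prop :=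
  (∀ a z, Commute (α a) (β z)) ∧
    (∀ (n : ℕ) (a : Fin n → A) (z : Fin n → Z), LinearIndependent ℂ z →
      ∑ i, α (a i) * β (z i) = 0 → ∀ i, a i = 0) ∧
    Dense (StarAlgebra.adjoin ℂ (Set.range α ∪ Set.range β) : Set B)

/-- `A ≅ A ⊗ Z`: `A` itself is a C⋆-completion of the algebraic tensor product of `A` and `Z`. -/
def IsZStable (A Z : Type*) [CStarAlgebra A] [CStarAlgebra Z] : Prop :=
  ∃ (α : A →⋆ₐ[ℂ] A) (β : Z →⋆ₐ[ℂ] A), IsTensor α β

/-- The defining properties of the Jiang-Su algebra: a simple inductive limit of prime dimension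
drop algebras with exactly one tracial state. -/
def IsJiangSu (Z : Type) [CStarAlgebra Z] : Prop :=
  (∃ (p q : ℕ → ℕ) (ψ : ∀ j, Drop.dropAlg (p j) (q j) ℂ →⋆ₐ[ℂ] Z),
      (∀ j, 2 ≤ p j ∧ 2 ≤ q j ∧ (p j).Coprime (q j) ∧ Function.Injective (ψ j) ∧
        Set.range (ψ j) ⊆ Set.range (ψ (j + 1))) ∧
      Dense (⋃ j, Set.range (ψ j))) ∧
    IsSimpleRing Z ∧
    ∃! τ : Z →L[ℂ] ℂ, τ 1 = 1 ∧ (∀ z, 0 ≤ τ (star z * z)) ∧ ∀ y z, τ (y * z) = τ (z * y)

end Vale.Agent.P101
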