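import Vale.Agent.P101.Basic
import Mathlib.Analysis.SpecialFunctions.ContinuousFunctionalCalculus.Rpow.Basic

/-!
# P101: exact polar parts and a Cauchy-Schwarz bound
-/

namespace Vale.Agent.P101

open Filter Topology

variable {F : Type*} [CStarAlgebra F] [PartialOrder F] [StarOrderedRing F]

omit [PartialOrder F] [StarOrderedRing F] in
theorem cfc_mul_self_mul {a : F} (ha : IsSelfAdjoint a) (f : ℝ → ℝ) (hf : Continuous f) :
    cfc f a * a * cfc f a = cfc (fun t => f t * t * f t) a := by
  conv_lhs => enter [1, 2]; rw [← cfc_id' ℝ a]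
  rw [← cfc_mul f (fun t => t) a hf.continuousOn (continuousOn_id' _),
    ← cfc_mul (fun t => f t * t) f a (hf.mul continuous_id').continuousOn hf.continuousOn]

/-- Cauchy-Schwarz for finite sums of products. -/
theorem norm_sum_mul_le {ι : Type*} (s : Finset ι) (B C : ι → F) {b c : ℝ} (hb : 0 < b)
    (hB : ‖∑ l ∈ s, B l * star (B l)‖ ≤ b) (hC : ‖∑ l ∈ s, star (C l) * C l‖ ≤ c) :
    ‖∑ l ∈ s, B l * C l‖ ^ 2 ≤ b * c := by
  rcases subsingleton_or_nontrivial F with _ | _
  · rw [Subsingleton.elim (∑ l ∈ s, B l * C l) 0, norm_zero]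
    simpa using mul_nonneg hb.le ((norm_nonneg _).trans hC)
  set T := ∑ l ∈ s, B l * C l
  set h := star T * T
  have hBle : ∑ l ∈ s, B l * star (B l) ≤ algebraMap ℝ F b :=
    (IsSelfAdjoint.le_algebraMap_norm_self (isSelfAdjoint_sum _ fun l _ => .mul_star_self _)).trans
      (algebraMap_mono F hB)
  have key : ∀ x y : F, star x * y + star y * x ≤ b • (star x * x) + b⁻¹ • (star y * y) := by
    intro x y
    have h0 := star_mul_self_nonneg (b • x - y)
    have h1 : 0 ≤ b⁻¹ • (star (b • x - y) * (b • x - y)) := smul_nonneg (inv_nonneg.2 hb.le) h0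
    rw [← sub_nonneg]
    refine le_of_le_of_eq h1 ?_
    simp only [star_sub, star_smul, star_trivial, sub_mul, mul_sub, smul_mul_assoc, mul_smul_comm,
      smul_sub, smul_smul, inv_mul_cancel₀ hb.ne', ← mul_assoc, one_mul, one_smul]
    abel
  have e1 : h = ∑ l ∈ s, star (C l) * (star (B l) * T) := by
    simp only [h]
    nth_rw 1 [show star T = ∑ l ∈ s, star (C l) * star (B l) by simp [T, star_sum]]
    simp [Finset.sum_mul, mul_assoc]
  have e2 : h + h = ∑ l ∈ s, (star (C l) * (star (B l) * T) + star (star (B l) * T) * C l) := by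
    rw [Finset.sum_add_distrib, ← e1]
    congr 1
    conv_lhs => rw [show h = star h from (IsSelfAdjoint.star_mul_self T).star_eq.symm, e1]
    simp [star_sum]
  have e3 : h + h ≤ b • (∑ l ∈ s, star (C l) * C l) + h := by
    calc h + h ≤ ∑ l ∈ s, (b • (star (C l) * C l)
          + b⁻¹ • (star (star (B l) * T) * (star (B l) * T))) := by
          rw [e2]; exact Finset.sum_le_sum fun l _ => key _ _
      _ = b • (∑ l ∈ s, star (C l) * C l)
          + b⁻¹ • (star T * (∑ l ∈ s, B l * star (B l)) * T) := by
          simp [Finset.sum_add_distrib, Finset.smul_sum, Finset.mul_sum, Finset.sum_mul, mul_assoc]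
      _ ≤ b • (∑ l ∈ s, star (C l) * C l) + b⁻¹ • (star T * algebraMap ℝ F b * T) := by
          gcongr
          exact star_left_conjugate_le_conjugate hBle T
      _ = _ := by
          simp [h, Algebra.algebraMap_eq_smul_one, smul_smul, hb.ne']
  have e4 : ‖h‖ ≤ ‖b • ∑ l ∈ s, star (C l) * C l‖ :=
    CStarAlgebra.norm_le_norm_of_nonneg_of_le (star_mul_self_nonneg T) (le_of_add_le_add_right e3)
  rw [CStarRing.norm_star_mul_self, norm_smul, Real.norm_eq_abs, abs_of_pos hb] at e4
  rw [sq]
  exact e4.trans (mul_le_mul_of_nonneg_left hC hb.le)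

theorem norm_mul_sq_le {a d g : F} (hd : IsSelfAdjoint d) (hg : IsSelfAdjoint g) {c : ℝ}
    (h : d * d ≤ c • a) : ‖g * d‖ ^ 2 ≤ |c| * ‖g * a * g‖ := by
  have h1 : g * (d * d) * g ≤ c • (g * a * g) := by
    refine (hg.conjugate_le_conjugate h).trans_eq ?_
    simp
  have h0 : (g * d) * star (g * d) = g * (d * d) * g := by
    simp [star_mul, hd.star_eq, hg.star_eq, mul_assoc]
  calc ‖g * d‖ ^ 2 = ‖(g * d) * star (g * d)‖ := by rw [CStarRing.norm_self_mul_star, sq]
    _ ≤ ‖c • (g * a * g)‖ := by
        refine CStarAlgebra.norm_le_norm_of_nonneg_of_le (mul_star_self_nonneg _) ?_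
        rw [h0]; exact h1
    _ = _ := by rw [norm_smul, Real.norm_eq_abs]

/-- Douglas: an exact element with prescribed modulus in the left ideal of `x`. -/
theorem exists_of_le {x d : F} (hd : IsSelfAdjoint d) {c : ℝ} (h : d * d ≤ c • (star x * x)) :
    ∃ v : F, star v * v = d * d ∧ ∀ P, P * x = x → P * v = v := by
  set a := star x * x
  have ha : IsSelfAdjoint a := .star_mul_self x
  have hspec : ∀ t ∈ spectrum ℝ a, 0 ≤ t := fun t ht =>
    spectrum_nonneg_of_nonneg (star_mul_self_nonneg x) ht
  let δ : ℕ → ℝ := fun n => 1 / ((n : ℝ) + 1)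
  have hδ : ∀ n, 0 < δ n := fun n => by positivity
  let f : ℕ → ℝ → ℝ := fun n t => 1 / Real.sqrt (max t 0 + δ n * δ n)
  have hfc : ∀ n, Continuous (f n) := fun n =>
    continuous_const.div (by fun_prop) fun t => (Real.sqrt_pos.2
      (add_pos_of_nonneg_of_pos (le_max_right t 0) (mul_pos (hδ n) (hδ n)))).ne'
  let y : ℕ → F := fun n => x * cfc (f n) a * d
  have hnear : ∀ n t, 0 ≤ t → |t * f n t - Real.sqrt t| ≤ δ n := by
    intro n t ht
    simp only [f, max_eq_left ht]
    have hp : 0 < t + δ n * δ n := by have := hδ n; positivity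
    set r := Real.sqrt (t + δ n * δ n)
    set s := Real.sqrt t
    have hr : r * r = t + δ n * δ n := Real.mul_self_sqrt hp.le
    have hs : s * s = t := Real.mul_self_sqrt ht
    have hr0 : 0 < r := Real.sqrt_pos.2 hp
    have hs0 : 0 ≤ s := Real.sqrt_nonneg t
    have hsr : s ≤ r := Real.sqrt_le_sqrt (by nlinarith [hδ n])
    have hrd : r ≤ s + δ n := by nlinarith [hδ n, mul_nonneg hs0 (hδ n).le]
    rw [show t * (1 / r) - s = -(s * (r - s) / r) by field_simp; linear_combination -hs,
      abs_neg, abs_of_nonneg (div_nonneg (mul_nonneg hs0 (by linarith)) hr0.le), div_le_iff₀ hr0]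
    nlinarith [mul_le_mul hsr (show r - s ≤ δ n by linarith) (by linarith) hr0.le]
  have hdiff : ∀ n m, ‖y n - y m‖ ≤ Real.sqrt |c| * (δ n + δ m) := by
    intro n m
    let g : ℝ → ℝ := fun t => Real.sqrt t * (f n t - f m t)
    have hgc : Continuous g := Real.continuous_sqrt.mul ((hfc n).sub (hfc m))
    have e : star (y n - y m) * (y n - y m) = star (cfc g a * d) * (cfc g a * d) := by
      have e' : y n - y m = x * cfc (fun t => f n t - f m t) a * d := by
        simp only [y, ← sub_mul, ← mul_sub]
        rw [cfc_sub (f n) (f m) a (hfc n).continuousOn (hfc m).continuousOn]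
      set k := cfc (fun t => f n t - f m t) a
      have hk : star k = k := (cfc_predicate _ a : IsSelfAdjoint k).star_eq
      have hgk : k * a * k = cfc g a * cfc g a := by
        have hfs : Continuous fun t => f n t - f m t := (hfc n).sub (hfc m)
        rw [cfc_mul_self_mul ha _ hfs,
          ← cfc_mul g g a hgc.continuousOn hgc.continuousOn]
        refine cfc_congr fun t ht => ?_
        simp only [g]
        linear_combination (-((f n t - f m t) ^ 2)) * Real.mul_self_sqrt (hspec t ht)
      rw [e', star_mul, star_mul, star_mul, hk, hd.star_eq,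
        (cfc_predicate g a : IsSelfAdjoint (cfc g a)).star_eq]
      calc d * (k * star x) * (x * k * d) = d * (k * a * k) * d := by simp [a, mul_assoc]
        _ = _ := by rw [hgk]; simp [mul_assoc]
    have h1 : ‖y n - y m‖ ^ 2 = ‖cfc g a * d‖ ^ 2 := by
      rw [sq, sq, ← CStarRing.norm_star_mul_self, e, CStarRing.norm_star_mul_self]
    have h2 : ‖cfc g a * a * cfc g a‖ ≤ (δ n + δ m) ^ 2 := by
      rw [cfc_mul_self_mul ha g hgc]
      refine norm_cfc_le (sq_nonneg _) fun t ht => ?_
      have ht0 := hspec t ht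
      rw [Real.norm_eq_abs, show g t * t * g t = (t * f n t - t * f m t) ^ 2 by
        simp only [g]; linear_combination (t * (f n t - f m t) ^ 2) * Real.mul_self_sqrt ht0,
        abs_of_nonneg (sq_nonneg _)]
      obtain ⟨a1, a2⟩ := abs_le.1 (hnear n t ht0)
      obtain ⟨b1, b2⟩ := abs_le.1 (hnear m t ht0)
      exact sq_le_sq' (by linarith) (by linarith)
    refine (pow_le_pow_iff_left₀ (norm_nonneg _)
      (mul_nonneg (Real.sqrt_nonneg _) (add_pos (hδ n) (hδ m)).le) two_ne_zero).1 ?_
    rw [h1, mul_pow, Real.sq_sqrt (abs_nonneg c)]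
    exact (norm_mul_sq_le hd (cfc_predicate _ _) h).trans
      (mul_le_mul_of_nonneg_left h2 (abs_nonneg c))
  have hmono : ∀ n N, N ≤ n → δ n ≤ δ N := fun n N h =>
    one_div_le_one_div_of_le (by positivity) (by gcongr)
  have hcauchy : CauchySeq y := by
    refine cauchySeq_of_le_tendsto_0 (fun N => Real.sqrt |c| * (δ N + δ N)) ?_ ?_
    · intro n m N hn hm
      rw [dist_eq_norm]
      exact (hdiff n m).trans (mul_le_mul_of_nonneg_left (add_le_add (hmono n N hn) (hmono m N hm))
        (Real.sqrt_nonneg _))
    · simpa [δ] using ((tendsto_one_div_add_atTop_nhds_zero_nat (𝕜 := ℝ)).add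
        (tendsto_one_div_add_atTop_nhds_zero_nat (𝕜 := ℝ))).const_mul (Real.sqrt |c|)
  obtain ⟨v, hv⟩ := cauchySeq_tendsto_of_complete hcauchy
  refine ⟨v, ?_, fun P hP => ?_⟩
  · have hlim : Tendsto (fun n => star (y n) * y n) atTop (𝓝 (d * d)) := by
      rw [tendsto_iff_norm_sub_tendsto_zero]
      refine squeeze_zero (fun _ => norm_nonneg _) (fun n => (?_ : _ ≤ |c| * δ n)) ?_
      · let k : ℝ → ℝ := fun t => 1 - f n t * t * f n t
        have hkc : Continuous k := continuous_const.sub (((hfc n).mul continuous_id').mul (hfc n))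
        have hk0 : ∀ t ∈ spectrum ℝ a, 0 ≤ k t ∧ k t * t ≤ δ n := by
          intro t ht
          have ht0 := hspec t ht
          have hp : 0 < t + δ n * δ n := by have := hδ n; positivity
          have e : f n t * t * f n t = t / (t + δ n * δ n) := by
            simp only [f, max_eq_left ht0]
            rw [one_div_mul_eq_div, div_mul_div_comm, mul_one, Real.mul_self_sqrt hp.le]
          have e' : k t = δ n * δ n / (t + δ n * δ n) := by
            simp only [k, e]; rw [eq_div_iff hp.ne', sub_mul, div_mul_cancel₀ _ hp.ne']; ring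
          have hd1 : δ n ≤ 1 := div_le_one_of_le₀ (by simp) (by positivity)
          refine ⟨e' ▸ by have := hδ n; positivity, ?_⟩
          rw [e', div_mul_eq_mul_div, div_le_iff₀ hp]
          nlinarith [hδ n, mul_nonneg (mul_nonneg (hδ n).le (sub_nonneg.2 hd1)) ht0,
            pow_pos (hδ n) 3]
        let s : ℝ → ℝ := fun t => Real.sqrt (k t)
        have hsc : Continuous s := Real.continuous_sqrt.comp hkc
        have e : d * d - star (y n) * y n = star (cfc s a * d) * (cfc s a * d) := by
          have hss : cfc s a * cfc s a = 1 - cfc (f n) a * a * cfc (f n) a := by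
            rw [cfc_mul_self_mul ha _ (hfc n),
              ← cfc_mul s s a hsc.continuousOn hsc.continuousOn,
              ← cfc_const_one ℝ a, ← cfc_sub (fun _ => (1:ℝ)) (fun t => f n t * t * f n t) a
                continuousOn_const (((hfc n).mul continuous_id').mul (hfc n)).continuousOn]
            exact cfc_congr fun t ht => Real.mul_self_sqrt (hk0 t ht).1
          calc d * d - star (y n) * y n
              = d * (1 - cfc (f n) a * a * cfc (f n) a) * d := by
                simp only [y, star_mul, (cfc_predicate (f n) a : IsSelfAdjoint _).star_eq,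
                  hd.star_eq, a, mul_sub, sub_mul, mul_one, mul_assoc]
            _ = _ := by
                rw [← hss]
                simp [star_mul, (cfc_predicate s a : IsSelfAdjoint _).star_eq, hd.star_eq, mul_assoc]
        rw [norm_sub_rev, e, CStarRing.norm_star_mul_self, ← sq]
        refine (norm_mul_sq_le hd (cfc_predicate _ _) h).trans
          (mul_le_mul_of_nonneg_left ?_ (abs_nonneg c))
        rw [cfc_mul_self_mul ha s hsc]
        refine norm_cfc_le (hδ n).le fun t ht => ?_
        obtain ⟨k0, k1⟩ := hk0 t ht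
        rw [Real.norm_eq_abs, show s t * t * s t = k t * t by
          simp only [s]; linear_combination t * Real.mul_self_sqrt k0,
          abs_of_nonneg (mul_nonneg k0 (hspec t ht))]
        exact k1
      · simpa [δ] using (tendsto_one_div_add_atTop_nhds_zero_nat (𝕜 := ℝ)).const_mul |c|
    exact tendsto_nhds_unique (hv.star.mul hv) hlim
  · refine tendsto_nhds_unique (hv.const_mul P) ?_
    have : (fun n => P * y n) = y := funext fun n => by
      simp only [y, ← mul_assoc, hP]
    rw [this]; exact hv

end Vale.Agent.P101
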