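import Vale.Agent.P101.Character
import Mathlib.GroupTheory.Perm.Sign
import Mathlib.Algebra.BigOperators.Pi
import Mathlib.RingTheory.TwoSidedIdeal.Operations
import Mathlib.Algebra.Module.BigOperators

/-!
# P101: an element whose commutators are full, from an exterior power identity
-/

namespace Vale.Agent.P101

open Equiv (Perm)

section Algebraic

variable {Q : Type*} [Ring Q] {L k : ℕ}

theorem entry_pairwise (P : Fin L → Fin k → Fin k → Q)
    (hc : ∀ l m, l ≠ m → ∀ a b c d, Commute (P l a b) (P m c d)) (i i' : Fin L → Fin k)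
    (s : Finset (Fin L)) :
    (s : Set (Fin L)).Pairwise (Function.onFun Commute fun l => P l (i l) (i' l)) :=
  fun l _ m _ hlm => hc l m hlm _ _ _ _

/-- Product of the entries chosen by two multi-indices. -/
def entry (P : Fin L → Fin k → Fin k → Q)
    (hc : ∀ l m, l ≠ m → ∀ a b c d, Commute (P l a b) (P m c d)) (i i' : Fin L → Fin k) : Q :=
  Finset.univ.noncommProd (fun l => P l (i l) (i' l)) (entry_pairwise P hc i i' _)

theorem sum_entry_mul_entry_eq_zero (hkL : k < L) (P : Fin L → Fin k → Fin k → Q)
    (hc : ∀ l m, l ≠ m → ∀ a b c d, Commute (P l a b) (P m c d))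
    (horth : ∀ l m, l ≠ m → ∀ a c, ∑ x, P l a x * P m x c = 0) (i i'' : Fin L → Fin k) :
    ∑ i', entry P hc i i' * entry P hc i' i'' = 0 := by
  classical
  have moved : ∀ σ : Perm (Fin L), σ ≠ 1 →
      ∑ i', entry P hc i i' * entry P hc (i' ∘ σ) i'' = 0 := by
    intro σ hσ
    obtain ⟨m, hm⟩ : ∃ m, σ m ≠ m := by
      by_contra h
      push Not at h
      exact hσ (Equiv.ext h)
    let l := σ m
    let e := Equiv.funSplitAt l (Fin k)
    rw [← e.symm.sum_comp, Fintype.sum_prod_type, Finset.sum_comm]
    refine Finset.sum_eq_zero fun r _ => ?_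
    have ev : ∀ x, e.symm (x, r) l = x := fun x => by simp [e]
    have ev' : ∀ x n, n ≠ l → ∀ x', e.symm (x, r) n = e.symm (x', r) n := fun x n hn x' => by
      simp [e, hn]
    let x₀ : Fin k := i l
    let A := (Finset.univ.erase l).noncommProd (fun n => P n (i n) (e.symm (x₀, r) n))
      fun a _ b _ hab => hc a b hab _ _ _ _
    let B := (Finset.univ.erase m).noncommProd (fun n => P n (e.symm (x₀, r) (σ n)) (i'' n))
      fun a _ b _ hab => hc a b hab _ _ _ _
    have h₁ : ∀ x, entry P hc i (e.symm (x, r)) = A * P l (i l) x := by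
      intro x
      rw [entry, ← Finset.noncommProd_erase_mul _ (Finset.mem_univ l), ev]
      congr 1
      exact Finset.noncommProd_congr rfl (fun n hn => by
        rw [ev' x n (Finset.ne_of_mem_erase hn) x₀]) _
    have h₂ : ∀ x, entry P hc (e.symm (x, r) ∘ σ) i'' = P m x (i'' m) * B := by
      intro x
      rw [entry, ← Finset.mul_noncommProd_erase _ (Finset.mem_univ m)]
      congr 1
      · simp only [Function.comp_apply]; rw [ev]
      · exact Finset.noncommProd_congr rfl (fun n hn => by
          simp only [Function.comp_apply]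
          rw [ev' x (σ n) (σ.injective.ne (Finset.ne_of_mem_erase hn)) x₀]) _
    calc ∑ x, entry P hc i (e.symm (x, r)) * entry P hc (e.symm (x, r) ∘ σ) i''
        = A * (∑ x, P l (i l) x * P m x (i'' m)) * B := by
          simp only [h₁, h₂, Finset.mul_sum, Finset.sum_mul, mul_assoc]
      _ = 0 := by rw [horth l m hm]; simp
  have alt : ∀ i' : Fin L → Fin k,
      ∑ σ : Perm (Fin L), ((Perm.sign σ : ℤˣ) : ℤ) • entry P hc (i' ∘ σ) i'' = 0 := by
    intro i'
    obtain ⟨a, b, hab, he⟩ := Fintype.exists_ne_map_eq_of_card_lt i' (by simpa using hkL)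
    have hsw : ∀ x, i' (Equiv.swap a b x) = i' x := fun x => by
      rw [Equiv.swap_apply_def]; split_ifs with h₁ h₂ <;> simp_all
    refine Finset.sum_involution (fun σ _ => Equiv.swap a b * σ) (fun σ _ => ?_) (fun σ _ _ h => ?_)
      (fun σ _ => Finset.mem_univ _) (fun σ _ => by simp)
    · have : i' ∘ ⇑(Equiv.swap a b * σ) = i' ∘ σ := funext fun x => hsw (σ x)
      rw [this, ← add_smul]
      simp [Perm.sign_mul, Perm.sign_swap hab]
    · exact hab (Equiv.swap_eq_one_iff.1 (mul_eq_right.1 h))
  calc ∑ i', entry P hc i i' * entry P hc i' i''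
      = ∑ σ : Perm (Fin L), ((Perm.sign σ : ℤˣ) : ℤ) •
          ∑ i', entry P hc i i' * entry P hc (i' ∘ σ) i'' := by
        rw [Finset.sum_eq_single (1 : Perm (Fin L))]
        · simp [Perm.coe_one]
        · exact fun σ _ hσ => by rw [moved σ hσ, smul_zero]
        · simp
    _ = ∑ i', entry P hc i i' *
          ∑ σ : Perm (Fin L), ((Perm.sign σ : ℤˣ) : ℤ) • entry P hc (i' ∘ σ) i'' := by
        simp only [Finset.smul_sum, Finset.mul_sum, mul_smul_comm]
        exact Finset.sum_comm
    _ = 0 := Finset.sum_eq_zero fun i' _ => by rw [alt i', mul_zero]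

theorem entry_map {S : Type*} [Ring S] (f : Q →+* S) (P : Fin L → Fin k → Fin k → Q)
    (hc : ∀ l m, l ≠ m → ∀ a b c d, Commute (P l a b) (P m c d)) (i i' : Fin L → Fin k) :
    f (entry P hc i i') = entry (fun l a b => f (P l a b))
      (fun l m h a b c d => (hc l m h a b c d).map f) i i' :=
  Finset.map_noncommProd _ _ _ _

theorem star_entry [StarRing Q] (P : Fin L → Fin k → Fin k → Q)
    (hc : ∀ l m, l ≠ m → ∀ a b c d, Commute (P l a b) (P m c d))
    (hs : ∀ l a b, star (P l a b) = P l b a) (i i' : Fin L → Fin k) :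
    star (entry P hc i i') = entry P hc i' i := by
  classical
  suffices ∀ s : Finset (Fin L),
      star (s.noncommProd (fun l => P l (i l) (i' l)) (entry_pairwise P hc i i' s))
        = s.noncommProd (fun l => P l (i' l) (i l)) (entry_pairwise P hc i' i s) from this _
  intro s
  induction s using Finset.induction with
  | empty => simp
  | insert a s ha ih =>
    rw [Finset.noncommProd_insert_of_notMem _ _ _ _ ha,
      Finset.noncommProd_insert_of_notMem' _ _ _ _ ha, star_mul, ih, hs]

end Algebraic

section Main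

variable {F : Type*} [CStarAlgebra F]

/-- The commutators with a single element. -/
def ad (E : F) : Set F := {c | ∃ d, c = E * d - d * E}

theorem id_ad_comm {E y : F} (hy : Id (ad E) y) (z : F) : Id (ad E) (y * z - z * y) :=
  (hy.mul_right z).sub (hy.mul_left z)

theorem diag_full {D : Type*} [CStarAlgebra D] [PartialOrder D] [StarOrderedRing D] {k : ℕ}
    (x : Fin k → Fin k → D) (hxs : ∀ i j, star (x i j) = x j i) {X : Set D} (hX : Id X 1)
    (hsub : ∀ d ∈ X, ∃ a j, d = x a j) :
    Id (Set.range fun c => ∑ j, x c j * star (x c j)) 1 := by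
  refine hX.full_of_le fun d hd => ?_
  obtain ⟨a, j, rfl⟩ := hsub d hd
  refine ⟨_, .of_mem ⟨j, rfl⟩, ?_⟩
  refine le_of_eq_of_le ?_ (Finset.single_le_sum
    (f := fun n => x j n * star (x j n)) (fun n _ => mul_star_self_nonneg _) (Finset.mem_univ a))
  rw [hxs, hxs]

theorem exists_full_ad [PartialOrder F] [StarOrderedRing F] (hF : Copyable F)
    (hχ : IsEmpty (F →⋆ₐ[ℂ] ℂ)) : ∃ E : F, IsSelfAdjoint E ∧ Id (ad E) 1 := by
  classical
  obtain ⟨k, e, he, hfull⟩ := exists_full_commutators hχ
  obtain ⟨G₀, hG₀, hwit⟩ := hfull.witness_one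
  let G := G₀ ∪ Set.range e
  let eD : Fin k → cs G := fun i => ⟨e i, subset_cs G (.inr ⟨i, rfl⟩)⟩
  have heD : ∀ i, star (eD i) = eD i := fun i => Subtype.ext (he i)
  let x : Fin k → Fin k → cs G := fun i j => eD i * eD j - eD j * eD i
  have hxs : ∀ i j, star (x i j) = x j i := fun i j => by simp [x, heD]
  have hxn : ∀ i j, x j i = -x i j := fun i j => by simp [x]
  let p : Fin k → Fin k → cs G := fun a b => ∑ j, x a j * star (x b j)
  have hp : Id (Set.range fun c => p c c) 1 :=
    @diag_full _ _ (CStarAlgebra.spectralOrder (cs G)) (CStarAlgebra.spectralOrderedRing (cs G)) k x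
      hxs _ (hwit G Set.subset_union_left)
      (fun d hd => by obtain ⟨a, j, hd⟩ := hd; exact ⟨a, j, Subtype.ext hd⟩)
  obtain ⟨φ, -, hφ⟩ := hF.copies (hG₀.union (Set.finite_range e)) Set.finite_empty (k + 1)
  let u : Fin (k + 1) → Fin k → F := fun l i => φ l (eD i)
  have hu : ∀ l i, IsSelfAdjoint (u l i) := fun l i => (show IsSelfAdjoint (eD i) from heD i).map _
  let X : Fin (k + 1) → Fin k → Fin k → F := fun l i j => φ l (x i j)
  let P : Fin (k + 1) → Fin k → Fin k → F := fun l a b => φ l (p a b)
  let off := (Finset.univ : Finset (Fin (k + 1) × Fin (k + 1))).filter fun q => q.1 ≠ q.2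
  let E := ∑ q ∈ off, ∑ i, u q.1 i * u q.2 i
  refine ⟨E, ?_, ?_⟩
  · refine isSelfAdjoint_sum _ fun q hq => isSelfAdjoint_sum _ fun i _ => ?_
    exact (IsSelfAdjoint.commute_iff (hu _ _) (hu _ _)).1 (hφ _ _ (Finset.mem_filter.1 hq).2 _ _)
  have hX : ∀ l a i j, u l i * u a j - u a j * u l i = if l = a then X a i j else 0 := by
    intro l a i j
    split_ifs with h
    · subst h; simp [u, X, x, map_sub, map_mul]
    · rw [(hφ l a h (eD i) (eD j)).eq, sub_self]
  have hXc : ∀ a b, a ≠ b → ∀ i j y, Commute (X a i j) (φ b y) := fun a b h i j y => hφ a b h _ y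
  have first : ∀ a j, E * u a j - u a j * E
      = 2 • ∑ m ∈ Finset.univ.filter (· ≠ a), ∑ i, X a i j * u m i := by
    intro a j
    have der : ∀ y z w : F, y * z * w - w * (y * z)
        = (y * w - w * y) * z + y * (z * w - w * z) := fun y z w => by
      simp only [sub_mul, mul_sub, mul_assoc]; abel
    simp only [E, Finset.sum_mul, Finset.mul_sum, ← Finset.sum_sub_distrib, der, hX,
      Finset.sum_add_distrib, ite_mul, zero_mul, mul_ite, mul_zero]
    rw [two_nsmul]
    simp only [off, Finset.sum_filter, Fintype.sum_prod_type]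
    congr 1
    · rw [Finset.sum_eq_single a]
      · exact Finset.sum_congr rfl fun m _ => by
          by_cases h : a = m <;> simp [h, eq_comm]
      · intro l _ h; simp [h]
      · simp
    · rw [Finset.sum_comm, Finset.sum_eq_single a]
      · refine Finset.sum_congr rfl fun m _ => ?_
        by_cases h : m = a
        · simp [h]
        · simp only [ne_eq, h, not_false_eq_true, if_true]
          exact Finset.sum_congr rfl fun i _ => (hXc a m (Ne.symm h) i j (eD i)).eq.symm
      · intro m _ h; simp [h]
      · simp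
  have second : ∀ a b, a ≠ b → ∀ j n, Id (ad E) (∑ i, X a i j * X b i n) := by
    intro a b hab j n
    have h2 : Id (ad E) (∑ m ∈ Finset.univ.filter (· ≠ a), ∑ i, X a i j * u m i) := by
      have h := (Id.of_mem (X := ad E) ⟨u a j, (first a j).symm⟩).smul (2 : ℝ)⁻¹
      rwa [← Nat.cast_smul_eq_nsmul ℝ, smul_smul, Nat.cast_ofNat, inv_mul_cancel₀ two_ne_zero,
        one_smul] at h
    convert id_ad_comm h2 (u b n) using 1
    simp only [Finset.sum_mul, Finset.mul_sum, ← Finset.sum_sub_distrib]
    rw [Finset.sum_eq_single b]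
    · refine Finset.sum_congr rfl fun i _ => ?_
      have h := hX b b i n
      rw [if_pos rfl] at h
      rw [← h, mul_sub, mul_assoc, ← mul_assoc (u b n), ← (hXc a b hab i j (eD n)).eq, mul_assoc]
    · intro m _ hm
      refine Finset.sum_eq_zero fun i _ => ?_
      rw [mul_assoc, (hφ m b hm (eD i) (eD n)).eq, ← mul_assoc, (hXc a b hab i j (eD n)).eq,
        mul_assoc, sub_self]
    · simp [hab.symm]
  have orth : ∀ l m, l ≠ m → ∀ a c, Id (ad E) (∑ y, P l a y * P m y c) := by
    intro l m h a c
    have e1 : ∑ y, P l a y * P m y c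
        = ∑ j, ∑ n, X l a j * (-(∑ y, X l y j * X m y n)) * star (X m c n) := by
      have : ∀ y, P l a y * P m y c
          = ∑ j, ∑ n, X l a j * (-(X l y j * X m y n)) * star (X m c n) := by
        intro y
        simp only [P, p, map_sum, map_mul, Finset.sum_mul, Finset.mul_sum]
        rw [Finset.sum_comm]
        refine Finset.sum_congr rfl fun j _ => Finset.sum_congr rfl fun n _ => ?_
        rw [hxs y j, hxn y j, map_neg, map_star]
        simp only [X, neg_mul, mul_neg, mul_assoc]
      simp only [this, ← Finset.sum_neg_distrib, Finset.mul_sum, Finset.sum_mul]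
      rw [Finset.sum_comm]
      exact Finset.sum_congr rfl fun j _ => Finset.sum_comm
    rw [e1]
    exact Id.sum fun j _ => Id.sum fun n _ =>
      (((second l m h j n).neg).mul_left _).mul_right _
  have hc : ∀ l m, l ≠ m → ∀ a b c d, Commute (P l a b) (P m c d) :=
    fun l m h a b c d => hφ l m h _ _
  let J : TwoSidedIdeal F := .mk' {y | Id (ad E) y} Id.zero Id.add Id.neg
    (fun h => h.mul_left _) (fun h => h.mul_right _)
  let π : F →+* J.ringCon.Quotient := J.ringCon.mk'
  have hπ : ∀ y, π y = 0 ↔ Id (ad E) y := fun y => by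
    rw [show π y = (y : J.ringCon.Quotient) from rfl, ← RingCon.coe_zero, RingCon.eq,
      ← TwoSidedIdeal.mem_iff]
    exact TwoSidedIdeal.mem_mk' _ _ _ _ _ _ y
  have hTT : ∀ i, Id (ad E) (∑ i', entry P hc i i' * entry P hc i' i) := by
    intro i
    rw [← hπ, map_sum]
    simp only [map_mul, entry_map]
    exact sum_entry_mul_entry_eq_zero (Nat.lt_succ_self k) _ _
      (fun l m h a c => by rw [← (hπ _).2 (orth l m h a c), map_sum]; simp only [map_mul]) i i
  have hdiag : Id (Set.range fun i => entry P hc i i) 1 := by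
    suffices ∀ s : Finset (Fin (k + 1)), Id (Set.range fun i : Fin (k + 1) → Fin k =>
        s.noncommProd (fun l => P l (i l) (i l)) (entry_pairwise P hc i i s)) 1 from
      this Finset.univ
    intro s
    induction s using Finset.induction with
    | empty =>
      rcases isEmpty_or_nonempty (Fin (k + 1) → Fin k) with hk | ⟨⟨i⟩⟩
      · rcases isEmpty_or_nonempty (Fin k) with hk' | hk'
        · exact (hp.map (φ 0)).trans (fun y ⟨_, ⟨c, _⟩, _⟩ => isEmptyElim c) |> fun h => by
            simpa using h
        · exact (hk.false fun _ => hk'.some).elim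
      · exact .of_mem ⟨i, Finset.noncommProd_empty _ _⟩
    | insert a s ha ih =>
      refine ih.trans ?_
      rintro _ ⟨i, rfl⟩
      dsimp only
      set y := s.noncommProd (fun l => P l (i l) (i l)) (entry_pairwise P hc i i s) with hy
      suffices ∀ z, Id (Set.range fun c => p c c) z → Id (Set.range fun i : Fin (k + 1) → Fin k =>
          (insert a s).noncommProd (fun l => P l (i l) (i l)) (entry_pairwise P hc i i _))
          (φ a z * y) by
        simpa using this 1 hp
      intro z hz
      induction hz with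
      | zero => simpa using Id.zero
      | add _ _ h₁ h₂ => simpa [add_mul] using h₁.add h₂
      | gen r d q hd =>
        obtain ⟨c, rfl⟩ := hd
        have hq : Commute (φ a q) y := Finset.noncommProd_commute _ _ _ _ fun l hl =>
          hφ a l (fun h => ha (h ▸ hl)) _ _
        have e : φ a (r * p c c * q) * y = φ a r * (P a c c * y) * φ a q := by
          simp only [map_mul, P, mul_assoc, hq.eq]
        rw [e]
        refine Id.gen _ _ _ ⟨Function.update i a c, ?_⟩
        dsimp only
        rw [Finset.noncommProd_insert_of_notMem _ _ _ _ ha, Function.update_self]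
        congr 1
        refine Finset.noncommProd_congr rfl (fun l hl => ?_) _
        rw [Function.update_of_ne (fun h => ha (by rw [← h]; exact hl))]
  refine hdiag.full_of_le ?_
  rintro _ ⟨i, rfl⟩
  refine ⟨∑ j, ∑ i', entry P hc j i' * entry P hc i' j, Id.sum fun j _ => hTT j, ?_⟩
  have hs : ∀ l a b, star (P l a b) = P l b a := fun l a b => by
    simp [P, p, ← map_star, star_sum]
  have key : ∀ j i', entry P hc j i' * entry P hc i' j
      = star (entry P hc i' j) * entry P hc i' j := fun j i' => by rw [star_entry P hc hs]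
  simp only [key]
  refine le_trans ?_ (Finset.single_le_sum
    (f := fun j => ∑ i', star (entry P hc i' j) * entry P hc i' j)
    (fun j _ => Finset.sum_nonneg fun i' _ => star_mul_self_nonneg _) (Finset.mem_univ i))
  exact Finset.single_le_sum (f := fun i' => star (entry P hc i' i) * entry P hc i' i)
    (fun i' _ => star_mul_self_nonneg _) (Finset.mem_univ i)

end Main

end Vale.Agent.P101
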