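import Vale.Agent.P101.Basic
import Mathlib.Analysis.CStarAlgebra.ContinuousFunctionalCalculus.Commute
import Mathlib.Analysis.SpecialFunctions.ContinuousFunctionalCalculus.Rpow.Basic
import Mathlib.LinearAlgebra.Complex.Module

/-!
# P101: combining commuting order zero systems of matrix units by a rotation
-/

namespace Vale.Agent.P101

open Complex (I)

/-- The increasing ramp from `a` to `b`. -/
noncomputable def ramp (a b t : ℝ) : ℝ := max 0 (min 1 ((t - a) / (b - a)))

@[fun_prop] theorem continuous_ramp (a b : ℝ) : Continuous (ramp a b) := by unfold ramp; fun_prop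

theorem ramp_nonneg (a b t : ℝ) : 0 ≤ ramp a b t := le_max_left _ _

theorem ramp_le_one (a b t : ℝ) : ramp a b t ≤ 1 := max_le zero_le_one (min_le_left _ _)

theorem ramp_of_le {a b t : ℝ} (hab : a < b) (h : t ≤ a) : ramp a b t = 0 :=
  max_eq_left ((min_le_right _ _).trans (div_nonpos_of_nonpos_of_nonneg (by linarith) (by linarith)))

theorem ramp_of_ge {a b t : ℝ} (hab : a < b) (h : b ≤ t) : ramp a b t = 1 := by
  rw [ramp, min_eq_left ((one_le_div (by linarith)).2 (by linarith)), max_eq_right zero_le_one]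

theorem ramp_mul_ramp {a b c d : ℝ} (hab : a < b) (hbc : b ≤ c) (hcd : c < d) (t : ℝ) :
    ramp a b t * ramp c d t = ramp c d t := by
  rcases le_or_gt t c with h | h
  · simp [ramp_of_le hcd h]
  · simp [ramp_of_ge hab (by linarith : b ≤ t)]

section Rotate

variable {F : Type*} [CStarAlgebra F]

/-- A 2 × 2 system of matrix units with weight `w`. -/
structure Units2 (e : Fin 2 → Fin 2 → F) (w : F) : Prop where
  rel : ∀ a b c d, e a b * e c d = if b = c then w * e a d else 0
  star_eq : ∀ a b, star (e a b) = e b a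
  sum_eq : e 0 0 + e 1 1 = w

theorem Units2.commute {e : Fin 2 → Fin 2 → F} {w : F} (h : Units2 e w) (a b : Fin 2) :
    Commute w (e a b) := by
  have hR := fun c d => h.rel a b c d
  rw [Commute, SemiconjBy, ← h.sum_eq, add_mul, mul_add]
  simp only [h.rel]
  fin_cases a <;> fin_cases b <;> simp

/-- The rotation term. -/
def rot (N M : Fin 2 → Fin 2 → F) (p r : Fin 2) : F :=
  ∑ a, N a r * M p a - ∑ b, N p b * M b r

/-- Rotating one system into the other. -/
noncomputable def rotated (N M : Fin 2 → Fin 2 → F) (A B C : F) (p r : Fin 2) : F :=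
  A * N p r + B * M p r + I • (C * rot N M p r)

variable {N M : Fin 2 → Fin 2 → F} {η η' A B C : F}

theorem rot_trace (hc : ∀ a b c d, Commute (N a b) (M c d)) : rot N M 0 0 + rot N M 1 1 = 0 := by
  simp only [rot, Fin.sum_univ_two]; abel

theorem rot_star (hN : Units2 N η) (hM : Units2 M η')
    (hc : ∀ a b c d, Commute (N a b) (M c d)) (p r : Fin 2) :
    star (rot N M p r) = -rot N M r p := by
  simp only [rot, star_sub, star_sum, star_mul, hN.star_eq, hM.star_eq, neg_sub]
  exact congrArg₂ _ (Finset.sum_congr rfl fun a _ => (hc _ _ _ _).eq.symm)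
    (Finset.sum_congr rfl fun a _ => (hc _ _ _ _).eq.symm)

theorem mul_rot (hN : Units2 N η) (hM : Units2 M η') (hc : ∀ a b c d, Commute (N a b) (M c d))
    (p r s t : Fin 2) :
    (N p r * rot N M s t + rot N M p r * N s t = if r = s then η * rot N M p t else 0) ∧
      (M p r * rot N M s t + rot N M p r * M s t = if r = s then η' * rot N M p t else 0) := by
  constructor
  · have h1 : N p r * rot N M s t
        = η * (N p t * M s r) - if r = s then η * ∑ b, N p b * M b t else 0 := by
      simp only [rot, mul_sub, Finset.mul_sum, ← mul_assoc, hN.rel, ite_mul, zero_mul,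
        Finset.sum_ite_eq, Finset.mem_univ, if_true]
      split_ifs <;> simp [mul_assoc, mul_add]
    have h2 : rot N M p r * N s t
        = (if r = s then η * ∑ a, N a t * M p a else 0) - η * (N p t * M s r) := by
      simp only [rot, sub_mul, Finset.sum_mul, mul_assoc, (hc _ _ _ _).eq.symm]
      simp only [← mul_assoc, hN.rel, ite_mul, zero_mul, Finset.sum_ite_eq', Finset.mem_univ,
        if_true]
      split_ifs <;> simp [mul_assoc, mul_add]
    rw [h1, h2]
    split_ifs <;> simp [rot, mul_sub]
  · have h1 : M p r * rot N M s t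
        = (if r = s then η' * ∑ a, N a t * M p a else 0) - η' * (N s r * M p t) := by
      simp only [rot, mul_sub, Finset.mul_sum, ← mul_assoc, (hc _ _ _ _).eq.symm]
      simp only [mul_assoc, hM.rel, mul_ite, mul_zero, Finset.sum_ite_eq, Finset.mem_univ, if_true]
      have hN' : ∀ a b, Commute η' (N a b) := fun a b => by
        rw [← hM.sum_eq]; exact ((hc a b 0 0).symm).add_left (hc a b 1 1).symm
      simp only [← mul_assoc, ← (hN' _ _).eq]
      split_ifs <;> simp
    have h2 : rot N M p r * M s t
        = η' * (N s r * M p t) - if r = s then η' * ∑ b, N p b * M b t else 0 := by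
      simp only [rot, sub_mul, Finset.sum_mul, mul_assoc, hM.rel, mul_ite, mul_zero,
        Finset.sum_ite_eq', Finset.mem_univ, if_true]
      have hN' : ∀ a b, Commute η' (N a b) := fun a b => by
        rw [← hM.sum_eq]; exact ((hc a b 0 0).symm).add_left (hc a b 1 1).symm
      simp only [← mul_assoc, ← (hN' _ _).eq]
      split_ifs <;> simp [mul_assoc, mul_add]
    rw [h1, h2]
    split_ifs <;> simp [rot, mul_sub]

theorem rot_mul_rot (hN : Units2 N η) (hM : Units2 M η') (hc : ∀ a b c d, Commute (N a b) (M c d))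
    (p r s t : Fin 2) :
    rot N M p r * rot N M s t = η * η' * (N s t * M p r) + η * η' * (N p r * M s t)
      - if r = s then η * η' * (η * M p t) + η * η' * (η' * N p t) else 0 := by
  have hN' : ∀ a b, Commute η' (N a b) := fun a b => by
    rw [← hM.sum_eq]; exact ((hc a b 0 0).symm).add_left (hc a b 1 1).symm
  have hw : ∀ a b c d a' b' c' d', N a b * M c d * (N a' b' * M c' d')
      = if b = a' then (if d = c' then η * η' * (N a b' * M c d') else 0) else 0 := by
    intro a b c d a' b' c' d'
    rw [mul_assoc, ← mul_assoc (M c d), ← (hc a' b' c d).eq, mul_assoc, ← mul_assoc (N a b), hN.rel,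
      hM.rel]
    split_ifs <;> simp [mul_assoc, (hN' a b').eq]
    rw [← mul_assoc η' (N a b'), (hN' a b').eq, mul_assoc]
  have hM' : η' * N p t = N p t * (M 0 0 + M 1 1) := by rw [hM.sum_eq, (hN' p t).eq]
  have hR : η * η' * (η * M p t) + η * η' * (η' * N p t)
      = η * η' * ((N 0 0 + N 1 1) * M p t) + η * η' * (N p t * (M 0 0 + M 1 1)) := by
    rw [hM', hN.sum_eq]
  rw [hR]
  simp only [rot, sub_mul, mul_sub, Finset.sum_mul, Finset.mul_sum, hw]
  by_cases h : r = s
  · subst h
    fin_cases r <;> simp [Fin.sum_univ_two, add_mul, mul_add] <;> abel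
  · fin_cases r <;> fin_cases s <;> simp at h <;> simp [Fin.sum_univ_two]

theorem units2_rotated (hN : Units2 N η) (hM : Units2 M η')
    (hc : ∀ a b c d, Commute (N a b) (M c d))
    (hAN : ∀ a b, Commute A (N a b)) (hBN : ∀ a b, Commute B (N a b))
    (hCN : ∀ a b, Commute C (N a b)) (hAM : ∀ a b, Commute A (M a b))
    (hBM : ∀ a b, Commute B (M a b)) (hCM : ∀ a b, Commute C (M a b))
    (hAB : Commute A B) (hAC : Commute A C) (hBC : Commute B C)
    (sA : IsSelfAdjoint A) (sB : IsSelfAdjoint B) (sC : IsSelfAdjoint C)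
    (hA : A * η = A) (hB : B * η' = B) (hCη : C * η = C) (hCη' : C * η' = C)
    (hCC : C * C = A * B) : Units2 (rotated N M A B C) (A + B) := by
  have hrot : ∀ (D : F) p r, (∀ a b, Commute D (N a b)) → (∀ a b, Commute D (M a b)) →
      Commute D (rot N M p r) := fun D p r h h' =>
    (Commute.sum_right _ _ _ fun a _ => (h _ _).mul_right (h' _ _)).sub_right
      (Commute.sum_right _ _ _ fun a _ => (h _ _).mul_right (h' _ _))
  constructor
  · intro p r s t
    have move : ∀ D D' x y : F, Commute x D' → D * x * (D' * y) = D * D' * (x * y) :=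
      fun D D' x y h => by rw [mul_assoc, ← mul_assoc x, h.eq, mul_assoc, ← mul_assoc]
    obtain ⟨e1, e2⟩ := mul_rot hN hM hc p r s t
    have e3 := rot_mul_rot hN hM hc p r s t
    have hCCη : A * B * η = A * B := by rw [← hCC, mul_assoc, hCη]
    have hCCη' : A * B * η' = A * B := by rw [← hCC, mul_assoc, hCη']
    have hNN : A * N p r * (A * N s t) = if r = s then A * A * N p t else 0 := by
      rw [move _ _ _ _ (hAN p r).symm, hN.rel]
      split_ifs <;> simp [← mul_assoc, mul_assoc A A η, hA]
    have hMM : B * M p r * (B * M s t) = if r = s then B * B * M p t else 0 := by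
      rw [move _ _ _ _ (hBM p r).symm, hM.rel]
      split_ifs <;> simp [← mul_assoc, mul_assoc B B η', hB]
    have hNM : A * N p r * (B * M s t) + B * M p r * (A * N s t)
        + I • (C * rot N M p r) * (I • (C * rot N M s t))
        = if r = s then A * B * (N p t + M p t) else 0 := by
      rw [move _ _ _ _ (hBN p r).symm, move _ _ _ _ (hAM p r).symm, ← hAB.eq,
        ← (hc s t p r).eq, smul_mul_assoc, mul_smul_comm, smul_smul, Complex.I_mul_I, neg_one_smul,
        move _ _ _ _ (hrot C p r hCN hCM).symm, hCC, e3]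
      have k : ∀ y, A * B * (η * η' * y) = A * B * y := fun y => by
        rw [← mul_assoc, ← mul_assoc, hCCη, hCCη']
      split_ifs
      · simp only [mul_sub, mul_add, k]
        rw [← mul_assoc (A * B) η (M p t), hCCη, ← mul_assoc (A * B) η' (N p t), hCCη']
        abel
      · simp only [mul_add, k, sub_zero]
        abel
    have hX : A * N p r * (I • (C * rot N M s t)) + I • (C * rot N M p r) * (A * N s t)
        = if r = s then I • (A * C * rot N M p t) else 0 := by
      rw [mul_smul_comm, smul_mul_assoc, move _ _ _ _ (hCN p r).symm,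
        move _ _ _ _ (hrot A p r hAN hAM).symm, ← hAC.eq, ← smul_add, ← mul_add, e1]
      split_ifs <;> simp [← mul_assoc, mul_assoc A C η, hCη]
    have hY : B * M p r * (I • (C * rot N M s t)) + I • (C * rot N M p r) * (B * M s t)
        = if r = s then I • (B * C * rot N M p t) else 0 := by
      rw [mul_smul_comm, smul_mul_assoc, move _ _ _ _ (hCM p r).symm,
        move _ _ _ _ (hrot B p r hBN hBM).symm, ← hBC.eq, ← smul_add, ← mul_add, e2]
      split_ifs <;> simp [← mul_assoc, mul_assoc B C η', hCη']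
    calc rotated N M A B C p r * rotated N M A B C s t
        = A * N p r * (A * N s t) + B * M p r * (B * M s t)
          + (A * N p r * (B * M s t) + B * M p r * (A * N s t)
            + I • (C * rot N M p r) * (I • (C * rot N M s t)))
          + (A * N p r * (I • (C * rot N M s t)) + I • (C * rot N M p r) * (A * N s t))
          + (B * M p r * (I • (C * rot N M s t)) + I • (C * rot N M p r) * (B * M s t)) := by
          simp only [rotated, add_mul, mul_add]; abel
      _ = _ := by
          rw [hNN, hMM, hNM, hX, hY]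
          split_ifs
          · simp only [rotated, add_mul, mul_add, mul_smul_comm, smul_add, mul_assoc,
              ← mul_assoc B A, ← hAB.eq]
            abel
          · simp
  · intro a b
    simp only [rotated, star_add, star_mul, star_smul, hN.star_eq, hM.star_eq, sA.star_eq,
      sB.star_eq, sC.star_eq, rot_star hN hM hc, RCLike.star_def, Complex.conj_I, neg_mul,
      mul_neg, neg_smul, smul_neg, neg_neg]
    rw [(hAN b a).eq, (hBM b a).eq, (hrot C b a hCN hCM).eq]
  · calc rotated N M A B C 0 0 + rotated N M A B C 1 1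
        = A * (N 0 0 + N 1 1) + B * (M 0 0 + M 1 1)
          + I • (C * (rot N M 0 0 + rot N M 1 1)) := by
          simp only [rotated, mul_add, smul_add]; abel
      _ = A + B := by rw [rot_trace hc, hN.sum_eq, hM.sum_eq, hA, hB]; simp

end Rotate

section Fold

variable {F : Type*} [CStarAlgebra F] [PartialOrder F] [StarOrderedRing F]

omit [PartialOrder F] [StarOrderedRing F] in
theorem eq_zero_of_mul_self_mul {C u : F} (hC : IsSelfAdjoint C) (h : C * C * u = 0) :
    C * u = 0 := by
  rw [← CStarRing.star_mul_self_eq_zero_iff, star_mul, hC.star_eq, mul_assoc, ← mul_assoc C, h,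
    mul_zero]

/-- The data brought by one copy. -/
structure Piece (M : Fin 2 → Fin 2 → F) (η ω H : F) : Prop where
  units : Units2 M η
  ω_eq : ω * η = ω
  ω_nonneg : 0 ≤ ω
  ω_le : ω ≤ 1
  H_nonneg : 0 ≤ H
  H_le : H ≤ 1
  ω_comm : ∀ a b, Commute ω (M a b)
  H_comm : ∀ a b, Commute H (M a b)
  ωH : Commute ω H

/-- Folding finitely many commuting pieces, with priority for a high newcomer. -/
theorem fold_pieces (K : ℕ) (M : ℕ → Fin 2 → Fin 2 → F) (η ω H : ℕ → F)
    (hP : ∀ b < K, Piece (M b) (η b) (ω b) (H b)) (V : ℕ → Set F)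
    (hV : ∀ b < K, (∀ a c, M b a c ∈ V b) ∧ η b ∈ V b ∧ ω b ∈ V b ∧ H b ∈ V b)
    (hVV : ∀ a < K, ∀ b < K, a ≠ b → ∀ x ∈ V a, ∀ y ∈ V b, Commute x y) :
    ∀ n ≤ K, ∃ (E : Fin 2 → Fin 2 → F) (w : F), Units2 E w ∧ 0 ≤ w ∧ w ≤ 1 ∧
      (∀ b, n ≤ b → b < K → ∀ y ∈ V b, ∀ p r, Commute (E p r) y) ∧
      (∀ b < n, ∀ u, ω b * u = u → w * u = u) ∧
      (∀ (T : Finset ℕ) (u : F),
        (∀ b < K, b ∈ T → ω b * u = u ∧ H b * u = u ∧ M b 0 0 * u = u) →
        (∀ b < K, b ∉ T → H b * u = 0) → (∃ b < n, b ∈ T) → w * u = u ∧ E 0 0 * u = u) := by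
  intro n
  induction n with
  | zero =>
    refine fun _ => ⟨0, 0, ⟨fun a b c d => by simp, fun a b => by simp, by simp⟩, le_rfl,
      zero_le_one, fun b _ _ y _ p r => by simp, fun b hb => absurd hb (Nat.not_lt_zero b), ?_⟩
    rintro T u - - ⟨b, hb, -⟩
    exact absurd hb (Nat.not_lt_zero b)
  | succ n ih =>
    intro hn
    have hnK : n < K := hn
    obtain ⟨E, w, hE, hw0, hw1, hcom, hwu, hT⟩ := ih (by omega)
    obtain ⟨hM, hωη, hω0, hω1, hH0, hH1, hωM, hHM, hωH⟩ := hP n hnK
    obtain ⟨hVM, hVη, hVω, hVH⟩ := hV n hnK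
    let θf : ℝ → ℝ := fun t => ramp (1/4) (1/2) t / max t (1/4)
    have hθc : Continuous θf := (continuous_ramp _ _).div (by fun_prop)
      fun t => ne_of_gt (lt_max_of_lt_right (by norm_num))
    set θ := cfc θf w
    set ν := cfc (ramp (1/4) (1/2)) w
    set ω₁ := cfc (ramp (1/2) 1) w
    have hws : IsSelfAdjoint w := .of_nonneg hw0
    have hθw : θ * w = ν := by
      conv_lhs => enter [2]; rw [← cfc_id' ℝ w]
      rw [← cfc_mul θf (fun t => t) w hθc.continuousOn continuousOn_id]
      refine cfc_congr fun t _ => ?_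
      rcases le_or_gt t (1/4) with h | h
      · simp only [θf]; rw [ramp_of_le (show (1:ℝ)/4 < 1/2 by norm_num) h]; simp
      · simp only [θf, max_eq_left h.le]; field_simp
    have hθE : ∀ a b, Commute θ (E a b) := fun a b => cfc_commute hws (hE.commute a b) _ hθc
    have hθs : star θ = θ := (cfc_predicate θf w : IsSelfAdjoint θ).star_eq
    let N : Fin 2 → Fin 2 → F := fun a b => θ * E a b
    have hN : Units2 N ν := by
      refine ⟨fun a b c d => ?_, fun a b => ?_, ?_⟩
      · simp only [N]
        rw [mul_assoc, ← mul_assoc (E a b), ← (hθE a b).eq, mul_assoc, hE.rel]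
        split_ifs
        · rw [← hθw]
          simp only [mul_assoc]
          rw [← mul_assoc θ w (E a d), (cfc_commute hws (Commute.refl w) _ hθc).eq, mul_assoc]
        · simp
      · simp only [N, star_mul, hE.star_eq]
        rw [hθs]
        exact (hθE b a).eq.symm
      · simp only [N, ← mul_add, hE.sum_eq, hθw]
    -- everything of the old state commutes with everything of later pieces
    have hwV : ∀ b, n ≤ b → b < K → ∀ y ∈ V b, Commute w y := fun b h1 h2 y hy => by
      rw [← hE.sum_eq]; exact (hcom b h1 h2 y hy 0 0).add_left (hcom b h1 h2 y hy 1 1)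
    have hfV : ∀ (f : ℝ → ℝ), Continuous f → ∀ b, n ≤ b → b < K → ∀ y ∈ V b,
        Commute (cfc f w) y := fun f hf b h1 h2 y hy => cfc_commute hws (hwV b h1 h2 y hy) f hf
    have hNV : ∀ b, n ≤ b → b < K → ∀ y ∈ V b, ∀ p r, Commute (N p r) y :=
      fun b h1 h2 y hy p r => (hfV θf hθc b h1 h2 y hy).mul_left (hcom b h1 h2 y hy p r)
    have hω₁N : ∀ p r, Commute ω₁ (N p r) := fun p r =>
      cfc_commute hws ((cfc_commute hws (Commute.refl w) _ hθc).symm.mul_right (hE.commute p r)) _
        (continuous_ramp _ _)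
    have hω₁ν : ω₁ * ν = ω₁ := by
      rw [(cfc_commute_cfc (ramp (1/2) 1) (ramp (1/4) (1/2)) w).eq]
      exact cfc_mul_cfc_eq_right w (continuous_ramp _ _) (continuous_ramp _ _)
        (ramp_mul_ramp (by norm_num) (by norm_num) (by norm_num))
    have hω₁0 : 0 ≤ ω₁ := cfc_nonneg fun t _ => ramp_nonneg _ _ _
    have hω₁1 : ω₁ ≤ 1 := cfc_le_one _ _ fun t _ => ramp_le_one _ _ _
    have c1ω : Commute ω₁ (ω n) := hfV _ (continuous_ramp _ _) n le_rfl hnK _ hVω
    have c1H : Commute ω₁ (H n) := hfV _ (continuous_ramp _ _) n le_rfl hnK _ hVH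
    have c1M : ∀ p r, Commute ω₁ (M n p r) := fun p r =>
      hfV _ (continuous_ramp _ _) n le_rfl hnK _ (hVM p r)
    have c1η : Commute ω₁ (η n) := hfV _ (continuous_ramp _ _) n le_rfl hnK _ hVη
    set π := 1 - H n
    have hπ0 : 0 ≤ π := sub_nonneg.2 hH1
    have c1π : Commute ω₁ π := (Commute.one_right _).sub_right c1H
    have cωπ : Commute (ω n) π := (Commute.one_right _).sub_right hωH
    set A := ω₁ * (1 - ω n) + ω₁ * ω n * π with hAdef
    set B := (1 - ω₁) * ω n + ω₁ * ω n * (1 - π) with hBdef
    have comm : ∀ y, Commute ω₁ y → Commute (ω n) y → Commute π y →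
        Commute A y ∧ Commute B y := fun y a b c =>
      ⟨(a.mul_left ((Commute.one_left _).sub_left b)).add_left ((a.mul_left b).mul_left c),
        (((Commute.one_left _).sub_left a).mul_left b).add_left
          ((a.mul_left b).mul_left ((Commute.one_left _).sub_left c))⟩
    have hωV : ∀ b, n < b → b < K → ∀ y ∈ V b, Commute (ω n) y ∧ Commute π y := fun b h1 h2 y hy =>
      ⟨hVV n hnK b h2 h1.ne _ hVω y hy,
        (Commute.one_left _).sub_left (hVV n hnK b h2 h1.ne _ hVH y hy)⟩
    have hA0 : 0 ≤ A := add_nonneg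
      (((Commute.one_right _).sub_right c1ω).mul_nonneg hω₁0 (sub_nonneg.2 hω1))
      ((c1π.mul_left cωπ).mul_nonneg (c1ω.mul_nonneg hω₁0 hω0) hπ0)
    have hB0 : 0 ≤ B := add_nonneg
      (((Commute.one_left _).sub_left c1ω).mul_nonneg (sub_nonneg.2 hω₁1) hω0)
      ((((Commute.one_right _).sub_right c1π).mul_left ((Commute.one_right _).sub_right cωπ)).mul_nonneg
        (c1ω.mul_nonneg hω₁0 hω0) (by simpa [π] using hH0))
    have hsum : A + B = 1 - (1 - ω₁) * (1 - ω n) := by simp only [A, B]; noncomm_ring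
    have cA := comm ω₁ (Commute.refl _) c1ω.symm c1π.symm
    have cW := comm (ω n) c1ω (Commute.refl _) cωπ.symm
    have cP := comm π c1π cωπ (Commute.refl _)
    have cAB : Commute A B :=
      ((comm A (cA.1).symm (cW.1).symm (cP.1).symm).2).symm
    have hAB0 : 0 ≤ A * B := cAB.mul_nonneg hA0 hB0
    have hABs : IsSelfAdjoint (A * B) := .of_nonneg hAB0
    set C := cfc Real.sqrt (A * B)
    have sC : IsSelfAdjoint C := cfc_predicate _ _
    have hCC : C * C = A * B := by
      rw [← cfc_mul Real.sqrt Real.sqrt (A * B) Real.continuous_sqrt.continuousOn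
        Real.continuous_sqrt.continuousOn]
      conv_rhs => rw [← cfc_id' ℝ (A * B)]
      exact cfc_congr fun t ht => Real.mul_self_sqrt (spectrum_nonneg_of_nonneg hAB0 ht)
    have hCy : ∀ y, Commute A y → Commute B y → Commute C y := fun y a b =>
      cfc_commute hABs (a.mul_left b) _ Real.continuous_sqrt
    have c1N := hω₁N
    have cωN : ∀ p r, Commute (ω n) (N p r) := fun p r => (hNV n le_rfl hnK _ hVω p r).symm
    have cπN : ∀ p r, Commute π (N p r) := fun p r =>
      (Commute.one_left _).sub_left (hNV n le_rfl hnK _ hVH p r).symm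
    have cπM : ∀ p r, Commute π (M n p r) := fun p r => (Commute.one_left _).sub_left (hHM p r)
    have cN := fun p r => comm (N p r) (c1N p r) (cωN p r) (cπN p r)
    have cM := fun p r => comm (M n p r) (c1M p r) (hωM p r) (cπM p r)
    have cν : Commute A ν ∧ Commute B ν := by
      rw [← hN.sum_eq]
      exact ⟨(cN 0 0).1.add_right (cN 1 1).1, (cN 0 0).2.add_right (cN 1 1).2⟩
    have cη : Commute A (η n) ∧ Commute B (η n) := by
      rw [← hM.sum_eq]
      exact ⟨(cM 0 0).1.add_right (cM 1 1).1, (cM 0 0).2.add_right (cM 1 1).2⟩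
    have νω : Commute ν (ω n) := hfV _ (continuous_ramp _ _) n le_rfl hnK _ hVω
    have νπ : Commute ν π :=
      (Commute.one_right _).sub_right (hfV _ (continuous_ramp _ _) n le_rfl hnK _ hVH)
    have hA : A * ν = A := by
      simp only [hAdef, add_mul, mul_assoc, ← νπ.eq, ← ((Commute.one_right _).sub_right νω).eq]
      simp only [← mul_assoc, hω₁ν]
      rw [mul_assoc ω₁ (ω n), ← νω.eq, ← mul_assoc, hω₁ν]
    have hηπ : Commute (η n) π := by
      rw [← hM.sum_eq]; exact ((cπM 0 0).add_right (cπM 1 1)).symm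
    have hB : B * η n = B := by
      simp only [hBdef, add_mul, mul_assoc, hωη, ← ((Commute.one_right _).sub_right hηπ).eq]
      rw [← mul_assoc (ω n) (η n), hωη]
    have hker : ∀ y, Commute C y → Commute A y → Commute B y → A * B * y = A * B → C * y = C := by
      intro y cy ay by' h
      refine sub_eq_zero.1 ?_
      have : C * (y - 1) = 0 := eq_zero_of_mul_self_mul sC (by rw [hCC, mul_sub, h, mul_one, sub_self])
      rwa [mul_sub, mul_one] at this
    have hCν : C * ν = C := hker ν (hCy ν cν.1 cν.2) cν.1 cν.2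
      (by rw [mul_assoc, cν.2.eq, ← mul_assoc, hA])
    have hCη : C * η n = C := hker _ (hCy _ cη.1 cη.2) cη.1 cη.2 (by rw [mul_assoc, hB])
    have hU : Units2 (rotated N (M n) A B C) (A + B) :=
      units2_rotated hN hM (fun a b c d => hNV n le_rfl hnK _ (hVM c d) a b)
        (fun a b => (cN a b).1) (fun a b => (cN a b).2)
        (fun a b => hCy _ (cN a b).1 (cN a b).2) (fun a b => (cM a b).1) (fun a b => (cM a b).2)
        (fun a b => hCy _ (cM a b).1 (cM a b).2) cAB
        (hCy A (Commute.refl A) cAB.symm).symm (hCy B cAB (Commute.refl B)).symm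
        (.of_nonneg hA0) (.of_nonneg hB0) sC hA hB hCν hCη hCC
    have hCrot : Commute C (rot N (M n) 0 0) :=
      (Commute.sum_right _ _ _ fun a _ => (hCy _ (cN _ _).1 (cN _ _).2).mul_right
        (hCy _ (cM _ _).1 (cM _ _).2)).sub_right (Commute.sum_right _ _ _ fun a _ =>
          (hCy _ (cN _ _).1 (cN _ _).2).mul_right (hCy _ (cM _ _).1 (cM _ _).2))
    refine ⟨rotated N (M n) A B C, A + B, hU, add_nonneg hA0 hB0, ?_, ?_, ?_, ?_⟩
    · rw [hsum]
      exact sub_le_self _ (((Commute.one_right _).sub_right ((Commute.one_left _).sub_left c1ω)).mul_nonneg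
        (sub_nonneg.2 hω₁1) (sub_nonneg.2 hω1))
    · intro b hb hbK y hy p r
      have h1 : ∀ q s, Commute (N q s) y := fun q s => hNV b (by omega) hbK y hy q s
      have h2 : ∀ q s, Commute (M n q s) y := fun q s =>
        hVV n hnK b hbK (by omega) _ (hVM q s) y hy
      have h3 := comm y (hfV _ (continuous_ramp _ _) b (by omega) hbK y hy)
        (hωV b (by omega) hbK y hy).1 (hωV b (by omega) hbK y hy).2
      exact ((h3.1.mul_left (h1 p r)).add_left (h3.2.mul_left (h2 p r))).add_left
        (((hCy y h3.1 h3.2).mul_left ((Commute.sum_left _ _ _ fun a _ => (h1 _ _).mul_left (h2 _ _)).sub_left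
          (Commute.sum_left _ _ _ fun a _ => (h1 _ _).mul_left (h2 _ _)))).smul_left I)
    · intro b hb u hu
      rw [hsum, sub_mul, one_mul, sub_eq_self]
      rcases Nat.lt_succ_iff_lt_or_eq.1 hb with h | rfl
      · have h1 : ω₁ * u = u := by
          have := cfc_absorb hws (c := 1) (X := u) (by rw [hwu b h u hu, one_smul]) _
            (continuous_ramp (1/2) 1)
          rwa [ramp_of_ge (by norm_num) le_rfl, one_smul] at this
        rw [((((Commute.one_right _).sub_right ((Commute.one_left _).sub_left c1ω)))).eq, mul_assoc,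
          sub_mul 1 ω₁, one_mul, h1, sub_self, mul_zero]
      · rw [mul_assoc, sub_mul 1 (ω b), one_mul, hu, sub_self, mul_zero]
    · intro T u hin hout hex
      by_cases hnT : n ∈ T
      · obtain ⟨h1, h2, h3⟩ := hin n hnK hnT
        have hπu : π * u = 0 := by simp [π, sub_mul, h2]
        have hAu : A * u = 0 := by
          simp only [A, add_mul, mul_assoc, hπu, mul_zero, sub_mul, one_mul, h1, sub_self, add_zero]
        have hBu : B * u = u := by
          simp only [B, add_mul, mul_assoc, h1, sub_mul, one_mul, hπu, sub_zero, sub_add_cancel]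
        have hCu : C * u = 0 := eq_zero_of_mul_self_mul sC (by rw [hCC, mul_assoc, hBu, hAu])
        refine ⟨by rw [add_mul, hAu, hBu, zero_add], ?_⟩
        simp only [rotated, add_mul, smul_mul_assoc]
        rw [(cN 0 0).1.eq, mul_assoc (N 0 0) A u, hAu, mul_zero, zero_add, mul_assoc B, h3, hBu,
          hCrot.eq,
          mul_assoc _ C u, hCu, mul_zero, smul_zero, add_zero]
      · have hold : ∃ b < n, b ∈ T := by
          obtain ⟨b, hb, hbT⟩ := hex
          exact ⟨b, lt_of_le_of_ne (by omega) (fun h => hnT (h ▸ hbT)), hbT⟩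
        obtain ⟨h1, h2⟩ := hT T u hin hout hold
        have hπu : π * u = u := by simp [π, sub_mul, hout n hnK hnT]
        have hω₁u : ω₁ * u = u := by
          have := cfc_absorb hws (c := 1) (X := u) (by rw [h1, one_smul]) _
            (continuous_ramp (1/2) 1)
          rwa [ramp_of_ge (by norm_num) le_rfl, one_smul] at this
        have hθu : θ * u = u := by
          have := cfc_absorb hws (c := 1) (X := u) (by rw [h1, one_smul]) _ hθc
          rwa [show θf 1 = 1 by
              simp only [θf]
              rw [ramp_of_ge (show (1:ℝ)/4 < 1/2 by norm_num) (show (1:ℝ)/2 ≤ 1 by norm_num),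
                max_eq_left (show (1:ℝ)/4 ≤ 1 by norm_num), div_one],
            one_smul] at this
        have hAu : A * u = u := by
          simp only [A, add_mul, mul_assoc, hπu]
          rw [← mul_add, ← add_mul, sub_add_cancel, one_mul, hω₁u]
        have hBu : B * u = 0 := by
          simp only [B, add_mul, mul_assoc, sub_mul, one_mul, hπu, sub_self, mul_zero, add_zero]
          rw [← mul_assoc, c1ω.eq, mul_assoc, hω₁u, sub_self]
        have hCu : C * u = 0 := eq_zero_of_mul_self_mul sC (by rw [hCC, mul_assoc, hBu, mul_zero])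
        refine ⟨by rw [add_mul, hAu, hBu, add_zero], ?_⟩
        simp only [rotated, add_mul, smul_mul_assoc]
        rw [mul_assoc A, show N 0 0 * u = u by simp only [N, mul_assoc, h2, hθu], hAu,
          (cM 0 0).2.eq, mul_assoc (M n 0 0) B u, hBu, mul_zero, add_zero,
          hCrot.eq,
          mul_assoc _ C u, hCu, mul_zero, smul_zero, add_zero]

/-- Passing from a weighted system to a row `c₀, c₁`. -/
theorem row_of_units {E : Fin 2 → Fin 2 → F} {w : F} (hE : Units2 E w) (hw0 : 0 ≤ w)
    (hw1 : w ≤ 1) :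
    ∃ c₀ c₁ g : F, 0 ≤ c₀ ∧ c₀ * star c₁ = 0 ∧ c₁ * star c₁ = c₀ * c₀ ∧
      star c₀ * c₀ + star c₁ * c₁ = g ∧ g ≤ 1 ∧ (∀ u, w * u = u → g * u = u) ∧
      (∀ u, w * u = u → E 0 0 * u = u → c₀ * u = u) := by
  have hws : IsSelfAdjoint w := .of_nonneg hw0
  let θf : ℝ → ℝ := fun t => ramp (1/4) (1/2) t / max t (1/4)
  let sf : ℝ → ℝ := fun t => Real.sqrt (ramp (1/2) 1 t)
  let ff : ℝ → ℝ := fun t => sf t * θf t
  have hθc : Continuous θf := (continuous_ramp _ _).div (by fun_prop)
    fun t => ne_of_gt (lt_max_of_lt_right (by norm_num))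
  have hsc : Continuous sf := by fun_prop
  have hfc : Continuous ff := hsc.mul hθc
  set f := cfc ff w
  have hfs : star f = f := (cfc_predicate ff w : IsSelfAdjoint f).star_eq
  have hfE : ∀ a b, Commute f (E a b) := fun a b => cfc_commute hws (hE.commute a b) _ hfc
  have key : ∀ t, ff t * ff t * (t * t) = ramp (1/2) 1 t := fun t => by
    rcases le_or_gt t (1/2) with h | h
    · simp only [ff, sf]; rw [ramp_of_le (show (1:ℝ)/2 < 1 by norm_num) h]; simp
    · have hθ : θf t * t = 1 := by
        simp only [θf, max_eq_left (by linarith : (1:ℝ)/4 ≤ t),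
          ramp_of_ge (show (1:ℝ)/4 < 1/2 by norm_num) h.le]
        field_simp
      calc ff t * ff t * (t * t) = sf t * sf t * (θf t * t) * (θf t * t) := by simp only [ff]; ring
        _ = ramp (1/2) 1 t := by
          rw [hθ, mul_one, mul_one]; exact Real.mul_self_sqrt (ramp_nonneg _ _ _)
  have hg : f * f * (w * w) = cfc (ramp (1/2) 1) w := by
    conv_lhs => enter [2]; rw [← cfc_id' ℝ w]
    rw [← cfc_mul (fun t => t) (fun t => t) w continuousOn_id continuousOn_id,
      ← cfc_mul ff ff w hfc.continuousOn hfc.continuousOn,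
      ← cfc_mul (fun t => ff t * ff t) (fun t => t * t) w (hfc.mul hfc).continuousOn (by fun_prop)]
    exact cfc_congr fun t _ => key t
  -- products of two rows
  have prod : ∀ a b c d, f * E a b * (f * E c d) = if b = c then f * f * w * E a d else 0 := by
    intro a b c d
    rw [mul_assoc, ← mul_assoc (E a b), ← (hfE a b).eq, mul_assoc, ← mul_assoc, hE.rel]
    split_ifs <;> simp [mul_assoc]
  have hsE : ∀ a b, star (f * E a b) = f * E b a := fun a b => by
    rw [star_mul, hE.star_eq, hfs, (hfE b a).eq]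
  refine ⟨f * E 0 0, f * E 0 1, cfc (ramp (1/2) 1) w, ?_, ?_, ?_, ?_,
    cfc_le_one _ _ fun t _ => ramp_le_one _ _ _, fun u hu => ?_, fun u hu hu' => ?_⟩
  · let gf : ℝ → ℝ := fun t => ff t / max t (1/4)
    have hgc : Continuous gf := hfc.div (by fun_prop)
      fun t => ne_of_gt (lt_max_of_lt_right (by norm_num))
    have hgw : cfc gf w * w = f := by
      conv_lhs => enter [2]; rw [← cfc_id' ℝ w]
      rw [← cfc_mul gf (fun t => t) w hgc.continuousOn continuousOn_id]
      refine cfc_congr fun t _ => ?_
      rcases le_or_gt t (1/4) with h | h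
      · simp only [gf, ff, sf, θf]; rw [ramp_of_le (show (1:ℝ)/4 < 1/2 by norm_num) h]; simp
      · simp only [gf, max_eq_left h.le]; field_simp
    have h00 : f * E 0 0 = cfc gf w * (star (E 0 0) * E 0 0) := by
      rw [hE.star_eq, hE.rel, if_pos rfl, ← mul_assoc, hgw]
    rw [h00]
    refine Commute.mul_nonneg (cfc_nonneg fun t _ => ?_) (star_mul_self_nonneg _) ?_
    · exact div_nonneg (mul_nonneg (Real.sqrt_nonneg _) (div_nonneg (ramp_nonneg _ _ _)
        (le_max_of_le_right (by norm_num)))) (le_max_of_le_right (by norm_num))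
    · rw [hE.star_eq]
      exact cfc_commute hws ((hE.commute 0 0).mul_right (hE.commute 0 0)) _ hgc
  · rw [hsE, prod]; simp
  · rw [hsE, prod, prod]; simp
  · rw [hsE, hsE, prod, prod, if_pos rfl, if_pos rfl, ← mul_add, hE.sum_eq, mul_assoc, hg]
  · have := cfc_absorb hws (c := 1) (X := u) (by rw [hu, one_smul]) _ (continuous_ramp (1/2) 1)
    rwa [ramp_of_ge (by norm_num) le_rfl, one_smul] at this
  · have := cfc_absorb hws (c := 1) (X := u) (by rw [hu, one_smul]) _ hfc
    rw [mul_assoc, hu', this, show ff 1 = 1 by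
      simp only [ff, sf, θf]
      rw [ramp_of_ge (show (1:ℝ)/4 < 1/2 by norm_num) (show (1:ℝ)/2 ≤ 1 by norm_num),
        ramp_of_ge (show (1:ℝ)/2 < 1 by norm_num) le_rfl,
        max_eq_left (show (1:ℝ)/4 ≤ 1 by norm_num), Real.sqrt_one, div_one, one_mul], one_smul]

end Fold

end Vale.Agent.P101
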