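import Vale.Agent.P101.Fold

/-!
# P101: the order zero system of a square-zero element
-/

namespace Vale.Agent.P101

variable {F : Type*} [CStarAlgebra F]

/-- The left support element of `z`. -/
noncomputable def lmod (z : F) : F := z * star z

/-- The right support element of `z`. -/
noncomputable def rmod (z : F) : F := star z * z

/-- A function vanishing at `0` applied to both halves. -/
noncomputable def both (z : F) (f : ℝ → ℝ) : F := cfc f (lmod z) + cfc f (rmod z)

theorem lmod_sa (z : F) : IsSelfAdjoint (lmod z) := .mul_star_self z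

theorem rmod_sa (z : F) : IsSelfAdjoint (rmod z) := .star_mul_self z

theorem cfc_lmod_mul (z : F) (f : ℝ → ℝ) (hf : Continuous f) :
    cfc f (lmod z) * z = z * cfc f (rmod z) :=
  cfc_intertwine (lmod_sa z) (rmod_sa z) (mul_assoc z (star z) z) f hf

variable {z : F}

theorem rmod_cfc_mul_self (hz : z * z = 0) (f : ℝ → ℝ) (hf : Continuous f) (hf0 : f 0 = 0) :
    cfc f (rmod z) * z = 0 := by
  rw [cfc_absorb (rmod_sa z) (c := 0) (X := z) (by simp [rmod, mul_assoc, hz]) f hf, hf0, zero_smul]

theorem self_mul_cfc_lmod (hz : z * z = 0) (f : ℝ → ℝ) (hf : Continuous f) (hf0 : f 0 = 0) :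
    z * cfc f (lmod z) = 0 := by
  have h : lmod z * star z = (0 : ℝ) • star z := by
    rw [lmod, mul_assoc, ← star_mul, hz, star_zero, mul_zero, zero_smul]
  have e := congr_arg star (cfc_absorb (lmod_sa z) h f hf)
  rwa [star_mul, star_star, (cfc_predicate f (lmod z) : IsSelfAdjoint _).star_eq, hf0, zero_smul,
    star_zero] at e

theorem cfc_lmod_mul_cfc_rmod (hz : z * z = 0) (f g : ℝ → ℝ) (hf : Continuous f) (hf0 : f 0 = 0)
    (hg : Continuous g) (hg0 : g 0 = 0) :
    cfc f (lmod z) * cfc g (rmod z) = 0 ∧ cfc g (rmod z) * cfc f (lmod z) = 0 := by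
  have h : cfc g (rmod z) * lmod z = 0 := by
    rw [lmod, ← mul_assoc, rmod_cfc_mul_self hz g hg hg0, zero_mul]
  have h' : lmod z * cfc g (rmod z) = 0 := by
    have := congr_arg star h
    rwa [star_mul, (lmod_sa z).star_eq, (cfc_predicate g (rmod z) : IsSelfAdjoint _).star_eq,
      star_zero] at this
  have h1 : cfc f (lmod z) * cfc g (rmod z) = 0 := by
    rw [cfc_absorb (lmod_sa z) (c := 0) (X := cfc g (rmod z)) (by rw [h', zero_smul]) f hf, hf0,
      zero_smul]
  refine ⟨h1, ?_⟩
  have := congr_arg star h1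
  rwa [star_mul, (cfc_predicate f (lmod z) : IsSelfAdjoint _).star_eq,
    (cfc_predicate g (rmod z) : IsSelfAdjoint _).star_eq, star_zero] at this

theorem both_mul_both (hz : z * z = 0) (f g : ℝ → ℝ) (hf : Continuous f) (hf0 : f 0 = 0)
    (hg : Continuous g) (hg0 : g 0 = 0) : both z f * both z g = both z fun t => f t * g t := by
  simp only [both, add_mul, mul_add, (cfc_lmod_mul_cfc_rmod hz f g hf hf0 hg hg0).1,
    (cfc_lmod_mul_cfc_rmod hz g f hg hg0 hf hf0).2, add_zero, zero_add,
    cfc_mul f g _ hf.continuousOn hg.continuousOn]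

theorem both_mul_cfc (hz : z * z = 0) (f g : ℝ → ℝ) (hf : Continuous f) (hf0 : f 0 = 0)
    (hg : Continuous g) (hg0 : g 0 = 0) :
    both z f * cfc g (lmod z) = cfc (fun t => f t * g t) (lmod z) := by
  simp only [both, add_mul, (cfc_lmod_mul_cfc_rmod hz g f hg hg0 hf hf0).2, add_zero,
    cfc_mul f g _ hf.continuousOn hg.continuousOn]

theorem both_nonneg [PartialOrder F] [StarOrderedRing F] (f : ℝ → ℝ) (hf : ∀ t, 0 ≤ f t) :
    0 ≤ both z f :=
  add_nonneg (cfc_nonneg fun t _ => hf t) (cfc_nonneg fun t _ => hf t)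

theorem both_le_one [PartialOrder F] [StarOrderedRing F] (hz : z * z = 0) (f : ℝ → ℝ)
    (hf : Continuous f) (hf0 : f 0 = 0) (h1 : ∀ t, 0 ≤ f t ∧ f t ≤ 1) : both z f ≤ 1 := by
  have hs : IsSelfAdjoint (both z f) := .of_nonneg (both_nonneg f fun t => (h1 t).1)
  have hle : both z f * both z f ≤ both z f := by
    rw [both_mul_both hz f f hf hf0 hf hf0]
    exact add_le_add
      (cfc_mono fun t _ => mul_le_of_le_one_left (h1 t).1 (h1 t).2)
      (cfc_mono fun t _ => mul_le_of_le_one_left (h1 t).1 (h1 t).2)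
  have := star_mul_self_nonneg (1 - both z f)
  rw [star_sub, star_one, hs.star_eq] at this
  have e : (1 - both z f) * (1 - both z f)
      = (1 - both z f) + (both z f * both z f - both z f) := by noncomm_ring
  rw [e] at this
  have h2 : 0 ≤ 1 - both z f := this.trans (by simpa using hle)
  exact sub_nonneg.1 h2

/-- The matrix units. -/
noncomputable def unitsOf (z : F) (η φ : ℝ → ℝ) : Fin 2 → Fin 2 → F :=
  ![![cfc η (lmod z), z * cfc φ (rmod z)], ![cfc φ (rmod z) * star z, cfc η (rmod z)]]

theorem units2_unitsOf (hz : z * z = 0) (η φ : ℝ → ℝ) (hη : Continuous η) (hη0 : η 0 = 0)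
    (hφ : Continuous φ) (hφ0 : φ 0 = 0) (hηφ : ∀ t, 0 ≤ t → t * (φ t * φ t) = η t * η t) :
    Units2 (unitsOf z η φ) (both z η) := by
  set u := z * cfc φ (rmod z) with hu
  set P := cfc η (lmod z)
  set Q := cfc η (rmod z)
  have hus : star u = cfc φ (rmod z) * star z := by
    rw [hu, star_mul, (cfc_predicate φ (rmod z) : IsSelfAdjoint _).star_eq]
  have hPs : star P = P := (cfc_predicate η (lmod z) : IsSelfAdjoint P).star_eq
  have hQs : star Q = Q := (cfc_predicate η (rmod z) : IsSelfAdjoint Q).star_eq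
  obtain ⟨hPQ, hQP⟩ := cfc_lmod_mul_cfc_rmod hz η η hη hη0 hη hη0
  have huu : u * u = 0 := by
    rw [hu, mul_assoc, ← mul_assoc (cfc φ (rmod z)), rmod_cfc_mul_self hz φ hφ hφ0, zero_mul,
      mul_zero]
  have hnn : ∀ a : F, IsSelfAdjoint a → (∀ t ∈ spectrum ℝ a, (0:ℝ) ≤ t) →
      cfc (fun t => t * (φ t * φ t)) a = cfc η a * cfc η a := by
    intro a ha h
    rw [← cfc_mul η η a hη.continuousOn hη.continuousOn]
    exact cfc_congr fun t ht => hηφ t (h t ht)
  let _ := CStarAlgebra.spectralOrder F
  have _ := CStarAlgebra.spectralOrderedRing F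
  have h10 : star u * u = Q * Q := by
    rw [hus, hu, ← hnn _ (rmod_sa z) fun t ht =>
      spectrum_nonneg_of_nonneg (star_mul_self_nonneg z) ht]
    calc cfc φ (rmod z) * star z * (z * cfc φ (rmod z))
        = cfc φ (rmod z) * rmod z * cfc φ (rmod z) := by simp [rmod, mul_assoc]
      _ = _ := by
        conv_lhs => enter [1, 2]; rw [← cfc_id' ℝ (rmod z) (rmod_sa z)]
        rw [← cfc_mul φ (fun t => t) _ hφ.continuousOn (continuousOn_id' _),
          ← cfc_mul (fun t => φ t * t) φ _ (hφ.mul continuous_id').continuousOn hφ.continuousOn]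
        exact cfc_congr fun t _ => by ring
  have h01 : u * star u = P * P := by
    rw [hus, hu, ← hnn _ (lmod_sa z) fun t ht =>
      spectrum_nonneg_of_nonneg (mul_star_self_nonneg z) ht]
    calc z * cfc φ (rmod z) * (cfc φ (rmod z) * star z)
        = cfc φ (lmod z) * cfc φ (lmod z) * lmod z := by
          rw [lmod, ← cfc_lmod_mul z φ hφ]
          simp only [mul_assoc]
          rw [← mul_assoc z (cfc φ (rmod z)), ← cfc_lmod_mul z φ hφ]
          simp [mul_assoc, lmod]
      _ = _ := by
        conv_lhs => enter [2]; rw [← cfc_id' ℝ (lmod z) (lmod_sa z)]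
        rw [← cfc_mul φ φ _ hφ.continuousOn hφ.continuousOn,
          ← cfc_mul (fun t => φ t * φ t) (fun t => t) _ (hφ.mul hφ).continuousOn
            (continuousOn_id' _)]
        exact cfc_congr fun t _ => by ring
  have hPu : P * u = u * Q := by
    rw [hu, ← mul_assoc, cfc_lmod_mul z η hη, mul_assoc, mul_assoc,
      (cfc_commute_cfc η φ (rmod z)).eq]
  have hQu : Q * u = 0 := by rw [hu, ← mul_assoc, rmod_cfc_mul_self hz η hη hη0, zero_mul]
  have huP : u * P = 0 := by
    rw [hu, mul_assoc, (cfc_lmod_mul_cfc_rmod hz η φ hη hη0 hφ hφ0).2, mul_zero]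
  have hQu' : star u * Q = 0 := by
    have := congr_arg star hQu; rwa [star_mul, hQs, star_zero] at this
  have hPu' : P * star u = 0 := by
    have := congr_arg star huP; rwa [star_mul, hPs, star_zero] at this
  have hQu'' : Q * star u = star u * P := by
    have := congr_arg star hPu; rw [star_mul P u, star_mul u Q, hPs, hQs] at this; exact this.symm
  have huu' : star u * star u = 0 := by rw [← star_mul, huu, star_zero]
  have hM : unitsOf z η φ = ![![P, u], ![star u, Q]] := by rw [unitsOf, hus]
  rw [hM]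
  refine ⟨fun a b c d => ?_, fun a b => ?_, by simp [both, P, Q]⟩
  · fin_cases a <;> fin_cases b <;> fin_cases c <;> fin_cases d <;>
      simp [both, add_mul, hPQ, hQP, huu, h10, h01, hPu, hQu, huP, hQu', hPu', hQu'', huu', P, Q]
  · fin_cases a <;> fin_cases b <;> simp [hPs, hQs]

theorem both_commute (hz : z * z = 0) (f η φ : ℝ → ℝ) (hf : Continuous f) (hf0 : f 0 = 0)
    (hη : Continuous η) (hφ : Continuous φ) (a b : Fin 2) :
    Commute (both z f) (unitsOf z η φ a b) := by
  have hs : star (both z f) = both z f := by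
    simp [both, star_add, (cfc_predicate f (lmod z) : IsSelfAdjoint _).star_eq,
      (cfc_predicate f (rmod z) : IsSelfAdjoint _).star_eq]
  have h01 : both z f * z = z * cfc f (rmod z) ∧ z * both z f = z * cfc f (rmod z) := by
    constructor
    · rw [both, add_mul, rmod_cfc_mul_self hz f hf hf0, add_zero, cfc_lmod_mul z f hf]
    · rw [both, mul_add, self_mul_cfc_lmod hz f hf hf0, zero_add]
  have hz1 : Commute (both z f) z := h01.1.trans h01.2.symm
  have hz2 : Commute (both z f) (star z) := by
    have := congr_arg star hz1.eq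
    rw [star_mul, star_mul, hs] at this
    exact this.symm
  have hfr : Commute (both z f) (cfc φ (rmod z)) :=
    (cfc_commute (rmod_sa z) (hz2.mul_right hz1).symm φ hφ).symm
  fin_cases a <;> fin_cases b
  · exact (cfc_commute (lmod_sa z) (hz1.mul_right hz2).symm η hη).symm
  · exact hz1.mul_right hfr
  · exact hfr.mul_right hz2
  · exact (cfc_commute (rmod_sa z) (hz2.mul_right hz1).symm η hη).symm

end Vale.Agent.P101
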