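import Vale.Agent.P101.SquareZero
import Vale.Agent.P101.Sys
import Vale.Agent.P101.Bilinear

/-!
# P101: no characters give the generators of `Z_{2,3}`
-/

namespace Vale.Agent.P101

open Filter Topology

variable {F : Type*} [CStarAlgebra F] [PartialOrder F] [StarOrderedRing F]

theorem exists_le_sum_of_id {g : F} (hg : IsSelfAdjoint g) {x : F} (h : Id {g} x) :
    ∃ (J : ℕ) (y : Fin J → F), star x * x ≤ ∑ j, star (g * y j) * (g * y j) := by
  induction h with
  | zero => exact ⟨0, Fin.elim0, by simp⟩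
  | gen p v q hv =>
    rw [Set.mem_singleton_iff] at hv
    subst hv
    refine ⟨1, fun _ => Real.sqrt ‖star p * p‖ • q, ?_⟩
    calc star (p * v * q) * (p * v * q) = star (v * q) * (star p * p) * (v * q) := by
          simp [mul_assoc]
      _ ≤ ‖star p * p‖ • (star (v * q) * (v * q)) :=
          CStarAlgebra.star_left_conjugate_le_norm_smul (.star_mul_self p)
      _ = _ := by
          simp [mul_smul_comm, smul_mul_assoc, smul_smul, Real.mul_self_sqrt (norm_nonneg _)]
  | @add a b _ _ ha hb =>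
    obtain ⟨J₁, y₁, h₁⟩ := ha
    obtain ⟨J₂, y₂, h₂⟩ := hb
    refine ⟨J₁ + J₂, fun j => Real.sqrt 2 • Fin.append y₁ y₂ j, ?_⟩
    refine (star_add_mul_add_le _ _).trans
      ((smul_le_smul_of_nonneg_left (add_le_add h₁ h₂) zero_le_two).trans_eq ?_)
    simp [Fin.sum_univ_add, smul_add, Finset.smul_sum, mul_smul_comm, smul_mul_assoc, smul_smul]

/-- A function vanishing below `c`, divided by the square root. -/
noncomputable def divSqrt (c : ℝ) (f : ℝ → ℝ) (t : ℝ) : ℝ := f t / Real.sqrt (max t c)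

/-- A full high cut, with a normalised column of witnesses. -/
theorem exists_high_cut [Nontrivial F] {z : F} (hz : z * z = 0) (hzfull : Id {z} 1) :
    ∃ bb : ℝ, 0 < bb ∧ ∃ (J : ℕ) (y : Fin J → F), (∑ j, star (y j) * y j = 1) ∧
      ∀ f : ℝ → ℝ, Continuous f → f 0 = 0 →
        (∀ t, f t * ramp bb (2 * bb) t = ramp bb (2 * bb) t) → ∀ j,
          both z f * y j = y j ∧ cfc f (lmod z) * y j = y j := by
  -- the high cut of the left support is full
  obtain ⟨bb, hbfull, hb⟩ : ∃ bb : ℝ, Id {cfc (ramp bb (2 * bb)) (lmod z)} 1 ∧ 0 < bb := by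
    refine ((hzfull.eventually_full (l := 𝓝[>] (0:ℝ))
      (Y := fun t => {cfc (ramp t (2 * t)) (lmod z)}) ?_).and self_mem_nhdsWithin).exists
    intro x hx ε hε
    rw [Set.mem_singleton_iff] at hx
    subst hx
    filter_upwards [Ioo_mem_nhdsGT (show (0:ℝ) < ε ^ 2 / 2 by positivity)] with t ⟨ht0, ht⟩
    refine ⟨_, (Id.of_mem (Set.mem_singleton _)).mul_right x, ?_⟩
    set g := cfc (ramp t (2 * t)) (lmod x)
    let f : ℝ → ℝ := fun s => 1 - ramp t (2 * t) s
    have hfc : Continuous f := by fun_prop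
    have hf : cfc f (lmod x) = 1 - g := by
      rw [cfc_sub (fun _ => (1:ℝ)) (ramp t (2 * t)) _ continuousOn_const
        (continuous_ramp _ _).continuousOn, cfc_const_one ℝ (lmod x) (lmod_sa x)]
    have h1 : ‖x - g * x‖ ^ 2 ≤ 2 * t := by
      rw [show x - g * x = cfc f (lmod x) * x by rw [hf, sub_mul, one_mul], sq,
        ← CStarRing.norm_self_mul_star, star_mul,
        (cfc_predicate f (lmod x) : IsSelfAdjoint _).star_eq]
      rw [show cfc f (lmod x) * x * (star x * cfc f (lmod x))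
        = cfc f (lmod x) * lmod x * cfc f (lmod x) by simp [lmod, mul_assoc],
        cfc_mul_self_mul (lmod_sa x) f hfc]
      refine norm_cfc_le (by positivity) fun s hs => ?_
      have hs0 : 0 ≤ s := spectrum_nonneg_of_nonneg (mul_star_self_nonneg x) hs
      rw [Real.norm_eq_abs]
      rcases le_or_gt (2 * t) s with h | h
      · simp [f, ramp_of_ge (show t < 2 * t by linarith) h]; positivity
      · have h0 := ramp_nonneg t (2 * t) s
        have h1 := ramp_le_one t (2 * t) s
        simp only [f]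
        rw [abs_of_nonneg (mul_nonneg (mul_nonneg (by linarith) hs0) (by linarith))]
        calc (1 - ramp t (2 * t) s) * s * (1 - ramp t (2 * t) s) ≤ 1 * (2 * t) * 1 := by
              gcongr <;> linarith
          _ = 2 * t := by ring
    nlinarith [norm_nonneg (x - g * x)]
  set g := cfc (ramp bb (2 * bb)) (lmod z) with hgdef
  have hgs : IsSelfAdjoint g := cfc_predicate _ _
  obtain ⟨J, y₀, hy₀⟩ := exists_le_sum_of_id hgs hbfull
  set T := ∑ j, star (g * y₀ j) * (g * y₀ j) with hT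
  have hT1 : (1 : F) ≤ T := by simpa using hy₀
  have hTp : IsStrictlyPositive T :=
    (CStarAlgebra.isUnit_of_le 1 hT1).isStrictlyPositive (zero_le_one.trans hT1)
  set r := T ^ (-(1 / 2) : ℝ) with hr
  have hrT : r * T * r = 1 := CFC.conjugate_rpow_neg_one_half T hTp
  have hrs : star r = r := (IsSelfAdjoint.of_nonneg CFC.rpow_nonneg).star_eq
  let y : Fin J → F := fun j => g * (y₀ j * r)
  have hy1 : ∑ j, star (y j) * y j = 1 := by
    rw [← hrT, hT, Finset.mul_sum, Finset.sum_mul]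
    refine Finset.sum_congr rfl fun j _ => ?_
    simp only [y, star_mul, hrs, mul_assoc]
  refine ⟨bb, hb, J, y, hy1, ?_⟩
  have hγc : Continuous (ramp bb (2 * bb)) := continuous_ramp _ _
  have hγ0 : ramp bb (2 * bb) 0 = 0 := ramp_of_le (by linarith) (by linarith)
  intro f hf hf0 hfγ j
  simp only [y, hgdef, ← mul_assoc]
  rw [both_mul_cfc hz f _ hf hf0 hγc hγ0, ← cfc_mul f (ramp bb (2 * bb)) _ hf.continuousOn hγc.continuousOn]
  simp only [hfγ, and_self]


/-- The inner product of the twisted sum over pairs of copies. -/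
theorem star_pairSum_mul (q J : ℕ) (hq : q.Prime) (Y : ℕ → Fin J → F) (P : F) (hPs : star P = P)
    (V : ℕ → Set F) (hYV : ∀ b j, Y b j ∈ V b) (hYsV : ∀ b j, star (Y b j) ∈ V b)
    (hVV : ∀ a < q + q, ∀ b < q + q, a ≠ b → ∀ x ∈ V a, ∀ y ∈ V b, Commute x y)
    (hYP : ∀ b < q + q, ∀ j, star (Y b j) * P = 0) :
    star ((q : ℝ)⁻¹ • ∑ l ∈ Finset.range q, ∑ l' ∈ Finset.range q, ∑ p : Fin J × Fin J,
        root q ^ ((((p.1 : ℕ) : ℤ) * J + (p.2 : ℕ)) * l * l') • (Y l p.1 * Y (q + l') p.2 * P)) *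
      ((q : ℝ)⁻¹ • ∑ l ∈ Finset.range q, ∑ l' ∈ Finset.range q, ∑ p : Fin J × Fin J,
        root q ^ ((((p.1 : ℕ) : ℤ) * J + (p.2 : ℕ)) * l * l') • (Y l p.1 * Y (q + l') p.2 * P))
    = P * (((q : ℝ)⁻¹ * (q : ℝ)⁻¹) • (∑ l ∈ Finset.range q, ∑ l' ∈ Finset.range q,
      ∑ p : Fin J × Fin J, ∑ p' : Fin J × Fin J,
        root q ^ ((((p'.1 : ℕ) : ℤ) * J + (p'.2 : ℕ) - (((p.1 : ℕ) : ℤ) * J + (p.2 : ℕ))) * l * l') •
          (star (Y l p.1) * Y l p'.1 * (star (Y (q + l') p.2) * Y (q + l') p'.2)))) * P := by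
  let X : ℕ → ℕ → Fin J × Fin J → F := fun l l' p => Y l p.1 * Y (q + l') p.2 * P
  -- orthogonality of different pairs
  have horth : ∀ l < q, ∀ l' < q, ∀ a < q, ∀ a' < q, (l ≠ a ∨ l' ≠ a') → ∀ p p',
      star (X l l' p) * X a a' p' = 0 := by
    intro l hl l' hl' a ha a' ha' h p p'
    have c : ∀ i < q + q, ∀ j < q + q, i ≠ j → ∀ u ∈ V i, ∀ u' ∈ V j, Commute u u' := hVV
    simp only [X, star_mul, hPs]
    by_cases hla : l = a
    · subst hla
      have hl'a : l' ≠ a' := h.resolve_left (fun h => h rfl)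
      have e : star (Y (q + l') p.2) * (Y l p'.1 * Y (q + a') p'.2 * P) = 0 := by
        rw [← mul_assoc, ← mul_assoc, ((c (q + l') (by omega) l (by omega) (by omega) _ (hYsV _ _) _
          (hYV _ _))).eq, mul_assoc (Y l p'.1), (c (q + l') (by omega) (q + a') (by omega)
          (by omega) _ (hYsV _ _) _ (hYV _ _)).eq, mul_assoc, mul_assoc, hYP _ (by omega), mul_zero,
          mul_zero]
      calc P * (star (Y (q + l') p.2) * star (Y l p.1)) * (Y l p'.1 * Y (q + a') p'.2 * P)
          = P * star (Y l p.1) * (star (Y (q + l') p.2) * (Y l p'.1 * Y (q + a') p'.2 * P)) := by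
            rw [(c (q + l') (by omega) l (by omega) (by omega) _ (hYsV _ _) _ (hYsV _ _)).eq]
            simp only [mul_assoc]
        _ = 0 := by rw [e, mul_zero]
    · have e : star (Y l p.1) * (Y a p'.1 * Y (q + a') p'.2 * P) = 0 := by
        rw [← mul_assoc, ← mul_assoc, (c l (by omega) a (by omega) hla _ (hYsV _ _) _ (hYV _ _)).eq,
          mul_assoc (Y a p'.1), (c l (by omega) (q + a') (by omega) (by omega) _ (hYsV _ _) _
          (hYV _ _)).eq, mul_assoc, mul_assoc, hYP _ (by omega), mul_zero, mul_zero]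
      rw [mul_assoc, mul_assoc (star (Y (q + l') p.2)), e, mul_zero, mul_zero]
  let b : ℕ → Fin J → Fin J → F := fun l j k => star (Y l j) * Y l k
  have hsame : ∀ l < q, ∀ l' < q, ∀ p p', star (X l l' p) * X l l' p'
      = P * (b l p.1 p'.1 * b (q + l') p.2 p'.2) * P := by
    intro l hl l' hl' p p'
    simp only [X, star_mul, hPs, b, mul_assoc]
    congr 1
    rw [← mul_assoc (star (Y l p.1)), ← mul_assoc (star (Y (q + l') p.2)),
      ((hVV (q + l') (by omega) l (by omega) (by omega) _ (hYsV _ _) _ (hYsV _ _)).mul_right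
        (hVV (q + l') (by omega) l (by omega) (by omega) _ (hYsV _ _) _ (hYV _ _))).eq]
    simp only [mul_assoc]
  let n : Fin J × Fin J → ℤ := fun p => ((p.1 : ℕ) : ℤ) * J + (p.2 : ℕ)
  let t : ℕ → ℕ → F := fun l l' => ∑ p : Fin J × Fin J, root q ^ (n p * l * l') • X l l' p
  let v₀ := (q : ℝ)⁻¹ • ∑ l ∈ Finset.range q, ∑ l' ∈ Finset.range q, t l l'
  have ht0 : ∀ l < q, ∀ l' < q, ∀ a < q, ∀ a' < q, (l ≠ a ∨ l' ≠ a') →
      star (t l l') * t a a' = 0 := fun l hl l' hl' a ha a' ha' h => by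
    simp only [t, star_sum, star_smul, Finset.sum_mul, Finset.mul_sum, smul_mul_assoc, mul_smul_comm]
    simp [horth l hl l' hl' a ha a' ha' h]
  have ht1 : ∀ l < q, ∀ l' < q, star (t l l') * t l l' = P * (∑ p : Fin J × Fin J,
      ∑ p' : Fin J × Fin J,
        root q ^ ((n p' - n p) * l * l') • (b l p.1 p'.1 * b (q + l') p.2 p'.2)) * P := by
    intro l hl l' hl'
    simp only [t, star_sum, star_smul, Finset.sum_mul, Finset.mul_sum, smul_mul_assoc, mul_smul_comm,
      Finset.smul_sum, smul_smul, star_root_zpow hq.ne_zero, hsame l hl l' hl']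
    rw [Finset.sum_comm]
    refine Finset.sum_congr rfl fun p _ => Finset.sum_congr rfl fun p' _ => ?_
    congr 1
    rw [← zpow_add₀ ((root_prim hq.ne_zero).ne_zero hq.ne_zero)]
    ring_nf
  have : star (∑ l ∈ Finset.range q, ∑ l' ∈ Finset.range q, t l l') *
      (∑ l ∈ Finset.range q, ∑ l' ∈ Finset.range q, t l l')
      = ∑ l ∈ Finset.range q, ∑ l' ∈ Finset.range q, star (t l l') * t l l' := by
    simp only [star_sum, Finset.sum_mul]
    refine Finset.sum_congr rfl fun l hl => Finset.sum_congr rfl fun l' hl' => ?_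
    simp only [Finset.mul_sum]
    simp only [Finset.mem_range] at hl hl'
    rw [Finset.sum_eq_single l, Finset.sum_eq_single l']
    · exact fun a ha hne => ht0 l hl l' hl' l hl a (Finset.mem_range.1 ha) (.inr hne.symm)
    · exact fun h => absurd (Finset.mem_range.2 hl') h
    · exact fun a ha hne => Finset.sum_eq_zero fun a' ha' =>
        ht0 l hl l' hl' a (Finset.mem_range.1 ha) a' (Finset.mem_range.1 ha') (.inl hne.symm)
    · exact fun h => absurd (Finset.mem_range.2 hl) h
  change star v₀ * v₀ = _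
  simp only [v₀, star_smul, star_trivial, smul_mul_assoc, mul_smul_comm, smul_smul, this]
  rw [Finset.mul_sum, Finset.sum_mul]
  congr 1
  refine Finset.sum_congr rfl fun l hl => ?_
  rw [Finset.mul_sum, Finset.sum_mul]
  exact Finset.sum_congr rfl fun l' hl' =>
    ht1 l (Finset.mem_range.1 hl) l' (Finset.mem_range.1 hl')


/-- The abstract form of the theorem. -/
theorem exists_z23 (hF : Copyable F) (hχ : IsEmpty (F →⋆ₐ[ℂ] ℂ)) :
    ∃ c₀ c₁ v : F, 0 ≤ c₀ ∧ c₀ * star c₁ = 0 ∧ c₁ * star c₁ = c₀ * c₀ ∧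
      star c₀ * c₀ + star c₁ * c₁ + star v * v = 1 ∧ c₀ * v = v := by
  classical
  rcases subsingleton_or_nontrivial F with _ | _
  · exact ⟨0, 0, 0, le_rfl, Subsingleton.elim _ _, Subsingleton.elim _ _, Subsingleton.elim _ _,
      Subsingleton.elim _ _⟩
  obtain ⟨z, hz, hzfull⟩ := exists_full_square_zero hF hχ
  obtain ⟨bb, hb, J, y, hy1, hy_abs⟩ := exists_high_cut hz hzfull
  set β := 1 + (∑ j, ‖y j‖) ^ 2
  have hβ : 0 < β := by positivity
  obtain ⟨q, hqge, hq⟩ := Nat.exists_infinite_primes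
    (max (J * J + 1) (⌈(2 * (J : ℝ) ^ 4 * β ^ 2) ^ 2⌉₊ + 1))
  have hqJ : J * J < q := lt_of_lt_of_le (Nat.lt_succ_self _) (le_of_max_le_left hqge)
  have hqsmall : (J : ℝ) ^ 4 * β ^ 2 / Real.sqrt q ≤ 1 / 2 := by
    have h1 : (2 * (J : ℝ) ^ 4 * β ^ 2) ^ 2 ≤ q := (Nat.le_ceil _).trans
      (by exact_mod_cast (Nat.le_succ _).trans (le_of_max_le_right hqge))
    have h2 : 2 * (J : ℝ) ^ 4 * β ^ 2 ≤ Real.sqrt q := Real.le_sqrt_of_sq_le h1
    rw [div_le_iff₀ (Real.sqrt_pos.2 (by exact_mod_cast hq.pos))]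
    linarith
  -- the copies
  set K := q + q with hK
  have hK0 : 0 < K := by have := hq.pos; omega
  let G : Set F := insert z (Set.range y)
  obtain ⟨φ', -, hφ'⟩ := hF.copies ((Set.finite_range y).insert z : G.Finite) Set.finite_empty K
  let φ : ℕ → (cs G →⋆ₐ[ℂ] F) := fun b => φ' ⟨b % K, Nat.mod_lt _ hK0⟩
  have hφ : ∀ a < K, ∀ b < K, a ≠ b → ∀ x y, Commute (φ a x) (φ b y) := fun a ha b hb hab x y =>
    hφ' _ _ (by simp [Fin.ext_iff, Nat.mod_eq_of_lt ha, Nat.mod_eq_of_lt hb, hab]) x y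
  let zD : cs G := ⟨z, subset_cs G (.inl rfl)⟩
  let yD : Fin J → cs G := fun j => ⟨y j, subset_cs G (.inr ⟨j, rfl⟩)⟩
  let Z : ℕ → F := fun b => φ b zD
  let Y : ℕ → Fin J → F := fun b j => φ b (yD j)
  have hzD : zD * zD = 0 := Subtype.ext hz
  have hZ : ∀ b, Z b * Z b = 0 := fun b => by simp only [Z, ← map_mul, hzD, map_zero]
  let V : ℕ → Set F := fun b => Set.range (φ b)
  have hVl : ∀ b f, Continuous f → cfc f (lmod (Z b)) ∈ V b := fun b f hf =>
    ⟨cfc f (lmod zD), by rw [map_cfc_cs _ f hf _ (lmod_sa zD)]; simp [lmod, Z, map_star]; rfl⟩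
  have hVr : ∀ b f, Continuous f → cfc f (rmod (Z b)) ∈ V b := fun b f hf =>
    ⟨cfc f (rmod zD), by rw [map_cfc_cs _ f hf _ (rmod_sa zD)]; simp [rmod, Z, map_star]; rfl⟩
  have hVb : ∀ b f, Continuous f → both (Z b) f ∈ V b := fun b f hf => by
    obtain ⟨u, hu⟩ := hVl b f hf
    obtain ⟨u', hu'⟩ := hVr b f hf
    exact ⟨u + u', by rw [map_add, hu, hu']; rfl⟩
  -- the cuts
  let η := ramp (bb / 5) (2 * bb / 5)
  let ω := ramp (2 * bb / 5) (3 * bb / 5)
  let μ := ramp (3 * bb / 5) (4 * bb / 5)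
  let ρ := ramp (4 * bb / 5) bb
  let γ := ramp bb (2 * bb)
  let ξ := divSqrt (bb / 5) η
  have hηc : Continuous η := continuous_ramp _ _
  have hωc : Continuous ω := continuous_ramp _ _
  have hμc : Continuous μ := continuous_ramp _ _
  have hρc : Continuous ρ := continuous_ramp _ _
  have hγc : Continuous γ := continuous_ramp _ _
  have hξc : Continuous ξ := hηc.div (Real.continuous_sqrt.comp (by fun_prop))
    fun t => (Real.sqrt_pos.2 (lt_max_of_lt_right (by linarith))).ne'
  have hη0 : η 0 = 0 := ramp_of_le (by linarith) (by linarith)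
  have hω0 : ω 0 = 0 := ramp_of_le (by linarith) (by linarith)
  have hμ0 : μ 0 = 0 := ramp_of_le (by linarith) (by linarith)
  have hρ0 : ρ 0 = 0 := ramp_of_le (by linarith) (by linarith)
  have hγ0 : γ 0 = 0 := ramp_of_le (by linarith) (by linarith)
  have hξ0 : ξ 0 = 0 := by simp [ξ, divSqrt, hη0]
  have hξη : ∀ t, 0 ≤ t → t * (ξ t * ξ t) = η t * η t := by
    intro t ht
    rcases le_or_gt t (bb / 5) with h | h
    · simp [ξ, divSqrt, show η t = 0 from ramp_of_le (by linarith) h]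
    · simp only [ξ, divSqrt, max_eq_left h.le]
      rw [div_mul_div_comm, Real.mul_self_sqrt ht, mul_comm, div_mul_cancel₀ _ (by linarith)]
  let M : ℕ → Fin 2 → Fin 2 → F := fun b => unitsOf (Z b) η ξ
  have ramp01 : ∀ a b : ℝ, ∀ t, 0 ≤ ramp a b t ∧ ramp a b t ≤ 1 := fun a b t =>
    ⟨ramp_nonneg a b t, ramp_le_one a b t⟩
  have hP : ∀ b < K, Piece (M b) (both (Z b) η) (both (Z b) ω) (both (Z b) ρ) := fun b _ =>
    { units := units2_unitsOf (hZ b) η ξ hηc hη0 hξc hξ0 hξη
      ω_eq := by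
        rw [both_mul_both (hZ b) ω η hωc hω0 hηc hη0]
        congr 1
        exact funext fun t => (mul_comm _ _).trans
          (ramp_mul_ramp (by linarith) le_rfl (by linarith) t)
      ω_nonneg := both_nonneg _ fun t => ramp_nonneg _ _ _
      ω_le := both_le_one (hZ b) _ hωc hω0 (ramp01 _ _)
      H_nonneg := both_nonneg _ fun t => ramp_nonneg _ _ _
      H_le := both_le_one (hZ b) _ hρc hρ0 (ramp01 _ _)
      ω_comm := both_commute (hZ b) ω η ξ hωc hω0 hηc hξc
      H_comm := both_commute (hZ b) ρ η ξ hρc hρ0 hηc hξc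
      ωH := by
        rw [Commute, SemiconjBy, both_mul_both (hZ b) ω ρ hωc hω0 hρc hρ0,
          both_mul_both (hZ b) ρ ω hρc hρ0 hωc hω0]
        simp only [mul_comm] }
  have hV : ∀ b < K, (∀ a c, M b a c ∈ V b) ∧ both (Z b) η ∈ V b ∧ both (Z b) ω ∈ V b ∧
      both (Z b) ρ ∈ V b := fun b _ => by
    refine ⟨fun a c => ?_, hVb b η hηc, hVb b ω hωc, hVb b ρ hρc⟩
    obtain ⟨u, hu⟩ := hVr b ξ hξc
    fin_cases a <;> fin_cases c
    · exact hVl b η hηc
    · exact ⟨zD * u, by simp [map_mul, hu, M, unitsOf, Z]⟩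
    · exact ⟨u * star zD, by simp [map_mul, map_star, hu, M, unitsOf, Z]⟩
    · exact hVr b η hηc
  have hVV : ∀ a < K, ∀ b < K, a ≠ b → ∀ x ∈ V a, ∀ y ∈ V b, Commute x y := by
    rintro a ha b hb hab _ ⟨x, rfl⟩ _ ⟨y, rfl⟩
    exact hφ a ha b hb hab x y
  obtain ⟨E, w, hE, hw0, hw1, -, hwu, hTT⟩ := fold_pieces K M _ _ _ hP V hV hVV K le_rfl
  obtain ⟨c₀, c₁, g', hc0, h01, h11, hsum, hg1, hgw, hc0v⟩ := row_of_units hE hw0 hw1
  -- the low cut
  let P0 : ℕ → F := fun b => 1 - both (Z b) μ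
  have hP0V : ∀ b, P0 b ∈ V b := fun b => by
    obtain ⟨u, hu⟩ := hVb b μ hμc
    exact ⟨1 - u, by simp [P0, hu]⟩
  have hP0s : ∀ b, IsSelfAdjoint (P0 b) := fun b =>
    (IsSelfAdjoint.one _).sub (.of_nonneg (both_nonneg _ fun t => ramp_nonneg _ _ _))
  let P := (Finset.range K).noncommProd P0 fun a ha b hb hab =>
    hVV a (Finset.mem_range.1 ha) b (Finset.mem_range.1 hb) hab _ (hP0V a) _ (hP0V b)
  have hPy : ∀ b < K, ∀ u, Commute (P0 b) u → (∀ a < K, a ≠ b → Commute (P0 a) u) → Commute P u :=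
    fun b _ u h1 h2 => (Finset.noncommProd_commute _ _ _ _ fun a ha => by
      by_cases h : a = b
      · exact h ▸ h1.symm
      · exact (h2 a (Finset.mem_range.1 ha) h).symm).symm
  have hPs : star P = P := by
    suffices ∀ s : Finset ℕ, ∀ h, star (s.noncommProd P0 h) = s.noncommProd P0 h from this _ _
    intro s
    induction s using Finset.induction with
    | empty => simp
    | insert a s ha ih =>
      intro h
      rw [Finset.noncommProd_insert_of_notMem _ _ _ _ ha, star_mul, ih, (hP0s a).star_eq]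
      exact (Finset.noncommProd_commute _ _ _ _ fun x hx => h (by simp)
        (by simp [hx]) (fun e => ha (by rw [e]; exact hx))).eq.symm
  have hPkill : ∀ b < K, ∀ u, P0 b * u = 0 → P * u = 0 := fun b hb u h => by
    rw [show P = ((Finset.range K).erase b).noncommProd P0 _ * P0 b from
      (Finset.noncommProd_erase_mul _ (Finset.mem_range.2 hb) _ _).symm, mul_assoc, h, mul_zero]
  -- the witnesses start with the high cut
  have hY_abs : ∀ f : ℝ → ℝ, Continuous f → f 0 = 0 → (∀ t, f t * γ t = γ t) → ∀ b j,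
      both (Z b) f * Y b j = Y b j ∧ cfc f (lmod (Z b)) * Y b j = Y b j := by
    intro f hf hf0 hfγ b j
    obtain ⟨h1, h2⟩ := hy_abs f hf hf0 hfγ j
    have e1 : cfc f (lmod zD) * yD j = yD j := Subtype.ext (by
      rw [MulMemClass.coe_mul, coe_cfc_cs f hf _ (lmod_sa zD)]; exact h2)
    have e2 : (cfc f (lmod zD) + cfc f (rmod zD)) * yD j = yD j := Subtype.ext (by
      rw [MulMemClass.coe_mul, AddMemClass.coe_add, coe_cfc_cs f hf _ (lmod_sa zD),
        coe_cfc_cs f hf _ (rmod_sa zD)]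
      exact h1)
    have el : φ b (cfc f (lmod zD)) = cfc f (lmod (Z b)) := by
      rw [map_cfc_cs _ f hf _ (lmod_sa zD)]; simp [lmod, Z, map_star]
    have er : φ b (cfc f (rmod zD)) = cfc f (rmod (Z b)) := by
      rw [map_cfc_cs _ f hf _ (rmod_sa zD)]; simp [rmod, Z, map_star]
    refine ⟨?_, ?_⟩
    · have := congr_arg (φ b) e2
      rwa [map_mul, map_add, el, er] at this
    · have := congr_arg (φ b) e1
      rwa [map_mul, el] at this
  have hYV : ∀ b j, Y b j ∈ V b := fun b j => ⟨_, rfl⟩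
  have hYsV : ∀ b j, star (Y b j) ∈ V b := fun b j => ⟨star (yD j), by simp [Y, map_star]⟩
  have hμγ : ∀ t, μ t * γ t = γ t := ramp_mul_ramp (by linarith) (by linarith) (by linarith)
  have hP0Y : ∀ b j, P0 b * Y b j = 0 := fun b j => by
    simp only [P0, sub_mul, one_mul, (hY_abs μ hμc hμ0 hμγ b j).1, sub_self]
  have hPY : ∀ b < K, ∀ j, P * Y b j = 0 := fun b hb j => hPkill b hb _ (hP0Y b j)
  have hYP : ∀ b < K, ∀ j, star (Y b j) * P = 0 := fun b hb j => by
    rw [← hPs, ← star_mul, hPY b hb j, star_zero]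
  let X : ℕ → ℕ → Fin J × Fin J → F := fun l l' p => Y l p.1 * Y (q + l') p.2 * P
  let b : ℕ → Fin J → Fin J → F := fun l j k => star (Y l j) * Y l k
  have hYn : ∀ l j, ‖Y l j‖ ≤ ∑ i, ‖y i‖ := fun l j =>
    (NonUnitalStarAlgHom.norm_apply_le _ _).trans
      (Finset.single_le_sum (f := fun i => ‖y i‖) (fun i _ => norm_nonneg _) (Finset.mem_univ j))
  have hbn : ∀ l j k, ‖b l j k‖ ≤ β := fun l j k => by
    refine (norm_mul_le _ _).trans ?_
    rw [norm_star]
    have := mul_le_mul (hYn l j) (hYn l k) (norm_nonneg _) (Finset.sum_nonneg fun i _ => norm_nonneg (y i))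
    simp only [β, sq]
    linarith
  have hbd : ∀ l, ∑ j, b l j j = 1 := fun l => by
    have : ∑ j, star (yD j) * yD j = 1 := Subtype.ext (by simp [yD, hy1])
    rw [← map_one (φ l), ← this]
    simp [b, Y, map_star]
  have hbil := norm_bilinear_le hq hqJ b hβ hbn hbd
  set S := ((q : ℝ)⁻¹ * (q : ℝ)⁻¹) • (∑ l ∈ Finset.range q, ∑ l' ∈ Finset.range q,
      ∑ p : Fin J × Fin J, ∑ p' : Fin J × Fin J,
        root q ^ ((((p'.1 : ℕ) : ℤ) * J + (p'.2 : ℕ) - (((p.1 : ℕ) : ℤ) * J + (p.2 : ℕ))) * l * l') •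
          (b l p.1 p'.1 * b (q + l') p.2 p'.2)) with hS
  have hS1 : ‖S - 1‖ ≤ 1 / 2 := hbil.trans hqsmall
  let t : ℕ → ℕ → F := fun l l' => ∑ p : Fin J × Fin J,
    root q ^ ((((p.1 : ℕ) : ℤ) * J + (p.2 : ℕ)) * l * l') • X l l' p
  let v₀ := (q : ℝ)⁻¹ • ∑ l ∈ Finset.range q, ∑ l' ∈ Finset.range q, t l l'
  have hv0 : star v₀ * v₀ = P * S * P := star_pairSum_mul q J hq Y P hPs V hYV hYsV hVV hYP
  -- the domain
  set d := cfc Real.sqrt (1 - g')
  have hg'0 : 0 ≤ 1 - g' := sub_nonneg.2 hg1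
  have hd : IsSelfAdjoint d := cfc_predicate _ _
  have hdd : d * d = 1 - g' := by
    rw [← cfc_mul Real.sqrt Real.sqrt (1 - g') Real.continuous_sqrt.continuousOn
      Real.continuous_sqrt.continuousOn]
    conv_rhs => rw [← cfc_id' ℝ (1 - g') (.of_nonneg hg'0)]
    exact cfc_congr fun t ht => Real.mul_self_sqrt (spectrum_nonneg_of_nonneg hg'0 ht)
  have hP0d : ∀ b < K, P0 b * d = d := fun b hb => by
    have h1 : both (Z b) ω * both (Z b) μ = both (Z b) μ := by
      rw [both_mul_both (hZ b) ω μ hωc hω0 hμc hμ0]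
      congr 1
      exact funext (ramp_mul_ramp (by linarith) le_rfl (by linarith))
    have h2 : d * both (Z b) μ = 0 := eq_zero_of_mul_self_mul hd (by
      rw [hdd, sub_mul, one_mul, hgw _ (hwu b hb _ h1), sub_self])
    have h3 : both (Z b) μ * d = 0 := by
      have := congr_arg star h2
      rwa [star_mul, hd.star_eq, star_zero,
        (IsSelfAdjoint.of_nonneg (both_nonneg _ fun t => ramp_nonneg _ _ _)).star_eq] at this
    simp only [P0, sub_mul, one_mul, h3, sub_zero]
  have hPd : P * d = d := by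
    suffices ∀ s ⊆ Finset.range K, ∀ h, s.noncommProd P0 h * d = d from this _ subset_rfl _
    intro s
    induction s using Finset.induction with
    | empty => simp
    | insert a s ha ih =>
      intro hs h
      rw [Finset.noncommProd_insert_of_notMem _ _ _ _ ha, mul_assoc,
        ih ((Finset.subset_insert a s).trans hs), hP0d a (Finset.mem_range.1 (hs (Finset.mem_insert_self a s)))]
  have hdP : d * P = d := by
    have := congr_arg star hPd
    rwa [star_mul, hPs, hd.star_eq] at this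
  set v₁ := v₀ * d
  have hv1 : star v₁ * v₁ = d * S * d := by
    rw [star_mul, hd.star_eq, mul_assoc d, ← mul_assoc (star v₀), hv0, mul_assoc (P * S) P d, hPd,
      ← mul_assoc d, ← mul_assoc d, hdP]
  have hlow : d * d ≤ (2 : ℝ) • (star v₁ * v₁) := by
    set R := (1 / 2 : ℝ) • ((1 - S) + star (1 - S))
    have hR : IsSelfAdjoint R :=
      (IsSelfAdjoint.all (1 / 2 : ℝ)).smul (IsSelfAdjoint.add_star_self _)
    have hRn : ‖R‖ ≤ 1 / 2 := by
      rw [norm_smul, Real.norm_eq_abs, abs_of_pos (by norm_num : (0:ℝ) < 1 / 2)]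
      have := norm_add_le (1 - S) (star (1 - S))
      rw [norm_star, norm_sub_rev 1 S] at this
      linarith
    have hRle : d * R * d ≤ (1 / 2 : ℝ) • (d * d) := by
      calc d * R * d ≤ d * algebraMap ℝ F (1 / 2) * d :=
            hd.conjugate_le_conjugate (hR.le_algebraMap_norm_self.trans (algebraMap_mono F hRn))
        _ = _ := by simp [Algebra.algebraMap_eq_smul_one, mul_smul_comm, smul_mul_assoc]
    have e : d * R * d = d * d - star v₁ * v₁ := by
      have h1 : d * (1 - S) * d = d * d - star v₁ * v₁ := by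
        rw [hv1, mul_sub, sub_mul, mul_one]
      have h2 : d * star (1 - S) * d = d * d - star v₁ * v₁ := by
        have := congr_arg star h1
        simpa [star_mul, hd.star_eq, mul_assoc] using this
      simp only [R, mul_smul_comm, smul_mul_assoc, mul_add, add_mul, h1, h2]
      module
    rw [e] at hRle
    rw [← sub_nonneg]
    have h3 := smul_le_smul_of_nonneg_left hRle (zero_le_two : (0:ℝ) ≤ 2)
    rw [← sub_nonneg] at h3
    refine h3.trans_eq ?_
    module
  obtain ⟨v, hv, hvP⟩ := exists_of_le hd hlow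
  refine ⟨c₀, c₁, v, hc0, h01, h11, by rw [hsum, hv, hdd, add_sub_cancel], hvP c₀ ?_⟩
  -- the range
  have hXc : ∀ l < q, ∀ l' < q, ∀ p, c₀ * X l l' p = X l l' p := by
    intro l hl l' hl' p
    refine (fun h => hc0v _ h.1 h.2) (hTT {l, q + l'} (X l l' p) (fun a ha haT => ?_)
      (fun a ha haT => ?_) ⟨l, by omega, by simp⟩)
    · simp only [Finset.mem_insert, Finset.mem_singleton] at haT
      have key : ∀ u ∈ V a, (∀ j, u * Y a j = Y a j) → u * X l l' p = X l l' p := by
        intro u hu hu'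
        simp only [X]
        rcases haT with rfl | rfl
        · simp only [← mul_assoc, hu']
        · simp only [← mul_assoc]
          rw [(hVV (q + l') ha l (by omega) (by omega) u hu _ (hYV _ _)).eq, mul_assoc (Y l p.1) u,
            hu']
      refine ⟨key _ (hV a ha).2.2.1 fun j => (hY_abs ω hωc hω0 ?_ a j).1,
        key _ (hV a ha).2.2.2 fun j => (hY_abs ρ hρc hρ0 ?_ a j).1,
        key _ ((hV a ha).1 0 0) fun j => (hY_abs η hηc hη0 ?_ a j).2⟩
      · exact ramp_mul_ramp (by linarith) (by linarith) (by linarith)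
      · exact ramp_mul_ramp (by linarith) le_rfl (by linarith)
      · exact ramp_mul_ramp (by linarith) (by linarith) (by linarith)
    · simp only [Finset.mem_insert, Finset.mem_singleton, not_or] at haT
      have h1 : both (Z a) ρ * P = 0 := by
        rw [show P = P0 a * ((Finset.range K).erase a).noncommProd P0 _ from
          (Finset.mul_noncommProd_erase _ (Finset.mem_range.2 ha) _ _).symm, ← mul_assoc]
        simp only [P0, mul_sub, mul_one]
        rw [both_mul_both (hZ a) ρ μ hρc hρ0 hμc hμ0, show (fun t => ρ t * μ t) = ρ from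
          funext fun t => (mul_comm _ _).trans (ramp_mul_ramp (by linarith) le_rfl (by linarith) t),
          sub_self, zero_mul]
      simp only [X, ← mul_assoc]
      rw [(hVV a ha l (by omega) haT.1 _ (hV a ha).2.2.2 _ (hYV _ _)).eq, mul_assoc (Y l p.1),
        (hVV a ha (q + l') (by omega) haT.2 _ (hV a ha).2.2.2 _ (hYV _ _)).eq, mul_assoc,
        mul_assoc, h1, mul_zero, mul_zero]
  simp only [v₁, v₀, t, ← mul_assoc, smul_mul_assoc, mul_smul_comm, Finset.mul_sum]
  congr 2
  refine Finset.sum_congr rfl fun l hl => Finset.sum_congr rfl fun l' hl' =>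
    Finset.sum_congr rfl fun p _ => ?_
  rw [hXc l (Finset.mem_range.1 hl) l' (Finset.mem_range.1 hl') p]

end Vale.Agent.P101
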