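import Vale.Agent.P101.Main
import Vale.Agent.P101.Combine
import Vale.Agent.P101.Comparison

/-!
# P101: no characters give the generators of `Z_{n,n+1}` for every power `n` of two
-/

open scoped ComplexOrder Kronecker

namespace Vale.Agent.P101

variable {B : Type*} [CStarAlgebra B] [PartialOrder B] [StarOrderedRing B]

/-- A two by two system with a positive contractive weight is an order zero map. -/
noncomputable def OrderZero.ofUnits {e : Fin 2 → Fin 2 → B} {w : B} (h : Units2 e w) (h0 : 0 ≤ w)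
    (h1 : w ≤ 1) : OrderZero (Fin 2) B where
  toLin :=
    { toFun := fun x ↦ ∑ a, ∑ b, x a b • e a b
      map_add' := fun x y ↦ by simp [add_smul, Finset.sum_add_distrib]
      map_smul' := fun c x ↦ by simp [smul_smul] }
  map_star x := by
    simp [Fin.sum_univ_two, Matrix.star_apply, h.star_eq]
    abel
  mul x y := by
    have hw : ∀ a d, w * e a d = e 0 0 * e a d + e 1 1 * e a d := fun a d ↦ by
      rw [← h.sum_eq, add_mul]
    simp [Fin.sum_univ_two, Matrix.mul_apply, add_mul, mul_add, smul_mul_smul_comm, h.rel,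
      h.sum_eq, smul_add, add_smul, smul_smul, mul_comm]
    abel
  nonneg := by simpa [Fin.sum_univ_two, h.sum_eq] using h0
  le_one := by simpa [Fin.sum_univ_two, h.sum_eq] using h1

theorem OrderZero.ofUnits_zero {e : Fin 2 → Fin 2 → B} {w : B} (h : Units2 e w) (h0 : 0 ≤ w)
    (h1 : w ≤ 1) : (OrderZero.ofUnits h h0 h1).toLin (Matrix.single 0 0 1) = e 0 0 := by
  simp [OrderZero.ofUnits, Fin.sum_univ_two]

theorem OrderZero.ofUnits_one {e : Fin 2 → Fin 2 → B} {w : B} (h : Units2 e w) (h0 : 0 ≤ w)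
    (h1 : w ≤ 1) : (OrderZero.ofUnits h h0 h1).toLin 1 = w := by
  simp [OrderZero.ofUnits, Fin.sum_univ_two, h.sum_eq]

theorem OrderZero.ofUnits_commute {e : Fin 2 → Fin 2 → B} {w : B} (h : Units2 e w) (h0 : 0 ≤ w)
    (h1 : w ≤ 1) {c : B} (hc : ∀ a b, Commute c (e a b)) (x : Matrix (Fin 2) (Fin 2) ℂ) :
    Commute c ((OrderZero.ofUnits h h0 h1).toLin x) :=
  show Commute c (∑ a, ∑ b, x a b • e a b) from
    Commute.sum_right _ _ _ fun a _ ↦ Commute.sum_right _ _ _ fun b _ ↦ (hc a b).smul_right _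

/-- The order zero map given by one square-zero element and a cut. -/
theorem exists_orderZero_of_square_zero {z : B} (hz : z * z = 0) {a b : ℝ} (ha : 0 < a)
    (hab : a < b) :
    ∃ φ : OrderZero (Fin 2) B, φ.toLin 1 = both z (ramp a b) ∧
      φ.toLin (Matrix.single 0 0 1) = cfc (ramp a b) (lmod z) ∧
      ∀ c, Commute c z → Commute c (star z) → ∀ x, Commute c (φ.toLin x) := by
  have hη : Continuous (ramp a b) := continuous_ramp _ _
  have hη0 : ramp a b 0 = 0 := ramp_of_le hab ha.le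
  have hξ : Continuous (divSqrt a (ramp a b)) := hη.div (Real.continuous_sqrt.comp (by fun_prop))
    fun t ↦ (Real.sqrt_pos.2 (lt_max_of_lt_right ha)).ne'
  have hξ0 : divSqrt a (ramp a b) 0 = 0 := by simp [divSqrt, hη0]
  have hξη : ∀ t, 0 ≤ t → t * (divSqrt a (ramp a b) t * divSqrt a (ramp a b) t) =
      ramp a b t * ramp a b t := by
    intro t ht
    rcases le_or_gt t a with h | h
    · simp [divSqrt, ramp_of_le hab h]
    · simp only [divSqrt, max_eq_left h.le]
      rw [div_mul_div_comm, Real.mul_self_sqrt ht, mul_comm,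
        div_mul_cancel₀ _ (ha.trans h).ne']
  refine ⟨OrderZero.ofUnits (units2_unitsOf hz _ _ hη hη0 hξ hξ0 hξη)
    (both_nonneg _ fun t ↦ ramp_nonneg _ _ _)
    (both_le_one hz _ hη hη0 fun t ↦ ⟨ramp_nonneg _ _ _, ramp_le_one _ _ _⟩),
    OrderZero.ofUnits_one _ _ _, OrderZero.ofUnits_zero _ _ _, fun c hc hc' ↦ ?_⟩
  refine OrderZero.ofUnits_commute _ _ _ fun i j ↦ ?_
  have hl : ∀ f : ℝ → ℝ, Continuous f → Commute c (cfc f (lmod z)) := fun f hf ↦
    (cfc_commute (lmod_sa z) (hc.mul_right hc').symm f hf).symm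
  have hr : ∀ f : ℝ → ℝ, Continuous f → Commute c (cfc f (rmod z)) := fun f hf ↦
    (cfc_commute (rmod_sa z) (hc'.mul_right hc).symm f hf).symm
  fin_cases i <;> fin_cases j
  · exact hl _ hη
  · exact hc.mul_right (hr _ hξ)
  · exact (hr _ hξ).mul_right hc'
  · exact hr _ hη

/-- Scaling an order zero map by a commuting positive contraction. -/
noncomputable def OrderZero.scale {ι : Type*} [Fintype ι] [DecidableEq ι] (φ : OrderZero ι B)
    {c : B} (h0 : 0 ≤ c) (h1 : c ≤ 1) (hc : ∀ x, Commute c (φ.toLin x)) : OrderZero ι B where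
  toLin := (LinearMap.mulLeft ℂ c).comp φ.toLin
  map_star x := by
    simp only [LinearMap.comp_apply, LinearMap.mulLeft_apply]
    rw [star_mul, (IsSelfAdjoint.of_nonneg h0).star_eq, ← φ.map_star, (hc _).eq]
  mul x y := by
    simp only [LinearMap.comp_apply, LinearMap.mulLeft_apply]
    rw [Commute.mul_mul_mul_comm (hc x).symm, Commute.mul_mul_mul_comm (hc 1).symm, φ.mul]
  nonneg := Commute.mul_nonneg h0 φ.nonneg (hc 1)
  le_one := OrderZero.le_one_mul h0 h1 φ.le_one (hc 1)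

theorem OrderZero.scale_apply {ι : Type*} [Fintype ι] [DecidableEq ι] (φ : OrderZero ι B)
    {c : B} (h0 : 0 ≤ c) (h1 : c ≤ 1) (hc : ∀ x, Commute c (φ.toLin x)) (x : Matrix ι ι ℂ) :
    (φ.scale h0 h1 hc).toLin x = c * φ.toLin x := rfl

/-- The data of one block: an order zero map, a high cut `H` of its support and a column below. -/
def HasBlock (N : ℕ) [NeZero N] (Γ : Set B) : Prop :=
  ∃ (φ : OrderZero (Fin N) B) (H g : B) (J : ℕ) (Y : Fin J → B),
    IsSelfAdjoint g ∧ 0 ≤ H ∧ H ≤ 1 ∧ (∀ x, Commute H (φ.toLin x)) ∧ φ.toLin 1 * H = H ∧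
    H * g = g ∧ φ.toLin (Matrix.single 0 0 1) * g = g ∧ (∀ j, g * Y j = Y j) ∧
    ∑ j, star (Y j) * Y j = 1 ∧
    ∀ c, (∀ x ∈ Γ, Commute c x) → (∀ x, Commute c (φ.toLin x)) ∧ Commute c H ∧
      Commute c g ∧ ∀ j, Commute c (Y j)

theorem hasBlock_two {z : B} (hz : z * z = 0) {bb : ℝ} (hb : 0 < bb) {J : ℕ} {y : Fin J → B}
    (hy : ∑ j, star (y j) * y j = 1)
    (hy' : ∀ f : ℝ → ℝ, Continuous f → f 0 = 0 →
      (∀ t, f t * ramp bb (2 * bb) t = ramp bb (2 * bb) t) → ∀ j,
        both z f * y j = y j ∧ cfc f (lmod z) * y j = y j) :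
    HasBlock 2 ({z, star z} ∪ Set.range y) := by
  obtain ⟨φ, φ1, φ0, φc⟩ := exists_orderZero_of_square_zero hz
    (a := bb / 5) (b := 2 * bb / 5) (by linarith) (by linarith)
  have hc : ∀ a b : ℝ, Continuous (ramp a b) := continuous_ramp
  have h0 : ∀ a b : ℝ, a < b → 0 ≤ a → ramp a b 0 = 0 := fun a b h h' ↦ ramp_of_le h h'
  set H := both z (ramp (2 * bb / 5) (3 * bb / 5)) with hH
  have hH0 : 0 ≤ H := both_nonneg _ fun t ↦ ramp_nonneg _ _ _
  have hHc : ∀ c, Commute c z → Commute c (star z) → Commute c H := fun c h h' ↦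
    ((cfc_commute (lmod_sa z) (h.mul_right h').symm _ (hc _ _)).symm).add_right
      (cfc_commute (rmod_sa z) (h'.mul_right h).symm _ (hc _ _)).symm
  refine ⟨φ, H, cfc (ramp (3 * bb / 5) (4 * bb / 5)) (lmod z), J, y, cfc_predicate _ _, hH0,
    both_le_one hz _ (hc _ _) (h0 _ _ (by linarith) (by linarith))
      (fun t ↦ ⟨ramp_nonneg _ _ _, ramp_le_one _ _ _⟩), fun x ↦ ?_, ?_, ?_, ?_, fun j ↦ ?_, hy,
    fun c hc' ↦ ⟨φc c (hc' _ (by simp)) (hc' _ (by simp)),
      hHc c (hc' _ (by simp)) (hc' _ (by simp)), ?_, fun j ↦ hc' _ (by simp)⟩⟩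
  · have hcz : Commute H z := by
      show H * z = z * H
      rw [hH, both, add_mul, mul_add,
        rmod_cfc_mul_self hz _ (hc _ _) (h0 _ _ (by linarith) (by linarith)),
        self_mul_cfc_lmod hz _ (hc _ _) (h0 _ _ (by linarith) (by linarith)),
        cfc_lmod_mul z _ (hc _ _), add_zero, zero_add]
    have hHs : star H = H := (IsSelfAdjoint.of_nonneg hH0).star_eq
    refine φc H hcz ?_ x
    have := congrArg star hcz.eq
    rw [star_mul, star_mul, hHs] at this
    exact this.symm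
  · rw [φ1, hH, both_mul_both hz _ _ (hc _ _) (h0 _ _ (by linarith) (by linarith)) (hc _ _)
      (h0 _ _ (by linarith) (by linarith))]
    congr 1
    exact funext (ramp_mul_ramp (by linarith) le_rfl (by linarith))
  · rw [hH, both_mul_cfc hz _ _ (hc _ _) (h0 _ _ (by linarith) (by linarith)) (hc _ _)
      (h0 _ _ (by linarith) (by linarith))]
    congr 1
    exact funext (ramp_mul_ramp (by linarith) le_rfl (by linarith))
  · rw [φ0, ← cfc_mul _ _ _ (hc _ _).continuousOn (hc _ _).continuousOn]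
    congr 1
    exact funext (ramp_mul_ramp (by linarith) (by linarith) (by linarith))
  · exact (hy' _ (hc _ _) (h0 _ _ (by linarith) (by linarith))
      (ramp_mul_ramp (by linarith) (by linarith) (by linarith)) j).2
  · exact (cfc_commute (lmod_sa z) ((hc' _ (by simp)).mul_right (hc' _ (by simp))).symm _
      (hc _ _)).symm

theorem HasBlock.mul {M N : ℕ} [NeZero M] [NeZero N] {Γ Δ : Set B} (h₁ : HasBlock M Γ)
    (h₂ : HasBlock N Δ) (hc : ∀ x ∈ Γ, ∀ y ∈ Δ, Commute x y) : HasBlock (M * N) (Γ ∪ Δ) := by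
  obtain ⟨φ, H, g, J, Y, hgs, hH0, hH1, hHφ, hφH, hHg, hφg, hgY, hY, hcom⟩ := h₁
  obtain ⟨φ', H', g', J', Y', hgs', hH0', hH1', hHφ', hφH', hHg', hφg', hgY', hY', hcom'⟩ := h₂
  have hΔ : ∀ y ∈ Δ, (∀ x, Commute y (φ.toLin x)) ∧ Commute y H ∧
      Commute y g ∧ ∀ j, Commute y (Y j) := fun y hy ↦ hcom y fun x hx ↦ (hc x hx y hy).symm
  have hφc := fun x ↦ hcom' (φ.toLin x) fun y hy ↦ ((hΔ y hy).1 x).symm
  have hHc := hcom' H fun y hy ↦ (hΔ y hy).2.1.symm
  have hgc := hcom' g fun y hy ↦ (hΔ y hy).2.2.1.symm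
  have hYc := fun j ↦ hcom' (Y j) fun y hy ↦ ((hΔ y hy).2.2.2 j).symm
  let e : Fin (M * N) ≃ Fin M × Fin N := finProdFinEquiv.symm
  let Φ := (φ.tensor φ' fun x y ↦ (hφc x).1 y).reindex e
  have h1 : Φ.toLin 1 = φ.toLin 1 * φ'.toLin 1 := by
    rw [OrderZero.reindex_apply, Matrix.submatrix_one_equiv, OrderZero.tensor_one]
  have h00 : (Matrix.single (0 : Fin (M * N)) 0 (1 : ℂ)).submatrix e.symm e.symm =
      Matrix.single (0 : Fin M) 0 (1 : ℂ) ⊗ₖ Matrix.single (0 : Fin N) 0 (1 : ℂ) := by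
    have h0 : e.symm (0, 0) = 0 := by
      apply Fin.ext
      simp [e, finProdFinEquiv]
    rw [Matrix.single_kronecker_single, ← h0, Matrix.submatrix_single_equiv,
      Equiv.symm_symm, Equiv.apply_symm_apply, mul_one]
  let f : Fin (J * J') → B := fun k ↦ Y (finProdFinEquiv.symm k).1 * Y' (finProdFinEquiv.symm k).2
  refine ⟨Φ, H * H', g * g', J * J', f, ?_, Commute.mul_nonneg hH0 hH0' hHc.2.1,
    OrderZero.le_one_mul hH0 hH1 hH1' hHc.2.1, fun x ↦ ?_, ?_, ?_, ?_, fun k ↦ ?_, ?_,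
    fun c hcc ↦ ?_⟩
  · rw [IsSelfAdjoint, star_mul, hgs.star_eq, hgs'.star_eq]
    exact hgc.2.2.1.eq.symm
  · have c₁ : ∀ z, Commute H ((φ.tensor φ' fun x y ↦ (hφc x).1 y).toLin z) :=
      OrderZero.tensor_commute φ φ' (fun x y ↦ (hφc x).1 y) hHφ hHc.1
    have c₂ : ∀ z, Commute H' ((φ.tensor φ' fun x y ↦ (hφc x).1 y).toLin z) :=
      OrderZero.tensor_commute φ φ' (fun x y ↦ (hφc x).1 y) (fun x ↦ (hφc x).2.1.symm) hHφ'
    exact (c₁ _).mul_left (c₂ _)
  · rw [h1, Commute.mul_mul_mul_comm (hHc.1 1).symm, hφH, hφH']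
  · rw [Commute.mul_mul_mul_comm hgc.2.1.symm, hHg, hHg']
  · simp only [Φ, OrderZero.reindex_apply, h00, OrderZero.tensor_kronecker]
    rw [Commute.mul_mul_mul_comm (hgc.1 _).symm, hφg, hφg']
  · show g * g' * (Y _ * Y' _) = _
    rw [Commute.mul_mul_mul_comm (hYc _).2.2.1.symm, hgY, hgY']
  · calc ∑ k, star (f k) * f k
        = ∑ p : Fin J × Fin J', star (Y p.1 * Y' p.2) * (Y p.1 * Y' p.2) :=
          Fintype.sum_equiv finProdFinEquiv.symm _ _ fun k ↦ rfl
      _ = ∑ b, star (Y' b) * (∑ a, star (Y a) * Y a) * Y' b := by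
          rw [Fintype.sum_prod_type_right]
          refine Finset.sum_congr rfl fun b _ ↦ ?_
          simp only [star_mul, Finset.mul_sum, Finset.sum_mul, mul_assoc]
      _ = 1 := by simp [hY, hY']
  · have a₁ := hcom c fun x hx ↦ hcc x (.inl hx)
    have a₂ := hcom' c fun x hx ↦ hcc x (.inr hx)
    exact ⟨fun x ↦ OrderZero.tensor_commute φ φ' (fun x y ↦ (hφc x).1 y) a₁.1 a₂.1 _, a₁.2.1.mul_right a₂.2.1,
      a₁.2.2.1.mul_right a₂.2.2.1, fun k ↦ (a₁.2.2.2 _).mul_right (a₂.2.2.2 _)⟩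

/-- Mapping an order zero map along a unital star homomorphism. -/
noncomputable def OrderZero.map {ι : Type*} [Fintype ι] [DecidableEq ι] {C : Type*}
    [CStarAlgebra C] [PartialOrder C] [StarOrderedRing C] (φ : OrderZero ι B) (π : B →⋆ₐ[ℂ] C) :
    OrderZero ι C where
  toLin := π.toAlgHom.toLinearMap.comp φ.toLin
  map_star x := by
    show π (φ.toLin (star x)) = star (π (φ.toLin x))
    rw [φ.map_star]
    exact StarHomClass.map_star π _
  mul x y := by simp [← map_mul, φ.mul]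
  nonneg := by simpa using map_nonneg π φ.nonneg
  le_one := by simpa using OrderHomClass.mono π φ.le_one

theorem OrderZero.map_apply {ι : Type*} [Fintype ι] [DecidableEq ι] {C : Type*}
    [CStarAlgebra C] [PartialOrder C] [StarOrderedRing C] (φ : OrderZero ι B) (π : B →⋆ₐ[ℂ] C)
    (x : Matrix ι ι ℂ) : (φ.map π).toLin x = π (φ.toLin x) := rfl

/-- The zero order zero map. -/
noncomputable def OrderZero.zero (ι : Type*) [Fintype ι] [DecidableEq ι] (B : Type*)
    [CStarAlgebra B] [PartialOrder B] [StarOrderedRing B] : OrderZero ι B where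
  toLin := 0
  map_star x := by simp
  mul x y := by simp
  nonneg := le_rfl
  le_one := zero_le_one

/-- From a block in `D` and enough commuting copies of `D`, the generators of `Z_{N,N+1}`. -/
theorem exists_gens_of_block.{u, v} {B : Type u} [CStarAlgebra B] [PartialOrder B]
    [StarOrderedRing B] {D : Type v} [CStarAlgebra D] [PartialOrder D] [StarOrderedRing D]
    {N : ℕ} [NeZero N] {Γ : Set D} (h : HasBlock N Γ)
    (hcopy : ∀ n : ℕ, ∃ π : Fin n → D →⋆ₐ[ℂ] B, Comparison.Commuting π) :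
    ∃ (φ : OrderZero (Fin N) B) (v : B), star v * v = 1 - φ.toLin 1 ∧
      φ.toLin (Matrix.single 0 0 1) * v = v := by
  classical
  obtain ⟨φ, H, g, J, Y, hgs, hH0, hH1, hHφ, hφH, hHg, hφg, hgY, hY, -⟩ := h
  set e : Matrix (Fin N) (Fin N) ℂ := Matrix.single 0 0 1 with he'
  have he : e * e = e := by simp [he']
  set P₀ := CFC.sqrt (1 - φ.toLin 1) with hP₀
  have hP₀s : IsSelfAdjoint P₀ := .of_nonneg (CFC.sqrt_nonneg _)
  have hP₀2 : P₀ * P₀ = 1 - φ.toLin 1 := CFC.sqrt_mul_sqrt_self _ (sub_nonneg.2 φ.le_one)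
  have kill : ∀ x, φ.toLin 1 * x = x → P₀ * x = 0 := by
    intro x hx
    rw [← norm_eq_zero, ← mul_self_eq_zero, ← CStarRing.norm_star_mul_self, norm_eq_zero, star_mul,
      hP₀s.star_eq, mul_assoc, ← mul_assoc P₀ P₀, hP₀2, sub_mul, one_mul, hx, sub_self, mul_zero]
  have hHP : H * P₀ = 0 := by
    have := congrArg star (kill H hφH)
    rwa [star_mul, (IsSelfAdjoint.of_nonneg hH0).star_eq, hP₀s.star_eq, star_zero] at this
  have hgP : g * P₀ = 0 := by
    have := congrArg star (kill g (by conv_lhs => rw [← hHg, ← mul_assoc, hφH, hHg]))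
    rwa [star_mul, hgs.star_eq, hP₀s.star_eq, star_zero] at this
  have hYg : ∑ j, star (Y j) * (g * g) * Y j = 1 := by
    rw [← hY]
    exact Finset.sum_congr rfl fun j _ ↦ by rw [mul_assoc, mul_assoc g g, hgY, hgY]
  obtain ⟨n, hn1, hn⟩ := Comparison.exists_comparison.{v, u} hgs hP₀s hgP hYg 1
  obtain ⟨π, hπ⟩ := hcopy n
  obtain ⟨v, hv, hvfix⟩ := hn π hπ
  suffices ∀ S : Finset (Fin n), ∃ Φ : OrderZero (Fin N) B,
      1 - Φ.toLin 1 = Comparison.prod hπ S (P₀ * P₀) ∧
      (∀ c, (∀ i ∈ S, ∀ d, Commute c (π i d)) → ∀ x, Commute c (Φ.toLin x)) ∧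
      ∀ x, (∀ i ∈ S, π i H * x = 0 ∨ (π i H * x = x ∧ π i (φ.toLin e) * x = x)) →
        (∃ i ∈ S, π i H * x = x ∧ π i (φ.toLin e) * x = x) → Φ.toLin e * x = x by
    obtain ⟨Φ, hΦ1, -, hΦ⟩ := this Finset.univ
    refine ⟨Φ, v, by rw [hv, hΦ1], hvfix _ fun s t x hst hs ht hu ↦
      hΦ x (fun i _ ↦ ?_) ⟨s, Finset.mem_univ s, hs H hHg, hs _ hφg⟩⟩
    by_cases h₁ : i = s
    · subst h₁; exact .inr ⟨hs H hHg, hs _ hφg⟩
    by_cases h₂ : i = t
    · subst h₂; exact .inr ⟨ht H hHg, ht _ hφg⟩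
    exact .inl (hu i h₁ h₂ H hHP)
  intro S
  induction S using Finset.induction_on with
  | empty => exact ⟨OrderZero.zero (Fin N) B, by simp [OrderZero.zero, Comparison.prod],
      fun c _ x ↦ by simp [OrderZero.zero], fun x _ h ↦ by simp at h⟩
  | @insert a S ha ih =>
    obtain ⟨Φ, hone, hcom, hfix⟩ := ih
    have hc : ∀ d x, Commute (π a d) (Φ.toLin x) := fun d ↦
      hcom _ fun i hi d' ↦ hπ a i (fun h ↦ ha (h ▸ hi)) d d'
    have hq0 : (0 : B) ≤ 1 - π a H := by
      simpa using map_nonneg (π a) (sub_nonneg.2 hH1)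
    have hq1 : (1 : B) - π a H ≤ 1 := by
      simpa using map_nonneg (π a) hH0
    have hqc : ∀ x, Commute (1 - π a H) (Φ.toLin x) := fun x ↦
      (Commute.one_left _).sub_left (hc H x)
    let Ψ := Φ.scale hq0 hq1 hqc
    have hΨc : ∀ x y, Commute (Ψ.toLin x) ((φ.map (π a)).toLin y) := fun x y ↦
      Commute.mul_left ((Commute.one_left _).sub_left ((hHφ y).map (π a))) (hc _ x).symm
    refine ⟨Ψ.combine (φ.map (π a)) hΨc, ?_, fun c h x ↦ ?_, fun x hx hex ↦ ?_⟩
    · have hH : π a H * (1 - π a (φ.toLin 1)) = 0 := by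
        rw [← map_one (π a), ← map_sub, ← map_mul, mul_sub, mul_one, (hHφ 1).eq, hφH, sub_self,
          map_zero]
      rw [OrderZero.one_sub_combine_one, Comparison.prod_eq_mul hπ (Finset.mem_insert_self a S),
        Finset.erase_insert ha, ← hone, hP₀2, map_sub (π a), map_one (π a), OrderZero.map_apply,
        OrderZero.scale_apply]
      have hcc : Commute (1 - π a (φ.toLin 1)) (1 - Φ.toLin 1) :=
        (Commute.one_left _).sub_left ((Commute.one_right _).sub_right (hc _ 1))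
      rw [show (1 : B) - (1 - π a H) * Φ.toLin 1 = (1 - Φ.toLin 1) + π a H * Φ.toLin 1 by
        noncomm_ring, add_mul, (hc H 1).eq, mul_assoc, hH, mul_zero, add_zero, hcc.eq]
    · exact OrderZero.combine_commute _ _ _
        (fun y ↦ ((Commute.one_right c).sub_right (h a (Finset.mem_insert_self a S) H)).mul_right
          (hcom c (fun i hi ↦ h i (Finset.mem_insert_of_mem hi)) y))
        (fun y ↦ h a (Finset.mem_insert_self a S) _) x
    · rcases hx a (Finset.mem_insert_self a S) with hk | ⟨hf, hfe⟩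
      · have hxS : ∀ i ∈ S, π i H * x = 0 ∨ (π i H * x = x ∧ π i (φ.toLin e) * x = x) :=
          fun i hi ↦ hx i (Finset.mem_insert_of_mem hi)
        obtain ⟨i, hi, hif, hife⟩ := hex
        rcases Finset.mem_insert.1 hi with rfl | hi
        · have : x = 0 := by rw [← hif, hk]
          simp [this]
        · refine OrderZero.combine_apply_of_fixed _ _ _ he ?_
          rw [OrderZero.scale_apply, mul_assoc, hfix x hxS ⟨i, hi, hif, hife⟩, sub_mul, one_mul, hk,
            sub_zero]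
      · rw [OrderZero.combine_apply_of_zero _ _ _ ?_, OrderZero.map_apply, hfe]
        rw [OrderZero.scale_apply, (hqc 1).eq, mul_assoc, sub_mul, one_mul, hf, sub_self, mul_zero]

/-- **No characters give the generators of `Z_{n,n+1}` for every power of two.** -/
theorem exists_gens_pow_two (hF : Copyable B) (hχ : IsEmpty (B →⋆ₐ[ℂ] ℂ)) (m : ℕ) :
    ∃ (φ : OrderZero (Fin (2 ^ (m + 1))) B) (v : B), star v * v = 1 - φ.toLin 1 ∧
      φ.toLin (Matrix.single 0 0 1) * v = v := by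
  rcases subsingleton_or_nontrivial B with _ | _
  · exact ⟨OrderZero.zero _ B, 0, Subsingleton.elim _ _, Subsingleton.elim _ _⟩
  obtain ⟨z, hz, hzfull⟩ := exists_full_square_zero hF hχ
  obtain ⟨bb, hb, J, y, hy, hy'⟩ := exists_high_cut hz hzfull
  let G : Set B := insert z (Set.range y)
  have hG : G.Finite := (Set.finite_range y).insert z
  obtain ⟨φ, -, hφ⟩ := hF.copies hG Set.finite_empty (m + 1)
  let zD : cs G := ⟨z, subset_cs G (.inl rfl)⟩
  let yD : Fin J → cs G := fun j ↦ ⟨y j, subset_cs G (.inr ⟨j, rfl⟩)⟩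
  let Z : Fin (m + 1) → B := fun b ↦ φ b zD
  let Y : Fin (m + 1) → Fin J → B := fun b j ↦ φ b (yD j)
  let G' : Set B := Set.range Z ∪ Set.range fun p : Fin (m + 1) × Fin J ↦ Y p.1 p.2
  have hG' : G'.Finite := (Set.finite_range _).union (Set.finite_range _)
  let _ : PartialOrder (cs G') := CStarAlgebra.spectralOrder _
  have _ : StarOrderedRing (cs G') := CStarAlgebra.spectralOrderedRing _
  let Z' : Fin (m + 1) → cs G' := fun b ↦ ⟨Z b, subset_cs G' (.inl ⟨b, rfl⟩)⟩
  let Y' : Fin (m + 1) → Fin J → cs G' := fun b j ↦ ⟨Y b j, subset_cs G' (.inr ⟨(b, j), rfl⟩)⟩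
  let Γ : Fin (m + 1) → Set (cs G') := fun b ↦ {Z' b, star (Z' b)} ∪ Set.range (Y' b)
  have hmem : ∀ b, ∀ x ∈ Γ b, ∃ u, (x : B) = φ b u := by
    rintro b x ((rfl | rfl) | ⟨j, rfl⟩)
    · exact ⟨zD, rfl⟩
    · exact ⟨star zD, by simp [Z', Z, map_star]⟩
    · exact ⟨yD j, rfl⟩
  have hΓ : ∀ a b, a ≠ b → ∀ x ∈ Γ a, ∀ x' ∈ Γ b, Commute x x' := by
    intro a b hab x hx x' hx'
    obtain ⟨u, hu⟩ := hmem a x hx
    obtain ⟨u', hu'⟩ := hmem b x' hx'
    refine Subtype.ext ?_
    show (x : B) * (x' : B) = (x' : B) * (x : B)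
    rw [hu, hu']
    exact hφ a b hab u u'
  have hblock : ∀ b, HasBlock 2 (Γ b) := by
    intro b
    refine hasBlock_two (Subtype.ext ?_) hb (Subtype.ext ?_) fun f hf hf0 hfγ j ↦ ?_
    · show Z b * Z b = 0
      rw [← map_mul, show zD * zD = 0 from Subtype.ext hz, map_zero]
    · show ((∑ j, star (Y' b j) * Y' b j : cs G') : B) = 1
      have : ∑ j, star (yD j) * yD j = 1 := Subtype.ext (by simp [yD, hy])
      simpa [Y', Y, map_star] using congrArg (φ b) this
    · obtain ⟨h1, h2⟩ := hy' f hf hf0 hfγ j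
      have e2 : cfc f (lmod zD) * yD j = yD j := Subtype.ext (by
        rw [MulMemClass.coe_mul, coe_cfc_cs f hf _ (lmod_sa zD)]; exact h2)
      have e1 : (cfc f (lmod zD) + cfc f (rmod zD)) * yD j = yD j := Subtype.ext (by
        rw [MulMemClass.coe_mul, AddMemClass.coe_add, coe_cfc_cs f hf _ (lmod_sa zD),
          coe_cfc_cs f hf _ (rmod_sa zD)]
        exact h1)
      have el : φ b (cfc f (lmod zD)) = cfc f (lmod (Z b)) := by
        rw [map_cfc_cs _ f hf _ (lmod_sa zD)]; simp [lmod, Z, map_star]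
      have er : φ b (cfc f (rmod zD)) = cfc f (rmod (Z b)) := by
        rw [map_cfc_cs _ f hf _ (rmod_sa zD)]; simp [rmod, Z, map_star]
      have f2 := congrArg (φ b) e2
      have f1 := congrArg (φ b) e1
      rw [map_mul, el] at f2
      rw [map_mul, map_add, el, er] at f1
      refine ⟨Subtype.ext ?_, Subtype.ext ?_⟩
      · rw [MulMemClass.coe_mul, both, AddMemClass.coe_add, coe_cfc_cs f hf _ (lmod_sa (Z' b)),
          coe_cfc_cs f hf _ (rmod_sa (Z' b))]
        exact f1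
      · rw [MulMemClass.coe_mul, coe_cfc_cs f hf _ (lmod_sa (Z' b))]
        exact f2
  have hpow : ∀ k (hk : k < m + 1),
      HasBlock (2 ^ (k + 1)) (⋃ b : {b : Fin (m + 1) // b.val ≤ k}, Γ b) := by
    intro k
    induction k with
    | zero =>
      intro hk
      have e : (⋃ b : {b : Fin (m + 1) // b.val ≤ 0}, Γ b) = Γ ⟨0, hk⟩ := by
        ext x
        simp only [Set.mem_iUnion, Subtype.exists]
        refine ⟨fun ⟨b, hb, hx⟩ ↦ ?_, fun hx ↦ ⟨⟨0, hk⟩, le_rfl, hx⟩⟩
        rwa [show (⟨0, hk⟩ : Fin (m + 1)) = b from Fin.ext (Nat.le_zero.1 hb).symm]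
      rw [e]
      exact hblock _
    | succ k ih =>
      intro hk
      have e : (⋃ b : {b : Fin (m + 1) // b.val ≤ k + 1}, Γ b) =
          (⋃ b : {b : Fin (m + 1) // b.val ≤ k}, Γ b) ∪ Γ ⟨k + 1, hk⟩ := by
        ext x
        simp only [Set.mem_iUnion, Subtype.exists, Set.mem_union]
        constructor
        · rintro ⟨b, hb, hx⟩
          rcases Nat.lt_or_ge b.val (k + 1) with h | h
          · exact .inl ⟨b, Nat.le_of_lt_succ h, hx⟩
          · exact .inr (by rwa [show (⟨k + 1, hk⟩ : Fin (m + 1)) = b from Fin.ext (le_antisymm h hb)])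
        · rintro (⟨b, hb, hx⟩ | hx)
          · exact ⟨b, hb.trans (Nat.le_succ k), hx⟩
          · exact ⟨_, le_rfl, hx⟩
      rw [e]
      exact (ih (by omega)).mul (hblock _) fun x hx x' hx' ↦ by
        obtain ⟨⟨b, hb⟩, hxb⟩ := Set.mem_iUnion.1 hx
        exact hΓ b _ (fun h ↦ by subst h; simp at hb) x hxb x' hx'
  refine exists_gens_of_block (hpow m (Nat.lt_succ_self m)) fun n ↦ ?_
  obtain ⟨π, -, hπ⟩ := hF.copies hG' Set.finite_empty n
  exact ⟨π, fun s t h a b ↦ hπ s t h a b⟩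

end Vale.Agent.P101
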