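import Vale.Agent.P101.Tags

/-!
# P101: a full square-zero element
-/

namespace Vale.Agent.P101

open Filter Topology

theorem exists_full_square_zero {F : Type*} [CStarAlgebra F] [PartialOrder F] [StarOrderedRing F]
    (hF : Copyable F) (hχ : IsEmpty (F →⋆ₐ[ℂ] ℂ)) : ∃ z : F, z * z = 0 ∧ Id {z} 1 := by
  classical
  rcases subsingleton_or_nontrivial F with _ | _
  · exact ⟨0, by simp, Subsingleton.elim (0 : F) 1 ▸ Id.zero⟩
  obtain ⟨E, hE, hfull⟩ := exists_full_ad hF hχ
  obtain ⟨δ, hfar⟩ := (eventually_far_full hE hfull 2 (le_refl ‖E‖)).exists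
  obtain ⟨X, hXf, hXsub, hX⟩ := hfar.finite
  have := hXf.fintype
  have hsq : ∀ x ∈ X, x * x = 0 := fun x hx => by
    obtain ⟨P, Q, d, -, -, hPQ, rfl⟩ := hXsub hx
    have h0 : cfc (tent δ Q) E * cfc (tent δ P) E = 0 :=
      cfc_mul_cfc_eq_zero E (continuous_tent _ _) (continuous_tent _ _)
        (tent_mul_tent (by rw [abs_sub_comm]; omega))
    calc _ = cfc (tent δ P) E * d * (cfc (tent δ Q) E * cfc (tent δ P) E) * d * cfc (tent δ Q) E := by
          simp only [mul_assoc]
      _ = 0 := by simp [h0]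
  let eq := Fintype.equivFin X
  obtain ⟨w, hw, horth, hwfull⟩ := exists_tags hF hχ (Fintype.card X)
  have hw2 : ∀ i, Id {w i * w i} 1 := fun i => (hwfull i).full_of_le fun y hy => by
    rw [Set.mem_singleton_iff] at hy
    exact ⟨_, .of_mem rfl, by rw [hy, (hw i).star_eq]⟩
  choose G₀ hG₀ hwit using fun i => (hw2 i).witness_one
  let G := (⋃ i, G₀ i) ∪ Set.range w
  obtain ⟨φ, hφ⟩ := hF G X ((Set.finite_iUnion hG₀).union (Set.finite_range w)) hXf
  let W : Fin (Fintype.card X) → cs G := fun i => ⟨w i, subset_cs G (.inr ⟨i, rfl⟩)⟩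
  have hW : ∀ i, Id {W i * W i} 1 := fun i =>
    (hwit i G ((Set.subset_iUnion G₀ i).trans Set.subset_union_left)).mono fun d hd => Subtype.ext hd
  have hWW : ∀ i j, i ≠ j → W i * W j = 0 := fun i j h => Subtype.ext (horth i j h)
  set z := ∑ i, (eq.symm i : F) * φ (W i)
  have hzW : ∀ i, z * φ (W i) = (eq.symm i : F) * φ (W i * W i) := by
    intro i
    rw [Finset.sum_mul, Finset.sum_eq_single i (fun j _ hj => ?_) (by simp), map_mul, mul_assoc]
    rw [mul_assoc, ← map_mul, hWW j i hj, map_zero, mul_zero]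
  refine ⟨z, ?_, hX.trans fun x hx => ?_⟩
  · rw [show z * z = ∑ i, z * ((eq.symm i : F) * φ (W i)) from Finset.mul_sum _ _ _]
    refine Finset.sum_eq_zero fun i _ => ?_
    rw [← (hφ (W i) _ (eq.symm i).2).eq, ← mul_assoc, hzW i,
      mul_assoc, (hφ (W i * W i) _ (eq.symm i).2).eq, ← mul_assoc, hsq _ (eq.symm i).2, zero_mul]
  · suffices ∀ y, Id {W (eq ⟨x, hx⟩) * W (eq ⟨x, hx⟩)} y → Id {z} (x * φ y) by
      simpa using this 1 (hW _)
    intro y hy
    induction hy with
    | zero => simpa using Id.zero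
    | add _ _ h₁ h₂ => simpa [mul_add] using h₁.add h₂
    | gen p v q hv =>
      rw [Set.mem_singleton_iff] at hv
      have h := hzW (eq ⟨x, hx⟩)
      rw [Equiv.symm_apply_apply] at h
      have e : x * φ (p * v * q) = φ p * z * (φ (W (eq ⟨x, hx⟩)) * φ q) := by
        rw [hv, mul_assoc (φ p), ← mul_assoc z, h]
        simp only [map_mul, ← mul_assoc, (hφ p x hx).eq]
      rw [e]
      exact Id.gen _ _ _ rfl

end Vale.Agent.P101
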