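import Vale.Agent.P101.Exterior
import Mathlib.Tactic.Positivity
import Mathlib.Order.Interval.Finset.Basic
import Mathlib.Data.Int.Interval
import Mathlib.Algebra.Order.Floor.Ring

/-!
# P101: far sandwiches and orthogonal full tags
-/

namespace Vale.Agent.P101

open Filter Topology

/-- The tent function at `P` with mesh `δ`. -/
noncomputable def tent (δ : ℝ) (P : ℤ) (x : ℝ) : ℝ := max 0 (1 - |x / δ - P|)

/-- A plateau covering the support of a tent. -/
noncomputable def plat (δ : ℝ) (P : ℤ) (x : ℝ) : ℝ := max 0 (min 1 (2 - |x / δ - P|))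

/-- One window. -/
noncomputable def win (y : ℝ) : ℝ := max 0 (min 1 (2 - 4 * |y|))

@[fun_prop] theorem continuous_tent (δ : ℝ) (P : ℤ) : Continuous (tent δ P) := by
  unfold tent; fun_prop

@[fun_prop] theorem continuous_plat (δ : ℝ) (P : ℤ) : Continuous (plat δ P) := by
  unfold plat; fun_prop

@[fun_prop] theorem continuous_win : Continuous win := by unfold win; fun_prop

theorem tent_nonneg (δ : ℝ) (P : ℤ) (x : ℝ) : 0 ≤ tent δ P x := le_max_left _ _

theorem tent_le_one (δ : ℝ) (P : ℤ) (x : ℝ) : tent δ P x ≤ 1 :=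
  max_le zero_le_one (by linarith [abs_nonneg (x / δ - P)])

theorem tent_eq_zero {δ : ℝ} {P : ℤ} {x : ℝ} (h : 1 ≤ |x / δ - P|) : tent δ P x = 0 :=
  max_eq_left (by linarith)

theorem tent_mul_tent {δ : ℝ} {P Q : ℤ} (h : 2 ≤ |P - Q|) (x : ℝ) :
    tent δ P x * tent δ Q x = 0 := by
  rcases le_or_gt 1 |x / δ - P| with h1 | h1
  · simp [tent_eq_zero h1]
  · have h2 : (2 : ℝ) ≤ |(P : ℝ) - Q| := by exact_mod_cast h
    have := abs_sub_le (P : ℝ) (x / δ) Q
    rw [abs_sub_comm (P : ℝ) (x / δ)] at this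
    simp [tent_eq_zero (show 1 ≤ |x / δ - Q| by linarith)]

theorem plat_mul_tent (δ : ℝ) (P : ℤ) (x : ℝ) : plat δ P x * tent δ P x = tent δ P x := by
  rcases le_or_gt 1 |x / δ - P| with h1 | h1
  · simp [tent_eq_zero h1]
  · simp [plat, min_eq_left (by linarith : (1 : ℝ) ≤ 2 - |x / δ - P|)]

theorem abs_sub_mul_plat {δ : ℝ} (hδ : 0 < δ) (P : ℤ) (x : ℝ) :
    |(x - P * δ) * plat δ P x| ≤ 2 * δ := by
  rcases le_or_gt 2 |x / δ - P| with h1 | h1
  · have : plat δ P x = 0 := max_eq_left ((min_le_right _ _).trans (by linarith))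
    simp [this, hδ.le]
  · have h0 : 0 ≤ plat δ P x := le_max_left _ _
    have h2 : plat δ P x ≤ 1 := max_le zero_le_one (min_le_left _ _)
    have e : x - P * δ = δ * (x / δ - P) := by field_simp
    rw [abs_mul, abs_of_nonneg h0, e, abs_mul, abs_of_pos hδ]
    calc δ * |x / δ - P| * plat δ P x ≤ δ * 2 * 1 := by gcongr
      _ = 2 * δ := by ring

theorem sum_tent {δ : ℝ} (hδ : 0 < δ) {N : ℕ} {x : ℝ} (hx : |x| ≤ N * δ) :
    ∑ P ∈ Finset.Icc (-(N : ℤ)) N, tent δ P x = 1 ∧
      ∑ P ∈ Finset.Icc (-(N : ℤ)) N, ((P : ℝ) * δ) * tent δ P x = x := by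
  classical
  set y := x / δ with hy
  have hyN : |y| ≤ N := by
    rw [hy, abs_div, abs_of_pos hδ, div_le_iff₀ hδ]; exact hx
  obtain ⟨hy1, hy2⟩ := abs_le.1 hyN
  set n := ⌊y⌋
  have hn1 : (n : ℝ) ≤ y := Int.floor_le y
  have hn2 : y < n + 1 := Int.lt_floor_add_one y
  have hzero : ∀ P : ℤ, P ≠ n → P ≠ n + 1 → tent δ P x = 0 := by
    intro P h1 h2
    refine tent_eq_zero ?_
    rw [← hy]
    rcases lt_or_gt_of_ne h1 with h | h
    · have h' : (P : ℝ) + 1 ≤ n := by exact_mod_cast h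
      exact le_trans (by linarith) (le_abs_self _)
    · have h' : (n : ℝ) + 2 ≤ P := by exact_mod_cast (by omega : n + 2 ≤ P)
      exact le_trans (by linarith) (neg_le_abs _)
  have hn : tent δ n x = 1 - (y - n) := by
    rw [tent, ← hy, abs_of_nonneg (by linarith), max_eq_right (by linarith)]
  have hn' : tent δ (n + 1) x = y - n := by
    rw [tent, ← hy]
    push_cast
    rw [abs_of_nonpos (by linarith), max_eq_right (by linarith)]; ring
  have hmem : n ∈ Finset.Icc (-(N : ℤ)) N := Finset.mem_Icc.2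
    ⟨Int.le_floor.2 (by push_cast; linarith), Int.floor_le_iff.2 (by push_cast; linarith)⟩
  by_cases hmem' : n + 1 ∈ Finset.Icc (-(N : ℤ)) N
  · have hsub : ({n, n + 1} : Finset ℤ) ⊆ Finset.Icc (-(N : ℤ)) N := by
      simp [Finset.insert_subset_iff, hmem, hmem']
    have red : ∀ c : ℤ → ℝ, ∑ P ∈ Finset.Icc (-(N : ℤ)) N, c P * tent δ P x
        = c n * (1 - (y - n)) + c (n + 1) * (y - n) := fun c => by
      rw [← Finset.sum_subset hsub fun P _ hP => ?_, Finset.sum_pair (by omega), hn, hn']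
      simp only [Finset.mem_insert, Finset.mem_singleton, not_or] at hP
      simp [hzero P hP.1 hP.2]
    refine ⟨by simpa using red fun _ => 1, (red fun P => P * δ).trans ?_⟩
    push_cast
    rw [hy]; field_simp; ring
  · have hnN : n = N := by
      simp only [Finset.mem_Icc] at hmem hmem'
      omega
    have hyn : y = n := le_antisymm (by rw [hnN]; exact_mod_cast hy2) hn1
    have red : ∀ c : ℤ → ℝ, ∑ P ∈ Finset.Icc (-(N : ℤ)) N, c P * tent δ P x = c n := fun c => by
      rw [Finset.sum_eq_single n (fun P hP hPn => ?_) (fun h => absurd hmem h), hn, hyn]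
      · simp
      · rw [hzero P hPn (fun h => hmem' (h ▸ hP)), mul_zero]
    refine ⟨by simpa using red fun _ => 1, (red fun P => P * δ).trans ?_⟩
    rw [← hyn, hy]; field_simp

theorem win_eq_one {y : ℝ} (h : |y| ≤ 1 / 4) : win y = 1 := by
  simp [win, min_eq_left (by linarith : (1 : ℝ) ≤ 2 - 4 * |y|)]

theorem win_mul_win {y : ℝ} {m m' : ℤ} (h : m ≠ m') : win (y - m) * win (y - m') = 0 := by
  have hz : ∀ z, 1 / 2 ≤ |z| → win z = 0 := fun z hz =>
    max_eq_left ((min_le_right _ _).trans (by linarith))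
  rcases le_or_gt (1 / 2) |y - m| with h1 | h1
  · simp [hz _ h1]
  · have h2 : (1 : ℝ) ≤ |(m : ℝ) - m'| := by
      exact_mod_cast Int.one_le_abs (sub_ne_zero.2 h)
    have := abs_sub_le (m : ℝ) y m'
    rw [abs_sub_comm (m : ℝ) y] at this
    simp [hz (y - m') (by linarith)]

/-- The windows of one colour. -/
noncomputable def windows (B : ℕ) (W : ℝ) (k : ℕ) (i : ℕ) (x : ℝ) : ℝ :=
  ∑ m ∈ (Finset.Icc (-(B : ℤ)) B).filter (fun m => m % (k : ℤ) = i), win (x / W - m)

@[fun_prop] theorem continuous_windows (B : ℕ) (W : ℝ) (k i : ℕ) : Continuous (windows B W k i) := by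
  unfold windows; fun_prop

theorem windows_mul_windows (B : ℕ) (W : ℝ) (k : ℕ) {i j : ℕ} (h : i ≠ j) (x : ℝ) :
    windows B W k i x * windows B W k j x = 0 := by
  rw [windows, windows, Finset.sum_mul_sum]
  refine Finset.sum_eq_zero fun m hm => Finset.sum_eq_zero fun m' hm' => win_mul_win ?_
  rintro rfl
  exact h (by exact_mod_cast (Finset.mem_filter.1 hm).2.symm.trans (Finset.mem_filter.1 hm').2)

theorem windows_eq_one {B : ℕ} {W : ℝ} {k i : ℕ} {m : ℤ} (hm : m ∈ Finset.Icc (-(B : ℤ)) B)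
    (hmi : m % (k : ℤ) = i) {x : ℝ} (hx : |x / W - m| ≤ 1 / 4) : windows B W k i x = 1 := by
  rw [windows, Finset.sum_eq_single m (fun m' _ h => ?_)
    (fun h => absurd (Finset.mem_filter.2 ⟨hm, hmi⟩) h), win_eq_one hx]
  simpa [win_eq_one hx] using win_mul_win (y := x / W) h

variable {F : Type*} [CStarAlgebra F]

/-- Sandwiches between distant spectral pieces of `E`. -/
def far (E : F) (δ : ℝ) (N M : ℕ) : Set F :=
  {x | ∃ P Q : ℤ, ∃ d : F, |P| ≤ N ∧ |Q| ≤ N ∧ (M : ℤ) < |P - Q| ∧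
    x = cfc (tent δ P) E * d * cfc (tent δ Q) E}

theorem norm_sum_tent_mul_le [PartialOrder F] [StarOrderedRing F] {E : F} (_hE : IsSelfAdjoint E)
    (δ : ℝ) (d : F) (s : ℤ) (S : Finset ℤ)
    (hS : ∀ P ∈ S, ∀ Q ∈ S, P ≠ Q → 2 ≤ |P - Q|) :
    ‖∑ P ∈ S, cfc (tent δ P) E * d * cfc (tent δ (P + s)) E‖ ≤ ‖d‖ := by
  classical
  set g : ℤ → F := fun P => cfc (tent δ P) E
  have hg : ∀ P, star (g P) = g P := fun P => (cfc_predicate (tent δ P) E : IsSelfAdjoint _).star_eq
  set A := ∑ P ∈ S, g P * d * g (P + s)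
  have e : star A * A = ∑ P ∈ S, g (P + s) * (star d * (g P * g P) * d) * g (P + s) := by
    simp only [A, star_sum, Finset.sum_mul, Finset.mul_sum]
    refine Finset.sum_congr rfl fun P hP => ?_
    rw [Finset.sum_eq_single P]
    · simp only [star_mul, hg, mul_assoc]
    · intro Q hQ hQP
      have h0 : g Q * g P = 0 := cfc_mul_cfc_eq_zero E (continuous_tent _ _) (continuous_tent _ _)
        (tent_mul_tent (hS Q hQ P hP hQP))
      simp only [star_mul, hg, mul_assoc]
      rw [← mul_assoc (g Q) (g P), h0]; simp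
    · exact fun h => absurd hP h
  have hle : star A * A ≤ (‖d‖ * ‖d‖) • ∑ P ∈ S, g (P + s) * g (P + s) := by
    rw [e, Finset.smul_sum]
    refine Finset.sum_le_sum fun P _ => ?_
    have hb : IsSelfAdjoint (star d * (g P * g P) * d) := by
      simp [IsSelfAdjoint, hg, mul_assoc]
    have h1 := CStarAlgebra.star_left_conjugate_le_norm_smul (a := g (P + s)) hb
    rw [hg] at h1
    refine h1.trans (smul_le_smul_of_nonneg_right ?_ ?_)
    · have hgn : ‖g P‖ ≤ 1 := norm_cfc_le zero_le_one fun x _ => by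
        rw [Real.norm_eq_abs, abs_of_nonneg (tent_nonneg _ _ _)]; exact tent_le_one _ _ _
      calc ‖star d * (g P * g P) * d‖ ≤ ‖star d‖ * ‖g P * g P‖ * ‖d‖ := norm_mul₃_le
        _ ≤ ‖d‖ * (1 * 1) * ‖d‖ := by
          rw [norm_star]
          gcongr
          exact (norm_mul_le _ _).trans (mul_le_mul hgn hgn (norm_nonneg _) zero_le_one)
        _ = _ := by ring
    · exact (IsSelfAdjoint.mul_self_nonneg (hg _))
  have hsum : ∑ P ∈ S, g (P + s) * g (P + s) ≤ 1 := by
    have : ∑ P ∈ S, g (P + s) * g (P + s)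
        = cfc (∑ P ∈ S, fun x => tent δ (P + s) x * tent δ (P + s) x) E := by
      rw [cfc_sum (fun P x => tent δ (P + s) x * tent δ (P + s) x) E S
        (fun P _ => by fun_prop)]
      exact Finset.sum_congr rfl fun P _ =>
        (cfc_mul _ _ E (continuous_tent _ _).continuousOn (continuous_tent _ _).continuousOn).symm
    rw [this]
    refine cfc_le_one _ _ fun x _ => ?_
    rw [Finset.sum_apply]
    by_cases h : ∃ P ∈ S, tent δ (P + s) x ≠ 0
    · obtain ⟨P, hP, hne⟩ := h
      rw [Finset.sum_eq_single P (fun Q hQ hQP => ?_) (fun h => absurd hP h)]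
      · exact mul_le_one₀ (tent_le_one _ _ _) (tent_nonneg _ _ _) (tent_le_one _ _ _)
      · have h2 := tent_mul_tent (δ := δ) (P := P + s) (Q := Q + s)
          (by simpa using hS P hP Q hQ (Ne.symm hQP)) x
        rw [mul_eq_zero] at h2
        simp [h2.resolve_left hne]
    · push Not at h
      exact le_of_eq_of_le (Finset.sum_eq_zero fun P hP => by simp [h P hP]) zero_le_one
  nontriviality F
  have h := CStarAlgebra.norm_le_norm_of_nonneg_of_le (star_mul_self_nonneg A)
    (hle.trans (smul_le_smul_of_nonneg_left hsum (mul_self_nonneg _)))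
  rw [CStarRing.norm_star_mul_self, norm_smul, norm_one, mul_one, Real.norm_eq_abs,
    abs_of_nonneg (mul_self_nonneg _)] at h
  exact (mul_self_le_mul_self_iff (norm_nonneg _) (norm_nonneg _)).2 h

theorem eventually_far_full [PartialOrder F] [StarOrderedRing F] {E : F} (hE : IsSelfAdjoint E)
    (hfull : Id (ad E) 1) (M : ℕ) {R : ℝ} (hR : ‖E‖ ≤ R) :
    ∀ᶠ δ in 𝓝[>] (0 : ℝ), Id (far E δ ⌈R / δ⌉₊ M) 1 := by
  classical
  rcases subsingleton_or_nontrivial F with _ | _
  · exact .of_forall fun δ => Subsingleton.elim (0 : F) 1 ▸ Id.zero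
  refine hfull.eventually_full fun x hx ε hε => ?_
  obtain ⟨d, rfl⟩ := hx
  set C := (2 * (M : ℝ) + 1) * M * (2 * ‖d‖)
  have hC : 0 < ε / (C + 1) := by positivity
  filter_upwards [Ioo_mem_nhdsGT hC] with δ ⟨hδ, hδC⟩
  set N := ⌈R / δ⌉₊
  set I := Finset.Icc (-(N : ℤ)) N
  have hspec : ∀ x ∈ spectrum ℝ E, |x| ≤ N * δ := fun x hx =>
    ((spectrum.norm_le_norm_of_mem hx).trans hR).trans
      ((div_le_iff₀ hδ).1 (Nat.le_ceil _))
  set g : ℤ → F := fun P => cfc (tent δ P) E
  have h1 : ∑ P ∈ I, g P = 1 := by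
    rw [← cfc_sum (fun P => tent δ P) E I (fun P _ => by fun_prop), ← cfc_const_one ℝ E]
    exact cfc_congr fun x hx => by rw [Finset.sum_apply]; exact (sum_tent hδ (hspec x hx)).1
  have hEg : ∑ P ∈ I, ((P : ℝ) * δ) • g P = E := by
    have : ∀ P : ℤ, ((P : ℝ) * δ) • g P = cfc (fun x => ((P : ℝ) * δ) * tent δ P x) E := fun P =>
      (cfc_const_mul _ _ E (continuous_tent _ _).continuousOn).symm
    simp only [this]
    rw [← cfc_sum (fun (P : ℤ) x => ((P : ℝ) * δ) * tent δ P x) E I (fun P _ => by fun_prop)]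
    conv_rhs => rw [← cfc_id' ℝ E]
    exact cfc_congr fun x hx => by rw [Finset.sum_apply]; exact (sum_tent hδ (hspec x hx)).2
  have e : E * d - d * E = ∑ p ∈ I ×ˢ I, ((p.1 - p.2 : ℝ) * δ) • (g p.1 * d * g p.2) := by
    conv_lhs => rw [← hEg]
    rw [Finset.sum_product]
    simp only [Finset.sum_mul, Finset.mul_sum, smul_mul_assoc, mul_smul_comm, sub_mul, sub_smul,
      Finset.sum_sub_distrib]
    congr 1
    · refine Finset.sum_congr rfl fun P _ => ?_
      conv_lhs => rw [← mul_one (g P * d), ← h1]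
      rw [Finset.mul_sum, Finset.smul_sum]
    · conv_rhs => rw [Finset.sum_comm]
      refine Finset.sum_congr rfl fun Q _ => ?_
      conv_lhs => rw [← one_mul (d * g Q), ← h1]
      rw [Finset.sum_mul, Finset.smul_sum]
      simp only [mul_assoc]
  set t : ℤ × ℤ → F := fun p => ((p.1 - p.2 : ℝ) * δ) • (g p.1 * d * g p.2)
  refine ⟨∑ p ∈ (I ×ˢ I).filter (fun p => (M : ℤ) < |p.1 - p.2|), t p, Id.sum fun p hp => ?_, ?_⟩
  · obtain ⟨hp, hpM⟩ := Finset.mem_filter.1 hp
    obtain ⟨h₁, h₂⟩ := Finset.mem_product.1 hp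
    refine (Id.of_mem (X := far E δ N M) ⟨p.1, p.2, d, abs_le.2 ?_, abs_le.2 ?_, hpM, rfl⟩).smul _
    · exact Finset.mem_Icc.1 h₁
    · exact Finset.mem_Icc.1 h₂
  rw [e, ← Finset.sum_filter_add_sum_filter_not (I ×ˢ I) (fun p => (M : ℤ) < |p.1 - p.2|)]
  change ‖_ + ∑ p ∈ (I ×ˢ I).filter (fun p => ¬ (M : ℤ) < |p.1 - p.2|), t p - _‖ ≤ ε
  rw [add_sub_cancel_left]
  have ereindex : ∑ p ∈ (I ×ˢ I).filter (fun p => ¬ (M : ℤ) < |p.1 - p.2|), t p
      = ∑ s ∈ Finset.Icc (-(M : ℤ)) M, ∑ P ∈ I.filter (fun P => P + s ∈ I),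
          (-(s : ℝ) * δ) • (g P * d * g (P + s)) := by
    rw [Finset.sum_sigma']
    refine Finset.sum_bij' (fun p _ => ⟨p.2 - p.1, p.1⟩) (fun q _ => (q.2, q.2 + q.1)) ?_ ?_ ?_ ?_ ?_
    · intro p hp
      simp only [Finset.mem_filter, Finset.mem_product, not_lt, abs_le] at hp
      simp only [Finset.mem_sigma, Finset.mem_Icc, Finset.mem_filter, add_sub_cancel]
      exact ⟨⟨by omega, by omega⟩, hp.1.1, hp.1.2⟩
    · intro q hq
      simp only [Finset.mem_sigma, Finset.mem_Icc, Finset.mem_filter] at hq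
      simp only [Finset.mem_filter, Finset.mem_product, not_lt, abs_le]
      exact ⟨⟨hq.2.1, hq.2.2⟩, by omega, by omega⟩
    · intro p _; simp
    · intro q _; simp
    · intro p _; simp [t]
  rw [ereindex]
  refine (norm_sum_le _ _).trans ((Finset.sum_le_sum fun s hs =>
    (?_ : _ ≤ (M : ℝ) * δ * (2 * ‖d‖))).trans ?_)
  · rw [← Finset.smul_sum, norm_smul]
    refine mul_le_mul ?_ ?_ (norm_nonneg _) (by positivity)
    · rw [Real.norm_eq_abs, abs_mul, abs_neg, abs_of_pos hδ]
      have : |s| ≤ M := abs_le.2 (Finset.mem_Icc.1 hs)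
      gcongr
      exact_mod_cast this
    · rw [← Finset.sum_filter_add_sum_filter_not _ (fun P : ℤ => P % 2 = 0)]
      refine (norm_add_le _ _).trans ((add_le_add (norm_sum_tent_mul_le hE δ d s _ ?_)
        (norm_sum_tent_mul_le hE δ d s _ ?_)).trans_eq (two_mul _).symm) <;>
      · intro P hP Q hQ hne
        simp only [Finset.mem_filter] at hP hQ
        have : 2 ≤ P - Q ∨ 2 ≤ Q - P := by omega
        rcases this with h | h
        · exact h.trans (le_abs_self _)
        · exact (by omega : (2 : ℤ) ≤ -(P - Q)).trans (neg_le_abs _)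
  · rw [Finset.sum_const, nsmul_eq_mul, Int.card_Icc]
    rw [show ((M : ℤ) + 1 - -(M : ℤ)).toNat = 2 * M + 1 by omega]
    push_cast
    have : δ * (C + 1) ≤ ε := ((lt_div_iff₀ (by positivity)).1 hδC).le
    have : (2 * (M : ℝ) + 1) * (M * δ * (2 * ‖d‖)) = C * δ := by ring
    nlinarith

theorem commute_sum_range {K n : ℕ} {f : ℕ → F} {y : F} (h : ∀ b < n, Commute (f b) y)
    (_ : n ≤ K) : Commute (∑ b ∈ Finset.range n, f b) y :=
  Commute.sum_left _ _ _ fun b hb => h b (Finset.mem_range.1 hb)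

/-- Orthogonal full tags, any number of them. -/
theorem exists_tags [PartialOrder F] [StarOrderedRing F] (hF : Copyable F)
    (hχ : IsEmpty (F →⋆ₐ[ℂ] ℂ)) (k : ℕ) :
    ∃ w : Fin k → F, (∀ i, IsSelfAdjoint (w i)) ∧ (∀ i j, i ≠ j → w i * w j = 0) ∧
      ∀ i, Id {w i} 1 := by
  classical
  rcases subsingleton_or_nontrivial F with _ | _
  · exact ⟨0, fun _ => .zero _, fun _ _ _ => by simp, fun i => Subsingleton.elim (0 : F) 1 ▸ Id.zero⟩
  obtain ⟨E, hE, hfull⟩ := exists_full_ad hF hχ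
  set R := max 1 ‖E‖
  have hR1 : 1 ≤ R := le_max_left _ _
  set M := 32 * (k + 2)
  obtain ⟨δ, hfar, hδ0, hδ1⟩ := ((eventually_far_full hE hfull M (le_max_right 1 ‖E‖)).and
    (Ioo_mem_nhdsGT (zero_lt_one' ℝ))).exists
  set K := ⌈R / δ⌉₊
  have hK1 : R ≤ K * δ := (div_le_iff₀ hδ0).1 (Nat.le_ceil _)
  have hK2 : K * δ ≤ 2 * R := by
    have h := (Nat.ceil_lt_add_one (show 0 ≤ R / δ by positivity)).le
    calc (K : ℝ) * δ ≤ (R / δ + 1) * δ := by gcongr
      _ = R + δ := by field_simp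
      _ ≤ 2 * R := by linarith
  have hK0 : 0 < K := Nat.ceil_pos.2 (by positivity)
  obtain ⟨X, hXf, hXsub, hX⟩ := hfar.finite
  choose P Q d hP hQ hM hd using fun x : X => hXsub x.2
  have := hXf.fintype
  obtain ⟨G₀, hG₀, hwit⟩ := hX.witness_one
  let G := G₀ ∪ (insert E (Set.range d))
  let ED : cs G := ⟨E, subset_cs G (.inr (.inl rfl))⟩
  have hED : IsSelfAdjoint ED := Subtype.ext hE
  let dD : X → cs G := fun x => ⟨d x, subset_cs G (.inr (.inr ⟨x, rfl⟩))⟩
  let xD : X → cs G := fun x => cfc (tent δ (P x)) ED * dD x * cfc (tent δ (Q x)) ED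
  have hxD : Id (Set.range xD) 1 := (hwit G Set.subset_union_left).mono fun y hy => by
    refine ⟨⟨_, hy⟩, Subtype.ext ?_⟩
    have h := (hd ⟨_, hy⟩).symm
    simp only [xD, MulMemClass.coe_mul, coe_cfc_cs _ (continuous_tent _ _) ED hED]
    exact h
  obtain ⟨φ', -, hφ'⟩ := hF.copies (hG₀.union ((Set.finite_range d).insert E)) Set.finite_empty K
  let φ : ℕ → (cs G →⋆ₐ[ℂ] F) := fun b => φ' ⟨b % K, Nat.mod_lt _ hK0⟩
  have hφ : ∀ a < K, ∀ b < K, a ≠ b → ∀ x y, Commute (φ a x) (φ b y) := fun a ha b hb hab x y =>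
    hφ' _ _ (by simp [Fin.ext_iff, Nat.mod_eq_of_lt ha, Nat.mod_eq_of_lt hb, hab]) x y
  let u : ℕ → F := fun b => φ b ED
  let S : ℕ → F := fun n => ∑ b ∈ Finset.range n, u b
  have hu : ∀ b, IsSelfAdjoint (u b) := fun b => hED.map _
  have hS : ∀ n, IsSelfAdjoint (S n) := fun n => isSelfAdjoint_sum _ fun b _ => hu b
  let C : ℕ → F → Prop := fun n y => ∀ b, n ≤ b → b < K → ∀ x, Commute y (φ b x)
  have hCφ : ∀ n < K, ∀ x, C (n + 1) (φ n x) := fun n hn x b hb hbK y =>
    hφ n hn b hbK (by omega) x y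
  have hCmul : ∀ n y z, C n y → C n z → C n (y * z) := fun n y z hy hz b hb hbK x =>
    (hy b hb hbK x).mul_left (hz b hb hbK x)
  have hCup : ∀ n y, C n y → C (n + 1) y := fun n y hy b hb => hy b (by omega)
  have hC1 : ∀ n, C n 1 := fun n b _ _ x => Commute.one_left _
  have hCS : ∀ n, n ≤ K → C n (S n) := fun n hn b hb hbK x =>
    commute_sum_range (K := K) (fun a ha => hφ a (by omega) b hbK (by omega) _ x) hn
  -- products of sandwiches
  let Y : ℕ → Set F := fun n => Nat.rec {1} (fun m s => {v | ∃ a ∈ s, ∃ x, v = a * φ m (xD x)}) n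
  have inv : ∀ n ≤ K, ∀ v ∈ Y n, C n v ∧ ∃ c : ℕ → ℝ,
      (∀ r < n, c (r + 1) ≤ c r + 4 * R) ∧ (∀ r ≤ n, |c r| ≤ n * (2 * R)) ∧
      (M : ℝ) * δ * n ≤ c n - c 0 ∧
      ∀ r ≤ n, ∃ l r' B B', C n l ∧ C n r' ∧ C n B ∧ C n B' ∧ v = l * B * r' ∧ IsSelfAdjoint B' ∧
        Commute B' B ∧ B' * B = B ∧ Commute (S n) B ∧ Commute (S n) B' ∧ ‖B'‖ ≤ 1 ∧
        ‖(S n - algebraMap ℝ F (c r)) * B'‖ ≤ 2 * n * δ := by
    intro n
    induction n with
    | zero =>
      rintro - v (rfl : v = 1)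
      refine ⟨hC1 0, fun _ => 0, fun r hr => absurd hr (Nat.not_lt_zero _), fun r _ => by simp,
        by simp, fun r _ => ⟨1, 1, 1, 1, hC1 0, hC1 0, hC1 0, hC1 0, by simp, .one _,
          Commute.refl _, one_mul _, Commute.one_right _, Commute.one_right _, norm_one.le,
          by simp [S]⟩⟩
    | succ n ih =>
      rintro hn v ⟨a, ha, x, rfl⟩
      have hnK : n < K := hn
      obtain ⟨haC, c, hc1, hc2, hc3, hloc⟩ := ih (by omega) a ha
      refine ⟨hCmul _ _ _ (hCup _ _ haC) (hCφ n hnK _), ?_⟩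
      set lo := min (P x) (Q x)
      set hi := max (P x) (Q x)
      have hNb : ∀ z : ℤ, |z| ≤ K → |(z : ℝ) * δ| ≤ 2 * R := fun z hz => by
        rw [abs_mul, abs_of_pos hδ0]
        exact le_trans (by gcongr; exact_mod_cast hz) hK2
      have hlo : |lo| ≤ (K : ℤ) := by
        rcases min_choice (P x) (Q x) with h | h <;> simp only [lo, h] <;> first | exact hP x | exact hQ x
      have hhi : |hi| ≤ (K : ℤ) := by
        rcases max_choice (P x) (Q x) with h | h <;> simp only [hi, h] <;> first | exact hP x | exact hQ x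
      have hgap : (M : ℝ) * δ ≤ ((hi : ℝ) - lo) * δ := by
        have : (M : ℤ) ≤ hi - lo := by rw [max_sub_min_eq_abs']; exact (hM x).le
        gcongr
        exact_mod_cast this
      let c' : ℕ → ℝ := fun r => if r ≤ n then c r + lo * δ else c n + hi * δ
      refine ⟨c', fun r hr => ?_, fun r hr => ?_, ?_, ?_⟩
      · simp only [c', show r ≤ n by omega, if_true]
        split_ifs with h
        · linarith [hc1 r (by omega)]
        · rw [show r = n by omega]
          linarith [(abs_le.1 (hNb lo hlo)).1, (abs_le.1 (hNb hi hhi)).2]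
      · push_cast
        simp only [c']
        split_ifs with h
        · linarith [abs_add_le (c r) (lo * δ), hc2 r h, hNb lo hlo]
        · linarith [abs_add_le (c n) (hi * δ), hc2 n le_rfl, hNb hi hhi]
      · simp only [c', show ¬ n + 1 ≤ n by omega, Nat.zero_le, if_true, if_false]
        push_cast
        linarith [sub_mul (hi : ℝ) lo δ]
      intro r hr
      obtain ⟨r₀, hr₀, z, hz, hc'⟩ : ∃ r₀ ≤ n, ∃ z : ℤ, (z = P x ∨ z = Q x) ∧
          c' r = c r₀ + z * δ := by
        by_cases h : r ≤ n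
        · exact ⟨r, h, lo, min_choice _ _, by simp [c', h]⟩
        · exact ⟨n, le_rfl, hi, max_choice _ _, by simp [c', h]⟩
      obtain ⟨l, r', B, B', hl, hr', hB, hB', rfl, hBs, hBB, hBB', hSB, hSB', hBn, hdist⟩ :=
        hloc r₀ hr₀
      let γ := fun z : ℤ => φ n (cfc (tent δ z) ED)
      let π := φ n (cfc (plat δ z) ED)
      have hπs : IsSelfAdjoint π := (cfc_predicate _ _ : IsSelfAdjoint _).map _
      have hπγ : π * γ z = γ z := by
        simp only [π, γ, ← map_mul]
        rw [cfc_mul_cfc_eq_right _ (continuous_plat _ _) (continuous_tent _ _) (plat_mul_tent _ _)]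
      have hcB : ∀ y, C n y → ∀ w, Commute y (φ n w) := fun y hy w => hy n le_rfl hnK w
      have hS' : S (n + 1) = S n + u n := Finset.sum_range_succ _ _
      have hSc : ∀ w, Commute (S n) (φ n w) := hcB _ (hCS n (by omega))
      have huB : ∀ y, C n y → Commute (u n) y := fun y hy => (hcB y hy ED).symm
      have huφ : ∀ f, Continuous f → Commute (u n) (φ n (cfc f ED)) := fun f hf =>
        (cfc_commute hED (Commute.refl ED) f hf).symm.map (φ n)
      have hnπ : ‖π‖ ≤ 1 := (NonUnitalStarAlgHom.norm_apply_le _ _).trans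
        (norm_cfc_le zero_le_one fun y _ => by
          rw [Real.norm_eq_abs, abs_of_nonneg (le_max_left _ _)]
          exact max_le zero_le_one (min_le_left _ _))
      have hdist' : ‖(S (n + 1) - algebraMap ℝ F (c' r)) * (B' * π)‖ ≤ 2 * (n + 1 : ℕ) * δ := by
        have e : (S (n + 1) - algebraMap ℝ F (c' r)) * (B' * π)
            = (S n - algebraMap ℝ F (c r₀)) * B' * π
              + B' * ((u n - algebraMap ℝ F (z * δ)) * π) := by
          rw [← mul_assoc B', ← ((huB B' hB').sub_left (Algebra.commutes _ B')).eq, mul_assoc,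
            hS', hc', map_add]
          noncomm_ring
        have halg : ∀ t : ℝ, φ n (algebraMap ℝ (cs G) t) = algebraMap ℝ F t := fun t => by
          simp only [IsScalarTower.algebraMap_apply ℝ ℂ F, IsScalarTower.algebraMap_apply ℝ ℂ (cs G)]
          exact AlgHomClass.commutes _ _
        have e' : (u n - algebraMap ℝ F (z * δ)) * π
            = φ n (cfc (fun y => (y - z * δ) * plat δ z y) ED) := by
          rw [cfc_mul (fun y => y - z * δ) (plat δ z) ED (by fun_prop) (by fun_prop),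
            cfc_sub (fun y => y) (fun _ => (z : ℝ) * δ) ED continuousOn_id continuousOn_const,
            cfc_id' ℝ ED, cfc_const _ ED, map_mul (φ n), map_sub (φ n), halg]
        rw [e, e']
        refine (norm_add_le _ _).trans ?_
        have h1 : ‖(S n - algebraMap ℝ F (c r₀)) * B' * π‖ ≤ 2 * n * δ * 1 :=
          (norm_mul_le _ _).trans (mul_le_mul hdist hnπ (norm_nonneg _) (by positivity))
        have h2 : ‖B' * φ n (cfc (fun y => (y - z * δ) * plat δ z y) ED)‖ ≤ 1 * (2 * δ) :=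
          (norm_mul_le _ _).trans (mul_le_mul hBn ((NonUnitalStarAlgHom.norm_apply_le _ _).trans
            (norm_cfc_le (by positivity) fun y _ => abs_sub_mul_plat hδ0 z y)) (norm_nonneg _)
            zero_le_one)
        push_cast
        linarith
      have hfac : ∃ l₁ r₁, C (n + 1) l₁ ∧ C (n + 1) r₁ ∧
          l * B * r' * φ n (xD x) = l₁ * (B * γ z) * r₁ := by
        simp only [xD, map_mul]
        rcases hz with rfl | rfl
        · refine ⟨l, r' * φ n (dD x) * γ (Q x), hCup _ _ hl,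
            hCmul _ _ _ (hCmul _ _ _ (hCup _ _ hr') (hCφ n hnK _)) (hCφ n hnK _), ?_⟩
          calc _ = l * B * (r' * γ (P x)) * φ n (dD x) * γ (Q x) := by simp only [γ, mul_assoc]
            _ = _ := by rw [(hcB r' hr' _).eq]; simp only [γ, mul_assoc]
        · refine ⟨l * (γ (P x) * φ n (dD x)), r', hCmul _ _ _ (hCup _ _ hl)
            (hCmul _ _ _ (hCφ n hnK _) (hCφ n hnK _)), hCup _ _ hr', ?_⟩
          calc _ = l * (B * r' * (γ (P x) * φ n (dD x) * γ (Q x))) := by simp only [γ, mul_assoc]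
            _ = l * ((γ (P x) * φ n (dD x) * γ (Q x)) * (B * r')) := by
              have hcomm : Commute (B * r') (γ (P x) * φ n (dD x) * γ (Q x)) :=
                (((hcB B hB _).mul_left (hcB r' hr' _)).mul_right
                  ((hcB B hB _).mul_left (hcB r' hr' _))).mul_right
                  ((hcB B hB _).mul_left (hcB r' hr' _))
              rw [hcomm.eq]
            _ = _ := by
              rw [(hcB B hB (cfc (tent δ (Q x)) ED)).eq]; simp only [γ, mul_assoc]
      obtain ⟨l₁, r₁, hl₁, hr₁, hv⟩ := hfac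
      refine ⟨l₁, r₁, B * γ z, B' * π, hl₁, hr₁, hCmul _ _ _ (hCup _ _ hB) (hCφ n hnK _),
        hCmul _ _ _ (hCup _ _ hB') (hCφ n hnK _), hv,
        (IsSelfAdjoint.commute_iff hBs hπs).1 (hcB B' hB' _), ?_, ?_, ?_, ?_,
        (norm_mul_le _ _).trans (mul_le_one₀ hBn (norm_nonneg _) hnπ), hdist'⟩
      · exact ((hBB.mul_right (hcB B' hB' _)).mul_left (((hcB B hB _).symm).mul_right
          (((cfc_commute_cfc (plat δ z) (tent δ z) ED)).map (φ n))))
      · rw [mul_assoc, ← mul_assoc π, ← (hcB B hB _).eq, mul_assoc, ← mul_assoc, hBB', hπγ]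
      · rw [hS']
        exact (hSB.mul_right (hSc _)).add_left ((huB B hB).mul_right (huφ _ (continuous_tent _ _)))
      · rw [hS']
        exact (hSB'.mul_right (hSc _)).add_left
          ((huB B' hB').mul_right (huφ _ (continuous_plat _ _)))
  have hY : ∀ n ≤ K, Id (Y n) 1 := by
    intro n
    induction n with
    | zero => exact fun _ => .of_mem (Set.mem_singleton _)
    | succ n ih =>
      intro hn
      refine (ih (by omega)).trans fun a ha => ?_
      have hac := (inv n (by omega) a ha).1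
      suffices ∀ z, Id (Set.range xD) z → Id (Y (n + 1)) (a * φ n z) by simpa using this 1 hxD
      intro z hz
      induction hz with
      | zero => simpa using Id.zero
      | add _ _ h₁ h₂ => simpa [mul_add] using h₁.add h₂
      | gen p y q hy =>
        obtain ⟨x, rfl⟩ := hy
        have e : a * φ n (p * xD x * q) = φ n p * (a * φ n (xD x)) * φ n q := by
          simp only [map_mul, ← mul_assoc, (hac n le_rfl hn p).eq]
        rw [e]
        exact Id.gen _ _ _ ⟨a, ha, x, rfl⟩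
  set W := 32 * R
  refine ⟨fun i => cfc (windows (K + 1) W k i) (S K), fun i => cfc_predicate _ _,
    fun i j hij => cfc_mul_cfc_eq_zero _ (continuous_windows _ _ _ _) (continuous_windows _ _ _ _)
      (windows_mul_windows _ _ _ (fun h => hij (Fin.ext h))), fun i => (hY K le_rfl).trans ?_⟩
  intro v hv
  obtain ⟨-, c, hc1, hc2, hc3, hloc⟩ := inv K le_rfl v hv
  have hW : 0 < W := by positivity
  have hrange : (k + 2 : ℝ) * W ≤ c K - c 0 := by
    calc (k + 2 : ℝ) * W = (M : ℝ) * R := by simp [M, W]; ring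
      _ ≤ (M : ℝ) * (K * δ) := by gcongr
      _ = M * δ * K := by ring
      _ ≤ _ := hc3
  set a := ⌈c 0 / W⌉
  set m := a + ((i : ℤ) - a) % (k : ℤ)
  have hk0 : (k : ℤ) ≠ 0 := by have := i.2; omega
  have hm1 : a ≤ m := le_add_of_nonneg_right (Int.emod_nonneg _ hk0)
  have hm2 : m ≤ a + k := by
    have := Int.emod_lt_of_pos ((i : ℤ) - a) (by omega : (0 : ℤ) < k); omega
  have hmi : m % (k : ℤ) = (i : ℕ) := by
    simp only [m, Int.add_emod_emod, add_sub_cancel]
    exact Int.emod_eq_of_lt (by omega) (by exact_mod_cast i.2)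
  have hmW1 : c 0 ≤ m * W := (div_le_iff₀ hW).1 ((Int.le_ceil _).trans (by exact_mod_cast hm1))
  have hmW2 : (m : ℝ) * W ≤ c K := by
    have h1 : (m : ℝ) ≤ c 0 / W + 1 + k := by
      have := (Int.ceil_lt_add_one (c 0 / W)).le
      have : (m : ℝ) ≤ a + k := by exact_mod_cast hm2
      linarith
    calc (m : ℝ) * W ≤ (c 0 / W + 1 + k) * W := by gcongr
      _ = c 0 + (1 + k) * W := by field_simp; ring
      _ ≤ c K := by linarith
  have hex : ∃ r, r ≤ K ∧ (m : ℝ) * W ≤ c r := ⟨K, le_rfl, hmW2⟩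
  obtain ⟨hrK, hrm⟩ := Nat.find_spec hex
  have hnear : |c (Nat.find hex) - m * W| ≤ 4 * R := by
    rw [abs_of_nonneg (by linarith)]
    rcases h0 : Nat.find hex with _ | r'
    · linarith
    · have hlt : ¬ (r' ≤ K ∧ (m : ℝ) * W ≤ c r') := Nat.find_min hex (by omega)
      push Not at hlt
      linarith [hlt (by omega), hc1 r' (by omega)]
  obtain ⟨l, r', B, B', -, -, -, -, rfl, hBs, hBB, hBB', hSB, hSB', -, hdist⟩ :=
    hloc _ hrK
  have habs : cfc (windows (K + 1) W k i) (S K) * B = B := by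
    refine cfc_plateau (hS K) hBs hSB' hSB hBB' hBB hdist _ (continuous_windows _ _ _ _) fun y hy => ?_
    refine windows_eq_one ?_ hmi ?_
    · rw [Finset.mem_Icc]
      have hb : |(m : ℝ)| ≤ (K + 1 : ℕ) := by
        have h1 : |(m : ℝ) * W| ≤ (K + 1 : ℕ) * W := by
          have := hc2 0 (Nat.zero_le _)
          have := hc2 K le_rfl
          push_cast
          simp only [abs_le] at *
          constructor <;> nlinarith
        rwa [abs_mul, abs_of_pos hW, mul_le_mul_iff_of_pos_right hW] at h1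
      exact abs_le.1 (by exact_mod_cast hb)
    · have : |y - m * W| ≤ W / 4 := by
        have := abs_sub_le y (c (Nat.find hex)) (m * W)
        simp only [W]
        have hKd : 2 * (K : ℝ) * δ ≤ 4 * R := by linarith
        linarith
      rw [show y / W - m = (y - m * W) / W by field_simp, abs_div, abs_of_pos hW,
        div_le_iff₀ hW]
      linarith
  rw [← habs]
  exact (((Id.of_mem (Set.mem_singleton _)).mul_right B).mul_left l).mul_right r'

end Vale.Agent.P101
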