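import Vale.Agent.P101.Defs
import Vale.Agent.P101.Drop.Unique

/-!
All tensor decompositions of `A` and an inductive limit of dimension drop algebras are isomorphic:
the algebraic tensor product carries only one C⋆-norm.
-/

set_option maxSynthPendingDepth 3

open Filter Topology
open scoped ComplexOrder

namespace Vale.Agent.P101

variable {A Z B B' : Type*} [CStarAlgebra A] [CStarAlgebra Z] [CStarAlgebra B] [CStarAlgebra B']

/-- The elementary tensors of a tensor decomposition vanish only trivially. -/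
theorem IsTensor.eq_zero_or_eq_zero {α : A →⋆ₐ[ℂ] B} {β : Z →⋆ₐ[ℂ] B} (h : IsTensor α β)
    {a : A} {z : Z} (hz : α a * β z = 0) : a = 0 ∨ z = 0 := by
  by_cases hz0 : z = 0
  · exact Or.inr hz0
  · left
    exact h.2.1 1 (fun _ => a) (fun _ => z)
      (linearIndependent_unique_iff.2 hz0) (by simpa using hz) 0

private theorem bijective_of_isometric {D C : Type*} [CStarAlgebra D] [CStarAlgebra C]
    (π : D →⋆ₐ[ℂ] C) (hπ : ∀ x, ‖π x‖ = ‖x‖) {s : Set C}
    (hs : Dense (StarAlgebra.adjoin ℂ s : Set C)) (hsub : s ⊆ π.range) : Function.Bijective π := by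
  have hiso := AddMonoidHomClass.isometry_of_norm π hπ
  refine ⟨hiso.injective, fun c => ?_⟩
  have hd := hs.mono (show (StarAlgebra.adjoin ℂ s : Set C) ⊆ π.range from
    StarAlgebra.adjoin_le hsub)
  have hc : IsClosed (Set.range π) := hiso.isClosedEmbedding.isClosed_range
  exact hc.closure_subset (hd c)

/-- Two tensor decompositions of `A` and an inductive limit of dimension drop algebras are
isomorphic. -/
theorem exists_equiv_of_isTensor (p q : ℕ → ℕ)
    (ψ : ∀ j, Drop.dropAlg (p j) (q j) ℂ →⋆ₐ[ℂ] Z)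
    (hp : ∀ j, p j ≠ 0) (hq : ∀ j, q j ≠ 0) (hψ : ∀ j, Function.Injective (ψ j))
    (hmono : ∀ j, Set.range (ψ j) ⊆ Set.range (ψ (j + 1)))
    (hdense : Dense (⋃ j, Set.range (ψ j)))
    {α : A →⋆ₐ[ℂ] B} {β : Z →⋆ₐ[ℂ] B} (h : IsTensor α β)
    {α' : A →⋆ₐ[ℂ] B'} {β' : Z →⋆ₐ[ℂ] B'} (h' : IsTensor α' β') :
    ∃ e : B ≃⋆ₐ[ℂ] B', (∀ a, e (α a) = α' a) ∧ ∀ z, e (β z) = β' z := by
  let := CStarAlgebra.spectralOrder A
  have := CStarAlgebra.spectralOrderedRing A
  have : ∀ j, NeZero (p j) := fun j => ⟨hp j⟩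
  have : ∀ j, NeZero (q j) := fun j => ⟨hq j⟩
  obtain ⟨hc1, -, hd1⟩ := id h
  obtain ⟨hc2, -, hd2⟩ := id h'
  set αα := StarAlgHom.prod α α'
  set ββ := StarAlgHom.prod β β'
  have hcc : ∀ j a z, Commute (αα a) (ββ.comp (ψ j) z) := fun j a z =>
    Prod.ext (hc1 a (ψ j z)).eq (hc2 a (ψ j z)).eq
  set Ψ := fun j => Drop.lift αα (ββ.comp (ψ j)) (hcc j)
  have hinj : ∀ j a z, α a * β (ψ j z) = 0 → a = 0 ∨ z = 0 := fun j a z hz =>
    (h.eq_zero_or_eq_zero hz).imp id fun hh => hψ j (by rw [hh, map_zero])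
  have hinj' : ∀ j a z, α' a * β' (ψ j z) = 0 → a = 0 ∨ z = 0 := fun j a z hz =>
    (h'.eq_zero_or_eq_zero hz).imp id fun hh => hψ j (by rw [hh, map_zero])
  have hd' : ∀ j a z, Commute (α a) (β.comp (ψ j) z) := fun j a z => hc1 a _
  have hd'' : ∀ j a z, Commute (α' a) (β'.comp (ψ j) z) := fun j a z => hc2 a _
  -- both coordinates of the extensions are isometric
  have hfst : ∀ j f, ‖(Ψ j f).1‖ = ‖f‖ := fun j f => by
    have e : (StarAlgHom.fst ℂ B B').comp (Ψ j) =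
        Drop.lift α (β.comp (ψ j)) (hd' j) := Drop.hom_ext fun a z => by
      rw [Drop.lift_tensor]
      simp [Ψ, αα, ββ]
    rw [← Drop.norm_lift α (β.comp (ψ j)) (hd' j) (hinj j) f, ← e]
    rfl
  have hsnd : ∀ j f, ‖(Ψ j f).2‖ = ‖f‖ := fun j f => by
    have e : (StarAlgHom.snd ℂ B B').comp (Ψ j) =
        Drop.lift α' (β'.comp (ψ j)) (hd'' j) := Drop.hom_ext fun a z => by
      rw [Drop.lift_tensor]
      simp [Ψ, αα, ββ]
    rw [← Drop.norm_lift α' (β'.comp (ψ j)) (hd'' j) (hinj' j) f, ← e]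
    rfl
  have hclosed : ∀ j, IsClosed (Set.range (Ψ j)) := fun j =>
    (AddMonoidHomClass.isometry_of_norm (Ψ j) fun f => by
      rw [Prod.norm_def, hfst, hsnd, max_self]).isClosedEmbedding.isClosed_range
  have hstep : ∀ j, (Ψ j).range ≤ (Ψ (j + 1)).range := by
    intro j x hx
    obtain ⟨f, rfl⟩ := hx
    have hten : ∀ a z, Ψ j (Drop.tensor a z) ∈ (Ψ (j + 1)).range := fun a z => by
      obtain ⟨z', hz'⟩ := hmono j ⟨z, rfl⟩
      exact ⟨Drop.tensor a z', by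
        change Ψ (j + 1) (Drop.tensor a z') = Ψ j (Drop.tensor a z)
        simp [Ψ, hz']⟩
    refine (hclosed (j + 1)).mem_of_tendsto
      (((Drop.continuous_hom (Ψ j)).tendsto f).comp (Drop.tendsto_bern f))
      (Eventually.of_forall fun n => ?_)
    change Ψ j (Drop.bern n f) ∈ (Ψ (j + 1)).range
    simp only [Drop.bern, map_sum]
    exact sum_mem fun k _ => sum_mem fun μ _ => sum_mem fun ν _ => hten _ _
  set S := ⨆ j, (Ψ j).range
  have hdir : Directed (· ≤ ·) fun j => (Ψ j).range :=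
    (monotone_nat_of_le_succ hstep).directed_le
  set K := S.topologicalClosure
  have : IsClosed (K : Set (B × B')) := S.isClosed_topologicalClosure
  let : CStarAlgebra K := StarSubalgebra.cstarAlgebra (h_closed := this) K
  have hKn : ∀ x ∈ K, ‖x.1‖ = ‖x.2‖ := by
    intro x hx
    refine closure_minimal (fun y hy => ?_) (isClosed_eq continuous_fst.norm continuous_snd.norm)
      (show x ∈ closure (S : Set (B × B')) from hx)
    rw [StarSubalgebra.coe_iSup_of_directed hdir, Set.mem_iUnion] at hy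
    obtain ⟨j, f, rfl⟩ := hy
    exact (hfst j f).trans (hsnd j f).symm
  have hmemα : ∀ a, αα a ∈ K := fun a => S.le_topologicalClosure (le_iSup (fun j => (Ψ j).range) 0
    ⟨Drop.tensor a 1, by
      change Ψ 0 (Drop.tensor a 1) = αα a
      simp [Ψ]⟩)
  have hmemψ : ∀ j z, ββ (ψ j z) ∈ S := fun j z => le_iSup (fun j => (Ψ j).range) j
    ⟨Drop.tensor 1 z, by
      change Ψ j (Drop.tensor 1 z) = ββ (ψ j z)
      simp [Ψ]⟩
  have hmemβ : ∀ z, ββ z ∈ K := fun z =>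
    map_mem_closure (Drop.continuous_hom ββ) (hdense z) (by
      intro w hw
      obtain ⟨j, u, rfl⟩ := Set.mem_iUnion.1 hw
      exact hmemψ j u)
  set π₁ : K →⋆ₐ[ℂ] B := (StarAlgHom.fst ℂ B B').comp K.subtype
  set π₂ : K →⋆ₐ[ℂ] B' := (StarAlgHom.snd ℂ B B').comp K.subtype
  have hn₁ : ∀ x, ‖π₁ x‖ = ‖x‖ := fun x => by
    change ‖(x : B × B').1‖ = ‖(x : B × B')‖
    rw [Prod.norm_def, ← hKn _ x.2, max_self]
  have hn₂ : ∀ x, ‖π₂ x‖ = ‖x‖ := fun x => by
    change ‖(x : B × B').2‖ = ‖(x : B × B')‖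
    rw [Prod.norm_def, hKn _ x.2, max_self]
  have b₁ := bijective_of_isometric π₁ hn₁ hd1 (by
    rintro _ (⟨a, rfl⟩ | ⟨z, rfl⟩)
    exacts [⟨⟨αα a, hmemα a⟩, rfl⟩, ⟨⟨ββ z, hmemβ z⟩, rfl⟩])
  have b₂ := bijective_of_isometric π₂ hn₂ hd2 (by
    rintro _ (⟨a, rfl⟩ | ⟨z, rfl⟩)
    exacts [⟨⟨αα a, hmemα a⟩, rfl⟩, ⟨⟨ββ z, hmemβ z⟩, rfl⟩])
  refine ⟨(StarAlgEquiv.ofBijective π₁ b₁).symm.trans (StarAlgEquiv.ofBijective π₂ b₂),
    fun a => ?_, fun z => ?_⟩
  · have e : (StarAlgEquiv.ofBijective π₁ b₁).symm (α a) = ⟨αα a, hmemα a⟩ := by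
      refine (EquivLike.injective (StarAlgEquiv.ofBijective π₁ b₁)) ?_
      rw [StarAlgEquiv.apply_symm_apply]
      rfl
    change π₂ ((StarAlgEquiv.ofBijective π₁ b₁).symm (α a)) = _
    rw [e]
    rfl
  · have e : (StarAlgEquiv.ofBijective π₁ b₁).symm (β z) = ⟨ββ z, hmemβ z⟩ := by
      refine (EquivLike.injective (StarAlgEquiv.ofBijective π₁ b₁)) ?_
      rw [StarAlgEquiv.apply_symm_apply]
      rfl
    change π₂ ((StarAlgEquiv.ofBijective π₁ b₁).symm (β z)) = _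
    rw [e]
    rfl

end Vale.Agent.P101
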