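import Vale.Agent.P101.Defs
import Vale.Agent.P101.Drop.Lift

/-!
# Uniqueness of the tensor completion

A star homomorphism on a dimension drop algebra with coefficients is injective as soon as it
kills no nonzero elementary tensor. Hence any two tensor decompositions over an inductive limit
of dimension drop algebras are isomorphic.
-/

set_option maxSynthPendingDepth 3

open Filter Topology
open scoped unitInterval ComplexOrder

namespace Vale.Agent.P101.Unique

open Drop (dropAlg Mat Idx)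

section Injective

variable {P Q : ℕ} [NeZero P] [NeZero Q]
  {A : Type*} [CStarAlgebra A] [PartialOrder A] [StarOrderedRing A]

theorem mk_apply {m n R : Type*} (f : m → n → R) (i : m) (j : n) :
    CStarMatrix.ofMatrix (fun a b => f a b) i j = f i j := rfl

/-- `v ↦` the matrix with `v` in the corner. -/
noncomputable def corner : A →⋆ₙₐ[ℂ] Mat P Q A where
  toFun v := CStarMatrix.ofMatrix fun i j => if i = 0 ∧ j = 0 then v else 0
  map_smul' c v := by
    refine CStarMatrix.ext fun i j => ?_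
    rcases eq_or_ne i 0 with hi | hi <;> rcases eq_or_ne j 0 with hj | hj <;> simp [hi, hj, mk_apply]
  map_zero' := by
    refine CStarMatrix.ext fun i j => ?_
    simp [mk_apply, CStarMatrix.zero_apply]
  map_add' v w := by
    refine CStarMatrix.ext fun i j => ?_
    rcases eq_or_ne i 0 with hi | hi <;> rcases eq_or_ne j 0 with hj | hj <;> simp [hi, hj, mk_apply]
  map_mul' v w := by
    refine CStarMatrix.ext fun i j => ?_
    rw [CStarMatrix.mul_apply, Finset.sum_eq_single 0]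
    · rcases eq_or_ne i 0 with hi | hi <;> rcases eq_or_ne j 0 with hj | hj <;> simp [hi, hj, mk_apply]
    · intro b _ hb
      simp [hb, mk_apply]
    · simp
  map_star' v := by
    refine CStarMatrix.ext fun i j => ?_
    rcases eq_or_ne i 0 with hi | hi <;> rcases eq_or_ne j 0 with hj | hj <;>
      simp [CStarMatrix.star_apply, hi, hj, mk_apply]

omit [PartialOrder A] [StarOrderedRing A] in
theorem corner_apply (v : A) (i j : Idx P Q) :
    (corner v : Mat P Q A) i j = if i = 0 ∧ j = 0 then v else 0 := rfl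

/-- A function times a matrix unit, vanishing at both ends. -/
noncomputable def unitFun (h : C(I, ℝ)) (h0 : h 0 = 0) (h1 : h 1 = 0) (μ ν : Idx P Q) :
    dropAlg P Q ℂ :=
  ⟨⟨fun t => CStarMatrix.ofMatrix fun i j => if i = μ ∧ j = ν then (h t : ℂ) else 0,
    continuous_pi fun i => continuous_pi fun j => (by
      rcases eq_or_ne i μ with hi | hi <;> rcases eq_or_ne j ν with hj | hj <;>
        simp [hi, hj] <;> fun_prop :
        Continuous fun t => if i = μ ∧ j = ν then (h t : ℂ) else 0)⟩, by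
    refine ⟨⟨fun _ _ => 0, fun i j => ?_⟩, fun _ _ => 0, fun i j => ?_⟩
    · change (if i = μ ∧ j = ν then (h 0 : ℂ) else 0) = _
      simp [h0]
    · change (if i = μ ∧ j = ν then (h 1 : ℂ) else 0) = _
      simp [h1]⟩

omit [NeZero P] [NeZero Q] in
theorem unitFun_apply (h : C(I, ℝ)) (h0 : h 0 = 0) (h1 : h 1 = 0) (μ ν : Idx P Q) (t : I)
    (i j : Idx P Q) : (unitFun h h0 h1 μ ν : C(I, Mat P Q ℂ)) t i j
      = if i = μ ∧ j = ν then (h t : ℂ) else 0 := rfl

/-- the tent of radius `r` around `c` -/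
noncomputable def tent (c r : ℝ) : C(I, ℝ) := ⟨fun t => max 0 (1 - |(t : ℝ) - c| / r), by fun_prop⟩

/-- the flat tent: `1` within `r` and `0` beyond `2 r` -/
noncomputable def flatTent (c r : ℝ) : C(I, ℝ) :=
  ⟨fun t => min 1 (max 0 (2 - |(t : ℝ) - c| / r)), by fun_prop⟩

omit [NeZero P] [NeZero Q] in
/-- A plateau element and its local inverse. -/
theorem exists_plateau {c : A} (hcpos : 0 ≤ c) (hc0 : c ≠ 0) :
    ∃ b k : A, b ≠ 0 ∧ b * c * k = b ∧ ‖k‖ ≤ (‖c‖ / 2)⁻¹ := by
  set δ : ℝ := ‖c‖ / 2 with hδ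
  have hδ0 : 0 < δ := by positivity
  have hkc : Continuous fun x : ℝ => (max x δ)⁻¹ := by
    refine Continuous.inv₀ (by fun_prop) fun x => ?_
    exact ne_of_gt (lt_of_lt_of_le hδ0 (le_max_right x δ))
  have hsa : IsSelfAdjoint c := IsSelfAdjoint.of_nonneg hcpos
  refine ⟨cfc (fun x => max (x - δ) 0) c, cfc (fun x => (max x δ)⁻¹) c, ?_, ?_, ?_⟩
  · intro h0
    rw [← cfc_zero ℝ c, cfc_eq_cfc_iff_eqOn] at h0
    have : Nontrivial A := ⟨⟨c, 0, hc0⟩⟩
    have := h0 (CStarAlgebra.norm_mem_spectrum_of_nonneg hcpos)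
    simp only [Pi.zero_apply] at this
    rw [max_eq_left (by linarith)] at this
    linarith
  · calc cfc (fun x => max (x - δ) 0) c * c * cfc (fun x => (max x δ)⁻¹) c
        = cfc (fun x => max (x - δ) 0) c * cfc (fun x : ℝ => x) c *
            cfc (fun x => (max x δ)⁻¹) c := by rw [cfc_id' ℝ c hsa]
      _ = cfc (fun x => max (x - δ) 0 * x * (max x δ)⁻¹) c := by
          rw [← cfc_mul _ _ c (by fun_prop) (by fun_prop),
            ← cfc_mul _ _ c (by fun_prop) hkc.continuousOn]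
      _ = cfc (fun x => max (x - δ) 0) c := by
          refine cfc_congr fun x _ => ?_
          rcases le_or_gt x δ with hx | hx
          · simp [max_eq_right (show x - δ ≤ 0 by linarith)]
          · have hx0 : x ≠ 0 := by linarith
            simp [max_eq_left (show (0 : ℝ) ≤ x - δ by linarith), max_eq_left hx.le, hx0]
  · refine norm_cfc_le (by positivity) fun x _ => ?_
    rw [Real.norm_eq_abs, abs_of_nonneg (by positivity)]
    exact inv_anti₀ hδ0 (le_max_right _ _)

/-- A homomorphism that kills no elementary tensor is injective. -/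
theorem injective_of_tensor {B : Type*} [CStarAlgebra B] (Θ : dropAlg P Q A →⋆ₐ[ℂ] B)
    (h : ∀ b z, Θ (Drop.tensor b z) = 0 → b = 0 ∨ z = 0) : Function.Injective Θ := by
  rw [injective_iff_map_eq_zero]
  intro F hF
  by_contra hne
  have hev : ∃ (t₀ : I) (μ ν : Idx P Q), 0 < (t₀ : ℝ) ∧ (t₀ : ℝ) < 1 ∧
      (F : C(I, Mat P Q A)) t₀ μ ν ≠ 0 := by
    by_contra hall
    push Not at hall
    apply hne
    refine Subtype.ext (ContinuousMap.ext fun t => CStarMatrix.ext fun μ ν => ?_)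
    have hc : Continuous fun t : I => (F : C(I, Mat P Q A)) t μ ν :=
      (continuous_apply ν).comp ((continuous_apply μ).comp (F : C(I, Mat P Q A)).continuous)
    have hd : Dense {t : I | 0 < (t : ℝ) ∧ (t : ℝ) < 1} := by
      intro t
      rw [mem_closure_iff_nhds]
      intro U hU
      obtain ⟨ε, hε, hsub⟩ := Metric.mem_nhds_iff.1 hU
      have ht := t.2
      set s : ℝ := (t : ℝ) + min (ε / 2) (1 / 4) * (1 / 2 - t) with hs
      have hm : 0 < min (ε / 2) (1 / 4) := lt_min (by positivity) (by norm_num)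
      have hm4 : min (ε / 2) (1 / 4) ≤ 1 / 4 := min_le_right _ _
      have hmε : min (ε / 2) (1 / 4) ≤ ε / 2 := min_le_left _ _
      have hs0 : 0 < s := by nlinarith [ht.1, ht.2]
      have hs1 : s < 1 := by nlinarith [ht.1, ht.2]
      refine ⟨⟨s, hs0.le, hs1.le⟩, hsub ?_, hs0, hs1⟩
      rw [Metric.mem_ball, Subtype.dist_eq, Real.dist_eq, abs_lt]
      change -ε < s - t ∧ s - t < ε
      constructor <;> nlinarith [ht.1, ht.2]
    have := hc.ext_on hd continuous_const (g := fun _ => (0 : A))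
      (fun s hs => hall s μ ν hs.1 hs.2)
    simpa [CStarMatrix.zero_apply] using congrFun this t
  obtain ⟨t₀, μ, ν, ht0, ht1, hnz⟩ := hev
  -- a kernel element supported in the corner, with positive value at `t₀`
  set ρ : ℝ := min (t₀ : ℝ) (1 - t₀) with hρ
  have hρ0 : 0 < ρ := lt_min ht0 (by linarith)
  have hρl : ρ ≤ t₀ := min_le_left _ _
  have hρr : ρ ≤ 1 - t₀ := min_le_right _ _
  have tent0 : ∀ r : ℝ, 0 < r → r ≤ ρ → tent t₀ r 0 = 0 ∧ tent t₀ r 1 = 0 := by
    intro r hr hrρ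
    constructor
    · change max 0 (1 - |((0 : I) : ℝ) - t₀| / r) = 0
      rw [Set.Icc.coe_zero, zero_sub, abs_neg, abs_of_pos ht0]
      exact max_eq_left (sub_nonpos.2 ((one_le_div hr).2 (by linarith)))
    · change max 0 (1 - |((1 : I) : ℝ) - t₀| / r) = 0
      rw [Set.Icc.coe_one, abs_of_pos (by linarith)]
      exact max_eq_left (sub_nonpos.2 ((one_le_div hr).2 (by linarith)))
  obtain ⟨g0, g1⟩ := tent0 ρ hρ0 le_rfl
  set G : dropAlg P Q A := Drop.tensor (1 : A) (unitFun (tent t₀ ρ) g0 g1 0 μ) * F *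
    Drop.tensor (1 : A) (unitFun (tent t₀ ρ) g0 g1 ν 0) with hG
  set H : I → A := fun t => ((tent t₀ ρ t * tent t₀ ρ t : ℝ) : ℂ) • (F : C(I, Mat P Q A)) t μ ν
    with hH
  have hGapp : ∀ t, (G : C(I, Mat P Q A)) t = corner (H t) := by
    intro t
    refine CStarMatrix.ext fun i j => ?_
    rw [corner_apply, hG]
    simp only [MulMemClass.coe_mul, ContinuousMap.mul_apply, CStarMatrix.mul_apply,
      Drop.tensor_apply, unitFun_apply]
    rw [Finset.sum_eq_single ν, Finset.sum_eq_single μ]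
    · rcases eq_or_ne i 0 with hi | hi <;> rcases eq_or_ne j 0 with hj | hj <;>
        simp [hi, hj, hH, smul_smul, -Complex.ofReal_mul]
    · intro b _ hb; simp [hb]
    · simp
    · intro b _ hb; simp [hb]
    · simp
  set K : dropAlg P Q A := star G * G with hK
  have hKapp : ∀ t, (K : C(I, Mat P Q A)) t = corner (star (H t) * H t) := by
    intro t
    rw [hK, map_mul, map_star, ← hGapp]
    rfl
  have hKker : Θ K = 0 := by simp [hK, hG, map_mul, hF]
  have htt : tent t₀ ρ t₀ = 1 := by simp [tent]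
  set c : A := star (H t₀) * H t₀ with hc
  have hc0 : c ≠ 0 := by
    rw [hc, Ne, CStarRing.star_mul_self_eq_zero_iff, hH]
    simpa [htt] using hnz
  have hcpos : 0 ≤ c := star_mul_self_nonneg _
  set δ : ℝ := ‖c‖ / 2 with hδ
  have hδ0 : 0 < δ := by positivity
  obtain ⟨b, k, hbne, hbck, hkn⟩ := exists_plateau hcpos hc0
  -- the neighbourhood
  have hHc : Continuous fun t => star (H t) * H t := by
    have hcF : Continuous fun t : I => (F : C(I, Mat P Q A)) t μ ν :=
      (continuous_apply ν).comp ((continuous_apply μ).comp (F : C(I, Mat P Q A)).continuous)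
    have hH' : Continuous H := by
      rw [hH]
      exact (Complex.continuous_ofReal.comp (by fun_prop)).smul hcF
    fun_prop
  obtain ⟨η, hη, hnear⟩ := Metric.continuous_iff.1 hHc t₀ (δ / 2) (by positivity)
  set r : ℝ := min ρ η / 3 with hr
  have hr0 : 0 < r := by positivity
  have hrρ : r ≤ ρ := by rw [hr]; linarith [min_le_left ρ η]
  obtain ⟨h0, h1⟩ := tent0 r hr0 hrρ
  have f0 : flatTent t₀ r 0 = 0 := by
    change min 1 (max 0 (2 - |((0 : I) : ℝ) - t₀| / r)) = 0
    rw [Set.Icc.coe_zero, zero_sub, abs_neg, abs_of_pos ht0, max_eq_left, min_eq_right zero_le_one]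
    refine sub_nonpos.2 ((le_div_iff₀ hr0).2 ?_)
    rw [hr]; linarith [min_le_left ρ η]
  have f1 : flatTent t₀ r 1 = 0 := by
    change min 1 (max 0 (2 - |((1 : I) : ℝ) - t₀| / r)) = 0
    rw [Set.Icc.coe_one, abs_of_pos (by linarith), max_eq_left, min_eq_right zero_le_one]
    refine sub_nonpos.2 ((le_div_iff₀ hr0).2 ?_)
    rw [hr]; linarith [min_le_left ρ η]
  set z := unitFun (tent t₀ r) h0 h1 (0 : Idx P Q) 0 with hz
  set x : dropAlg P Q A := Drop.tensor b z with hx
  set y : dropAlg P Q A := Drop.tensor (1 : A) (unitFun (flatTent t₀ r) f0 f1 (0 : Idx P Q) 0) *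
    (Drop.tensor c 1 - K) * Drop.tensor k 1 with hy
  have hyapp : ∀ t, (y : C(I, Mat P Q A)) t =
      corner ((flatTent t₀ r t : ℂ) • ((c - star (H t) * H t) * k)) := by
    intro t
    refine CStarMatrix.ext fun i j => ?_
    rw [hy]
    simp only [MulMemClass.coe_mul, ContinuousMap.mul_apply, AddSubgroupClass.coe_sub,
      ContinuousMap.sub_apply, hKapp, CStarMatrix.mul_apply, CStarMatrix.sub_apply,
      Drop.tensor_apply, unitFun_apply, corner_apply, OneMemClass.coe_one,
      ContinuousMap.one_apply, CStarMatrix.one_apply]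
    rw [Finset.sum_eq_single j (fun b' _ hb' => by simp [hb']) (by simp),
      Finset.sum_eq_single 0 (fun b' _ hb' => by simp [hb']) (by simp)]
    rcases eq_or_ne i 0 with hi | hi <;> rcases eq_or_ne j 0 with hj | hj <;>
      simp [hi, hj, Ne.symm]
  have hyn : ‖y‖ ≤ 1 / 2 := by
    change ‖(y : C(I, Mat P Q A))‖ ≤ _
    refine (ContinuousMap.norm_le _ (by norm_num)).2 fun t => ?_
    rw [hyapp]
    refine (NonUnitalStarAlgHom.norm_apply_le (corner (P := P) (Q := Q) (A := A)) _).trans ?_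
    rw [norm_smul, Complex.norm_real, Real.norm_eq_abs]
    have hft : 0 ≤ flatTent t₀ r t ∧ flatTent t₀ r t ≤ 1 :=
      ⟨le_min zero_le_one (le_max_left _ _), min_le_left _ _⟩
    rw [abs_of_nonneg hft.1]
    rcases le_or_gt (2 * r) |(t : ℝ) - t₀| with hfar | hclose
    · have : flatTent t₀ r t = 0 := by
        change min 1 (max 0 (2 - |(t : ℝ) - t₀| / r)) = 0
        rw [max_eq_left (sub_nonpos.2 ((le_div_iff₀ hr0).2 hfar)), min_eq_right zero_le_one]
      rw [this, zero_mul]
      norm_num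
    · have hd := hnear t (by
        rw [Subtype.dist_eq, Real.dist_eq]
        linarith [min_le_right ρ η])
      rw [dist_eq_norm, norm_sub_rev] at hd
      calc flatTent t₀ r t * ‖(c - star (H t) * H t) * k‖
          ≤ 1 * (δ / 2 * δ⁻¹) := by
            refine mul_le_mul hft.2 ((norm_mul_le _ _).trans ?_) (norm_nonneg _) zero_le_one
            exact mul_le_mul hd.le hkn (norm_nonneg _) (by positivity)
        _ = 1 / 2 := by field_simp
  have hxy : x * y = x - x * (K * Drop.tensor k 1) := by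
    refine Subtype.ext (ContinuousMap.ext fun t => CStarMatrix.ext fun i j => ?_)
    simp only [MulMemClass.coe_mul, ContinuousMap.mul_apply, AddSubgroupClass.coe_sub,
      ContinuousMap.sub_apply, hyapp, hKapp, CStarMatrix.sub_apply, hx, hz, CStarMatrix.mul_apply,
      Drop.tensor_apply, unitFun_apply, corner_apply, OneMemClass.coe_one,
      ContinuousMap.one_apply, CStarMatrix.one_apply]
    rw [Finset.sum_eq_single 0 (fun b' _ hb' => by simp [hb']) (by simp),
      Finset.sum_eq_single 0 (fun b' _ hb' => by simp [hb']) (by simp),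
      Finset.sum_eq_single j (fun b' _ hb' => by simp [hb']) (by simp)]
    rcases eq_or_ne i 0 with hi | hi <;> rcases eq_or_ne j 0 with hj | hj <;>
      simp only [hi, hj, and_self, and_false, false_and, if_true, if_false, smul_mul_assoc,
        mul_smul_comm, zero_smul, one_smul, zero_mul, mul_zero, smul_zero, sub_zero]
    rcases eq_or_ne (tent t₀ r t) 0 with ht | ht
    · simp [ht]
    · have hclose : |(t : ℝ) - t₀| < r := by
        by_contra hge
        push Not at hge
        exact ht (max_eq_left (sub_nonpos.2 ((one_le_div hr0).2 hge)))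
      have hf : flatTent t₀ r t = 1 := by
        change min 1 (max 0 (2 - |(t : ℝ) - t₀| / r)) = 1
        have h' : |(t : ℝ) - t₀| / r < 1 := (div_lt_one hr0).2 hclose
        exact min_eq_left (le_max_of_le_right (by linarith))
      rw [hf]
      simp only [Complex.ofReal_one, one_smul, ← mul_assoc, mul_sub, sub_mul, hbck, smul_sub]
  have hΘ : Θ x = Θ x * Θ y := by
    rw [← map_mul, hxy]
    simp [map_mul, hKker]
  have hx0 : Θ x = 0 := by
    by_contra hne'
    have h1 : ‖Θ x‖ ≤ ‖Θ x‖ * (1 / 2) := by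
      refine le_trans ((congrArg norm hΘ).le.trans (norm_mul_le _ _)) ?_
      exact mul_le_mul_of_nonneg_left ((NonUnitalStarAlgHom.norm_apply_le Θ y).trans hyn)
        (norm_nonneg _)
    linarith [norm_pos_iff.2 hne']
  rcases h b z hx0 with h' | h'
  · exact hbne h'
  · have := congrArg (fun w : dropAlg P Q ℂ => (w : C(I, Mat P Q ℂ)) t₀ 0 0) h'
    simp [hz, unitFun_apply, tent, CStarMatrix.zero_apply] at this

end Injective

section Uniqueness

variable {A Z B B' : Type*} [CStarAlgebra A] [CStarAlgebra Z] [CStarAlgebra B] [CStarAlgebra B']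

/-- Commutation at a stage. -/
theorem comm_stage {Y : Type*} [CStarAlgebra Y] (ψ : Y →⋆ₐ[ℂ] Z) {γ : A →⋆ₐ[ℂ] B}
    {δ : Z →⋆ₐ[ℂ] B} (hγ : IsTensor γ δ) (a : A) (z : Y) : Commute (γ a) ((δ.comp ψ) z) := by
  obtain ⟨h, -⟩ := hγ
  exact h a (ψ z)

/-- A stage of a tensor decomposition is isometric. -/
theorem norm_stage [PartialOrder A] [StarOrderedRing A] {p q : ℕ} [NeZero p] [NeZero q]
    {ψ : Drop.dropAlg p q ℂ →⋆ₐ[ℂ] Z} (hψ : Function.Injective ψ) {γ : A →⋆ₐ[ℂ] B}
    {δ : Z →⋆ₐ[ℂ] B} (hγ : IsTensor γ δ) (F : Drop.dropAlg p q A) :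
    ‖Drop.lift γ (δ.comp ψ) (comm_stage ψ hγ) F‖ = ‖F‖ := by
  refine NonUnitalStarAlgHom.norm_map _ (injective_of_tensor _ fun b z hbz => ?_) F
  have hbz' : γ b * δ (ψ z) = 0 :=
    (Drop.lift_tensor γ (δ.comp ψ) (comm_stage ψ hγ) b z).symm.trans hbz
  by_cases hz : z = 0
  · exact Or.inr hz
  · refine Or.inl (hγ.2.1 1 (fun _ => b) (fun _ => ψ z) ?_ (by simpa using hbz') 0)
    refine .of_subsingleton 0 ?_
    exact fun h => hz (hψ (by rw [h, map_zero]))

/-- Both coordinates of a stage of two tensor decompositions are isometric. -/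
theorem norm_pair_stage [PartialOrder A] [StarOrderedRing A] {p q : ℕ} [NeZero p] [NeZero q]
    {ψ : Drop.dropAlg p q ℂ →⋆ₐ[ℂ] Z} (hψ : Function.Injective ψ)
    {α : A →⋆ₐ[ℂ] B} {β : Z →⋆ₐ[ℂ] B} (hT : IsTensor α β)
    {α' : A →⋆ₐ[ℂ] B'} {β' : Z →⋆ₐ[ℂ] B'} (hT' : IsTensor α' β')
    (hc : ∀ a z, Commute (α.prod α' a) (((β.prod β').comp ψ) z)) (F : Drop.dropAlg p q A) :
    ‖(Drop.lift (α.prod α') ((β.prod β').comp ψ) hc F).1‖ = ‖F‖ ∧
      ‖(Drop.lift (α.prod α') ((β.prod β').comp ψ) hc F).2‖ = ‖F‖ := by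
  have e₁ : (StarAlgHom.fst ℂ B B').comp (Drop.lift (α.prod α') ((β.prod β').comp ψ) hc)
      = Drop.lift α (β.comp ψ) (comm_stage ψ hT) :=
    Drop.hom_ext fun a z => by
      rw [StarAlgHom.comp_apply, Drop.lift_tensor, Drop.lift_tensor]
      rfl
  have e₂ : (StarAlgHom.snd ℂ B B').comp (Drop.lift (α.prod α') ((β.prod β').comp ψ) hc)
      = Drop.lift α' (β'.comp ψ) (comm_stage ψ hT') :=
    Drop.hom_ext fun a z => by
      rw [StarAlgHom.comp_apply, Drop.lift_tensor, Drop.lift_tensor]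
      rfl
  exact ⟨(congrArg (fun f => ‖f F‖) e₁).trans (norm_stage hψ hT F),
    (congrArg (fun f => ‖f F‖) e₂).trans (norm_stage hψ hT' F)⟩

/-- Two tensor decompositions over an inductive limit of dimension drop algebras coincide. -/
theorem exists_equiv_of_isTensor (p q : ℕ → ℕ) (hp : ∀ j, 0 < p j) (hq : ∀ j, 0 < q j)
    (ψ : ∀ j, Drop.dropAlg (p j) (q j) ℂ →⋆ₐ[ℂ] Z) (hψ : ∀ j, Function.Injective (ψ j))
    (hmono : ∀ j, Set.range (ψ j) ⊆ Set.range (ψ (j + 1)))
    (hdense : Dense (⋃ j, Set.range (ψ j)))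
    {α : A →⋆ₐ[ℂ] B} {β : Z →⋆ₐ[ℂ] B} (hT : IsTensor α β)
    {α' : A →⋆ₐ[ℂ] B'} {β' : Z →⋆ₐ[ℂ] B'} (hT' : IsTensor α' β') :
    ∃ Φ : B ≃⋆ₐ[ℂ] B', (∀ a, Φ (α a) = α' a) ∧ ∀ z, Φ (β z) = β' z := by
  let := CStarAlgebra.spectralOrder A
  let := CStarAlgebra.spectralOrderedRing A
  have : ∀ j, NeZero (p j) := fun j => ⟨(hp j).ne'⟩
  have : ∀ j, NeZero (q j) := fun j => ⟨(hq j).ne'⟩
  set Pa := α.prod α' with hPa
  set Rz := β.prod β' with hRz
  have hcomm : ∀ a z, Commute (Pa a) (Rz z) := fun a z =>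
    Prod.ext (hT.1 a z).eq (hT'.1 a z).eq
  set L : ∀ j, Drop.dropAlg (p j) (q j) A →⋆ₐ[ℂ] B × B' := fun j =>
    Drop.lift Pa (Rz.comp (ψ j)) (fun a z => hcomm a (ψ j z)) with hL
  have hLt : ∀ j a z, L j (Drop.tensor a z) = Pa a * Rz (ψ j z) := fun j a z =>
    Drop.lift_tensor _ _ _ a z
  have hfst : ∀ j F, ‖(L j F).1‖ = ‖F‖ := fun j F =>
    (norm_pair_stage (hψ j) hT hT' _ F).1
  have hsnd : ∀ j F, ‖(L j F).2‖ = ‖F‖ := fun j F =>
    (norm_pair_stage (hψ j) hT hT' _ F).2
  have hiso : ∀ j, Isometry (L j) := fun j =>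
    AddMonoidHomClass.isometry_of_norm _ fun F => by rw [Prod.norm_def, hfst, hsnd, max_self]
  have hstep : ∀ j, Set.range (L j) ⊆ Set.range (L (j + 1)) := by
    rintro j _ ⟨F, rfl⟩
    refine (hiso (j + 1)).isClosedEmbedding.isClosed_range.mem_of_tendsto
      (((hiso j).continuous.tendsto F).comp (Drop.tendsto_bern F))
      (Eventually.of_forall fun n => ?_)
    simp only [Function.comp_apply, Drop.bern, map_sum]
    change _ ∈ ((L (j + 1)).range : Set (B × B'))
    refine sum_mem fun k _ => sum_mem fun μ _ => sum_mem fun ν _ => ?_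
    obtain ⟨w, hw⟩ := hmono j ⟨star (Drop.frame n k μ) * Drop.frame n k ν, rfl⟩
    exact ⟨Drop.tensor _ w, (hLt _ _ _).trans ((congrArg _ (congrArg Rz hw)).trans (hLt _ _ _).symm)⟩
  have hle : ∀ {i j}, i ≤ j → Set.range (L i) ⊆ Set.range (L j) := fun {i j} h =>
    Nat.le_induction subset_rfl (fun k _ ih => ih.trans (hstep k)) j h
  set S : StarSubalgebra ℂ (B × B') :=
    { carrier := ⋃ j, Set.range (L j)
      mul_mem' := by
        simp only [Set.mem_iUnion]
        rintro _ _ ⟨i, hi⟩ ⟨j, hj⟩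
        obtain ⟨u, rfl⟩ := hle (le_max_left i j) hi
        obtain ⟨w, rfl⟩ := hle (le_max_right i j) hj
        exact ⟨_, u * w, map_mul _ _ _⟩
      add_mem' := by
        simp only [Set.mem_iUnion]
        rintro _ _ ⟨i, hi⟩ ⟨j, hj⟩
        obtain ⟨u, rfl⟩ := hle (le_max_left i j) hi
        obtain ⟨w, rfl⟩ := hle (le_max_right i j) hj
        exact ⟨_, u + w, map_add _ _ _⟩
      algebraMap_mem' := fun c =>
        Set.mem_iUnion.2 ⟨0, algebraMap ℂ _ c, AlgHomClass.commutes _ _⟩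
      star_mem' := by
        simp only [Set.mem_iUnion]
        rintro _ ⟨i, u, rfl⟩
        exact ⟨i, star u, map_star _ _⟩ } with hS
  set T := S.topologicalClosure with hTdef
  have hTeq : ∀ x ∈ T, ‖x.1‖ = ‖x‖ ∧ ‖x.2‖ = ‖x‖ := by
    have hcl : IsClosed {x : B × B' | ‖x.1‖ = ‖x‖ ∧ ‖x.2‖ = ‖x‖} :=
      (isClosed_eq (by fun_prop) (by fun_prop)).inter (isClosed_eq (by fun_prop) (by fun_prop))
    refine closure_minimal ?_ hcl
    intro x hx
    obtain ⟨j, F, rfl⟩ := Set.mem_iUnion.1 hx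
    exact ⟨by rw [Prod.norm_def, hfst, hsnd, max_self], by rw [Prod.norm_def, hfst, hsnd, max_self]⟩
  have hPT : ∀ a, Pa a ∈ T := fun a => subset_closure (Set.mem_iUnion.2
    ⟨0, Drop.tensor a 1, by rw [hLt, map_one, map_one, mul_one]⟩)
  have hRT : ∀ z, Rz z ∈ T := by
    intro z
    have hRc : Continuous Rz := Drop.continuous_hom Rz
    refine closure_minimal ?_ (isClosed_closure.preimage hRc) (hdense z)
    intro w hw
    obtain ⟨j, u, rfl⟩ := Set.mem_iUnion.1 hw
    exact subset_closure (Set.mem_iUnion.2 ⟨j, Drop.tensor 1 u, by rw [hLt, map_one, one_mul]⟩)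
  have : IsClosed (T : Set (B × B')) := S.isClosed_topologicalClosure
  let π₁ : T →⋆ₐ[ℂ] B := (StarAlgHom.fst ℂ B B').comp T.subtype
  let π₂ : T →⋆ₐ[ℂ] B' := (StarAlgHom.snd ℂ B B').comp T.subtype
  have hi₁ : Isometry π₁ := AddMonoidHomClass.isometry_of_norm _ fun x => (hTeq _ x.2).1
  have hi₂ : Isometry π₂ := AddMonoidHomClass.isometry_of_norm _ fun x => (hTeq _ x.2).2
  have hsurj₁ : Function.Surjective π₁ := by
    intro b
    have hsub : (StarAlgebra.adjoin ℂ (Set.range α ∪ Set.range β) : Set B) ⊆ Set.range π₁ := by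
      change StarAlgebra.adjoin ℂ _ ≤ π₁.range
      refine StarAlgebra.adjoin_le ?_
      rintro _ (⟨a, rfl⟩ | ⟨z, rfl⟩)
      · exact ⟨⟨Pa a, hPT a⟩, rfl⟩
      · exact ⟨⟨Rz z, hRT z⟩, rfl⟩
    exact closure_minimal hsub hi₁.isClosedEmbedding.isClosed_range (hT.2.2 b)
  have hsurj₂ : Function.Surjective π₂ := by
    intro b
    have hsub : (StarAlgebra.adjoin ℂ (Set.range α' ∪ Set.range β') : Set B') ⊆ Set.range π₂ := by
      change StarAlgebra.adjoin ℂ _ ≤ π₂.range
      refine StarAlgebra.adjoin_le ?_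
      rintro _ (⟨a, rfl⟩ | ⟨z, rfl⟩)
      · exact ⟨⟨Pa a, hPT a⟩, rfl⟩
      · exact ⟨⟨Rz z, hRT z⟩, rfl⟩
    exact closure_minimal hsub hi₂.isClosedEmbedding.isClosed_range (hT'.2.2 b)
  let e₁ := StarAlgEquiv.ofBijective π₁ ⟨hi₁.injective, hsurj₁⟩
  let e₂ := StarAlgEquiv.ofBijective π₂ ⟨hi₂.injective, hsurj₂⟩
  refine ⟨e₁.symm.trans e₂, fun a => ?_, fun z => ?_⟩
  · have : e₁.symm (α a) = ⟨Pa a, hPT a⟩ :=
      EquivLike.injective e₁ (by rw [e₁.apply_symm_apply]; rfl)
    change e₂ (e₁.symm (α a)) = α' a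
    rw [this]; rfl
  · have : e₁.symm (β z) = ⟨Rz z, hRT z⟩ :=
      EquivLike.injective e₁ (by rw [e₁.apply_symm_apply]; rfl)
    change e₂ (e₁.symm (β z)) = β' z
    rw [this]; rfl

end Uniqueness

end Vale.Agent.P101.Unique
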