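import Mathlib

/-!
# P101: loops of unitary matrices whose determinant has a closed argument

Such a loop is null-homotopic relative to its end points.  The proof moves the first column
away from a point (a smooth cone misses one), contracts it, and inducts on the size.
-/

set_option linter.unusedSimpArgs false

namespace Vale.Agent.P101.UnitaryLoop

open Matrix Complex
open scoped ComplexConjugate

variable {n : ℕ}

/-- The reflection-type matrix `1 - β z z*`. -/
def refl (z : Fin n → ℂ) (β : ℂ) : Matrix (Fin n) (Fin n) ℂ := 1 - β • vecMulVec z (star z)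

/-- The unitary carrying `u` to `w`, for unit vectors with `w ≠ -u`. -/
noncomputable def rot (u w : Fin n → ℂ) : Matrix (Fin n) (Fin n) ℂ :=
  refl (u + w) (1 + conj (star u ⬝ᵥ w))⁻¹ * refl u 2

/-- A unit vector. -/
def IsUnitVec (u : Fin n → ℂ) : Prop := star u ⬝ᵥ u = 1

theorem star_refl (z : Fin n → ℂ) (β : ℂ) : star (refl z β) = refl z (conj β) := by
  ext i j
  by_cases h : i = j <;>
    simp [refl, star_eq_conjTranspose, conjTranspose_apply, vecMulVec_apply, one_apply, h,
      Ne.symm, mul_comm, mul_left_comm]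

theorem refl_mul_refl (z : Fin n → ℂ) (β γ : ℂ) :
    refl z β * refl z γ = refl z (β + γ - β * γ * (star z ⬝ᵥ z)) := by
  simp only [refl, Matrix.sub_mul, Matrix.mul_sub, Matrix.one_mul, Matrix.mul_one,
    Matrix.smul_mul, Matrix.mul_smul, vecMulVec_mul_vecMulVec, vecMulVec_smul, smul_smul]
  module

theorem refl_mem_unitaryGroup {z : Fin n → ℂ} {β : ℂ}
    (h : conj β + β = conj β * β * (star z ⬝ᵥ z)) : refl z β ∈ unitaryGroup (Fin n) ℂ := by
  rw [mem_unitaryGroup_iff', star_refl, refl_mul_refl, h]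
  simp [refl]

theorem refl_mulVec (z v : Fin n → ℂ) (β : ℂ) :
    refl z β *ᵥ v = v - (β * (star z ⬝ᵥ v)) • z := by
  simp only [refl, sub_mulVec, one_mulVec, smul_mulVec, vecMulVec_mulVec]
  ext i
  simp [mul_comm, mul_left_comm]

theorem det_refl (z : Fin n → ℂ) (β : ℂ) : (refl z β).det = 1 - β * (star z ⬝ᵥ z) := by
  have h : refl z β = 1 + replicateCol Unit (-β • z) * replicateRow Unit (star z) := by
    ext i j
    simp [refl, vecMulVec_apply, Matrix.mul_apply, mul_assoc, sub_eq_add_neg]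
  rw [h, det_one_add_replicateCol_mul_replicateRow, dotProduct_smul]
  simp [sub_eq_add_neg]

theorem star_dot_conj (u w : Fin n → ℂ) : conj (star u ⬝ᵥ w) = star w ⬝ᵥ u := by
  simp [dotProduct, mul_comm]

theorem dot_self_re_nonneg (z : Fin n → ℂ) : 0 ≤ (star z ⬝ᵥ z).re := by
  simp only [dotProduct, Complex.re_sum]
  refine Finset.sum_nonneg fun i _ => ?_
  simp
  nlinarith [sq_nonneg (z i).re, sq_nonneg (z i).im]

theorem dot_add_self {u w : Fin n → ℂ} (hu : IsUnitVec u) (hw : IsUnitVec w) :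
    star (u + w) ⬝ᵥ (u + w) = (1 + star u ⬝ᵥ w) + (1 + conj (star u ⬝ᵥ w)) := by
  rw [star_add, add_dotProduct, dotProduct_add, dotProduct_add, hu, hw, star_dot_conj]
  ring

theorem one_add_ne_zero {u w : Fin n → ℂ} (hu : IsUnitVec u) (hw : IsUnitVec w) (h : w ≠ -u) :
    1 + star u ⬝ᵥ w ≠ 0 := by
  intro h0
  have h1 := dot_add_self hu hw
  rw [h0, show 1 + conj (star u ⬝ᵥ w) = 0 by
    simpa using congrArg conj h0, add_zero] at h1
  open scoped ComplexOrder in
  have h2 := dotProduct_star_self_eq_zero.1 h1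
  exact h (eq_neg_of_add_eq_zero_right h2)

theorem re_one_add_nonneg {u w : Fin n → ℂ} (hu : IsUnitVec u) (hw : IsUnitVec w) :
    0 ≤ (1 + star u ⬝ᵥ w).re := by
  have := dot_self_re_nonneg (u + w)
  rw [dot_add_self hu hw] at this
  simp at this ⊢
  linarith

theorem mem_slitPlane_one_add {u w : Fin n → ℂ} (hu : IsUnitVec u) (hw : IsUnitVec w)
    (h : w ≠ -u) : 1 + star u ⬝ᵥ w ∈ slitPlane := by
  rw [mem_slitPlane_iff]
  rcases (re_one_add_nonneg hu hw).lt_or_eq with h1 | h1
  · exact Or.inl h1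
  · exact Or.inr fun h2 => one_add_ne_zero hu hw h (Complex.ext h1.symm h2)

theorem rot_mem_unitaryGroup {u w : Fin n → ℂ} (hu : IsUnitVec u) (hw : IsUnitVec w)
    (h : w ≠ -u) : rot u w ∈ unitaryGroup (Fin n) ℂ := by
  have hc := one_add_ne_zero hu hw h
  refine Submonoid.mul_mem _ (refl_mem_unitaryGroup ?_) (refl_mem_unitaryGroup ?_)
  · rw [dot_add_self hu hw]
    set c := star u ⬝ᵥ w
    have hc' : 1 + conj c ≠ 0 := by simpa using (map_ne_zero (starRingEnd ℂ)).2 hc
    simp only [map_inv₀, map_add, map_one, conj_conj]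
    field_simp
    ring
  · rw [hu]
    norm_num [show conj (2 : ℂ) = 2 from map_ofNat _ 2]

theorem rot_mulVec {u w : Fin n → ℂ} (hu : IsUnitVec u) (hw : IsUnitVec w) (h : w ≠ -u) :
    rot u w *ᵥ u = w := by
  have hc' : 1 + conj (star u ⬝ᵥ w) ≠ 0 := by
    simpa using (map_ne_zero (starRingEnd ℂ)).2 (one_add_ne_zero hu hw h)
  rw [rot, ← mulVec_mulVec, refl_mulVec u u, hu, refl_mulVec]
  have : star (u + w) ⬝ᵥ (u - (2 * 1 : ℂ) • u) = -(1 + conj (star u ⬝ᵥ w)) := by
    rw [show u - (2 * 1 : ℂ) • u = -u by module, dotProduct_neg, star_add, add_dotProduct, hu,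
      star_dot_conj]
  rw [this, mul_neg, inv_mul_cancel₀ hc']
  module

theorem rot_self {u : Fin n → ℂ} (hu : IsUnitVec u) : rot u u = 1 := by
  have h : refl (u + u) (1 + conj (star u ⬝ᵥ u))⁻¹ = refl u 2 := by
    rw [hu, map_one, refl, refl, star_add]
    congr 1
    ext i j
    simp [vecMulVec_apply]
    ring
  rw [rot, h, refl_mul_refl, hu]
  simp [refl]
  norm_num

theorem det_rot {u w : Fin n → ℂ} (hu : IsUnitVec u) (hw : IsUnitVec w) (h : w ≠ -u) :
    (rot u w).det = exp ((2 * (1 + star u ⬝ᵥ w).arg : ℝ) * I) := by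
  have hc := one_add_ne_zero hu hw h
  rw [rot, det_mul, det_refl, det_refl, dot_add_self hu hw, hu]
  set z := 1 + star u ⬝ᵥ w with hz
  have hz' : 1 + conj (star u ⬝ᵥ w) = conj z := by simp [hz]
  rw [hz']
  have hcz : conj z ≠ 0 := (map_ne_zero (starRingEnd ℂ)).2 hc
  set E := exp ((z.arg : ℂ) * I) with hE
  have hzE : z = (‖z‖ : ℂ) * E := (norm_mul_exp_arg_mul_I z).symm
  have hEE : conj E * E = 1 := by
    rw [hE, ← Complex.exp_conj, ← Complex.exp_add]
    simp [conj_I]
  have hexp : exp ((2 * z.arg : ℝ) * I) = E * E := by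
    rw [hE, ← Complex.exp_add]
    push_cast
    ring_nf
  rw [hexp]
  field_simp
  have hczE : conj z = (‖z‖ : ℂ) * conj E := by
    conv_lhs => rw [hzE]
    simp
  rw [hczE]
  linear_combination (-(‖z‖ : ℂ) * E) * hEE + hzE

theorem continuous_rot {X : Type*} [TopologicalSpace X] {u w : X → Fin n → ℂ}
    (hu : Continuous u) (hw : Continuous w) (hu1 : ∀ x, IsUnitVec (u x))
    (hw1 : ∀ x, IsUnitVec (w x)) (h : ∀ x, w x ≠ -u x) :
    Continuous fun x => rot (u x) (w x) := by
  have hne : ∀ x, 1 + conj (star (u x) ⬝ᵥ w x) ≠ 0 := fun x => by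
    simpa using (map_ne_zero (starRingEnd ℂ)).2 (one_add_ne_zero (hu1 x) (hw1 x) (h x))
  have hinv : Continuous fun x => (1 + conj (star (u x) ⬝ᵥ w x))⁻¹ := by
    refine Continuous.inv₀ ?_ hne
    simp only [dotProduct, Pi.star_apply]
    fun_prop
  refine Continuous.matrix_mul ?_ ?_ <;>
    simp only [refl] <;>
    refine continuous_matrix fun i j => ?_ <;>
    simp only [Matrix.sub_apply, Matrix.smul_apply, vecMulVec_apply, Pi.star_apply,
      Pi.add_apply, smul_eq_mul] <;>
    fun_prop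

theorem continuous_arg_rot {X : Type*} [TopologicalSpace X] {u w : X → Fin n → ℂ}
    (hu : Continuous u) (hw : Continuous w) (hu1 : ∀ x, IsUnitVec (u x))
    (hw1 : ∀ x, IsUnitVec (w x)) (h : ∀ x, w x ≠ -u x) :
    Continuous fun x => (1 + star (u x) ⬝ᵥ w x).arg := by
  refine continuous_iff_continuousAt.2 fun x => ?_
  refine (continuousAt_arg (mem_slitPlane_one_add (hu1 x) (hw1 x) (h x))).comp
    (f := fun x => 1 + star (u x) ⬝ᵥ w x) (Continuous.continuousAt ?_)
  simp only [dotProduct, Pi.star_apply]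
  fun_prop

/-- The unit vector in the direction of `x`. -/
noncomputable def normalize (x : Fin n → ℂ) : Fin n → ℂ :=
  ((Real.sqrt (star x ⬝ᵥ x).re)⁻¹ : ℂ) • x

theorem dot_self_eq_re (z : Fin n → ℂ) : star z ⬝ᵥ z = ((star z ⬝ᵥ z).re : ℂ) := by
  apply Complex.ext
  · simp
  · simp [dotProduct, Complex.im_sum, mul_comm]

theorem dot_self_re_pos {x : Fin n → ℂ} (hx : x ≠ 0) : 0 < (star x ⬝ᵥ x).re := by
  refine (dot_self_re_nonneg x).lt_of_ne fun h => hx ?_
  open scoped ComplexOrder in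
  exact dotProduct_star_self_eq_zero.1 (by rw [dot_self_eq_re x, ← h]; simp)

theorem isUnitVec_normalize {x : Fin n → ℂ} (hx : x ≠ 0) : IsUnitVec (normalize x) := by
  have hr := Real.sq_sqrt (dot_self_re_pos hx).le
  have hs : (Real.sqrt (star x ⬝ᵥ x).re : ℂ) ≠ 0 :=
    ofReal_ne_zero.2 (Real.sqrt_pos.2 (dot_self_re_pos hx)).ne'
  rw [IsUnitVec, normalize, star_smul, smul_dotProduct, dotProduct_smul, dot_self_eq_re x]
  simp only [smul_eq_mul, star_def, map_inv₀, conj_ofReal, ofReal_re]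
  field_simp
  exact_mod_cast hr.symm

theorem normalize_of_isUnitVec {x : Fin n → ℂ} (hx : IsUnitVec x) : normalize x = x := by
  simp [normalize, show star x ⬝ᵥ x = 1 from hx]

theorem continuous_normalize {X : Type*} [TopologicalSpace X] {f : X → Fin n → ℂ}
    (hf : Continuous f) (h : ∀ x, f x ≠ 0) : Continuous fun x => normalize (f x) := by
  have hne : ∀ x, (Real.sqrt (star (f x) ⬝ᵥ f x).re : ℂ) ≠ 0 := fun x =>
    ofReal_ne_zero.2 (Real.sqrt_pos.2 (dot_self_re_pos (h x))).ne'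
  have hs : Continuous fun x => (Real.sqrt (star (f x) ⬝ᵥ f x).re : ℂ) := by
    simp only [dotProduct, Pi.star_apply]
    fun_prop
  exact ((hs.inv₀ hne)).smul hf

/-- A homotopy of loops at `1` in the unitary group, checked on the unit interval. -/
def Homotopic (γ δ : ℝ → Matrix (Fin n) (Fin n) ℂ) : Prop :=
  ∃ H : ℝ → ℝ → Matrix (Fin n) (Fin n) ℂ, Continuous (fun p : ℝ × ℝ => H p.1 p.2) ∧
    (∀ s t, H s t ∈ unitaryGroup (Fin n) ℂ) ∧ (∀ t ∈ Set.Icc (0 : ℝ) 1, H 0 t = γ t) ∧
    (∀ t ∈ Set.Icc (0 : ℝ) 1, H 1 t = δ t) ∧ ∀ s, H s 0 = 1 ∧ H s 1 = 1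

theorem Homotopic.trans {γ δ η : ℝ → Matrix (Fin n) (Fin n) ℂ} (h₁ : Homotopic γ δ)
    (h₂ : Homotopic δ η) : Homotopic γ η := by
  obtain ⟨H, hc, hu, h0, h1, he⟩ := h₁
  obtain ⟨K, kc, ku, k0, k1, ke⟩ := h₂
  let cl : ℝ → ℝ := fun t => max 0 (min 1 t)
  have hcl : ∀ t, cl t ∈ Set.Icc (0 : ℝ) 1 := fun t =>
    ⟨le_max_left _ _, max_le zero_le_one (min_le_left _ _)⟩
  have hclid : ∀ t ∈ Set.Icc (0 : ℝ) 1, cl t = t := fun t ht => by
    simp [cl, ht.1, ht.2]
  refine ⟨fun s t => if s ≤ 1 / 2 then H (2 * s) (cl t) else K (2 * s - 1) (cl t), ?_,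
    fun s t => by simp only; split_ifs <;> simp [hu, ku], fun t ht => by
      simp [hclid t ht, h0 t ht], fun t ht => by norm_num [hclid t ht, k1 t ht],
    fun s => by
      simp only [hclid 0 ⟨le_rfl, zero_le_one⟩, hclid 1 ⟨zero_le_one, le_rfl⟩]
      constructor <;> split_ifs <;> simp [he, ke]⟩
  have hclc : Continuous cl := by fun_prop
  refine Continuous.if_le (hc.comp (f := fun p : ℝ × ℝ => (2 * p.1, cl p.2)) (by fun_prop))
    (kc.comp (f := fun p : ℝ × ℝ => (2 * p.1 - 1, cl p.2)) (by fun_prop))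
    continuous_fst continuous_const fun p hp => ?_
  simp only [Function.comp, hp]
  norm_num
  rw [h1 _ (hcl _), k0 _ (hcl _)]

/-- The first basis vector. -/
def e₀ : Fin (n + 1) → ℂ := Pi.single 0 1

theorem isUnitVec_e₀ : IsUnitVec (e₀ : Fin (n + 1) → ℂ) := by
  simp [IsUnitVec, e₀, dotProduct, Pi.single_apply]

theorem isUnitVec_mulVec {U : Matrix (Fin n) (Fin n) ℂ} (hU : U ∈ unitaryGroup (Fin n) ℂ)
    {x : Fin n → ℂ} (hx : IsUnitVec x) : IsUnitVec (U *ᵥ x) := by
  rw [IsUnitVec, star_mulVec, ← dotProduct_mulVec, mulVec_mulVec, ← star_eq_conjTranspose,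
    mem_unitaryGroup_iff'.1 hU, one_mulVec]
  exact hx

theorem norm_le_one_of_isUnitVec {x : Fin n → ℂ} (hx : IsUnitVec x) (i : Fin n) : ‖x i‖ ≤ 1 := by
  have h1 : ∑ j, ‖x j‖ ^ 2 = 1 := by
    have := congrArg Complex.re (show star x ⬝ᵥ x = 1 from hx)
    simpa [dotProduct, Complex.re_sum, Complex.sq_norm, normSq_apply] using this
  have h2 := Finset.single_le_sum (f := fun j => ‖x j‖ ^ 2) (fun j _ => sq_nonneg _)
    (Finset.mem_univ i)
  nlinarith [norm_nonneg (x i)]

/-- A loop of unit vectors is close to a smooth curve with the same end points. -/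
theorem exists_smooth_near (v : ℝ → Fin n → ℂ) (hv : Continuous v) (hv1 : ∀ t, IsUnitVec (v t))
    (hend : v 1 = v 0) :
    ∃ q : ℝ → Fin n → ℂ, ContDiff ℝ 1 q ∧ q 0 = v 0 ∧ q 1 = v 0 ∧
      ∀ t ∈ Set.Icc (0 : ℝ) 1, 0 < (star (v t) ⬝ᵥ q t).re := by
  set ε : ℝ := 1 / (8 * (n + 1)) with hε
  have hεpos : 0 < ε := by positivity
  have hre : ∀ i, ∃ P : Polynomial ℝ, ∀ t ∈ Set.Icc (0 : ℝ) 1, |P.eval t - (v t i).re| < ε :=
    fun i => exists_polynomial_near_of_continuousOn 0 1 _ (by fun_prop) ε hεpos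
  have him : ∀ i, ∃ P : Polynomial ℝ, ∀ t ∈ Set.Icc (0 : ℝ) 1, |P.eval t - (v t i).im| < ε :=
    fun i => exists_polynomial_near_of_continuousOn 0 1 _ (by fun_prop) ε hεpos
  choose P hP using hre
  choose Q hQ using him
  let r : ℝ → Fin n → ℂ := fun t i => (P i).eval t + (Q i).eval t * I
  have hr : ∀ t ∈ Set.Icc (0 : ℝ) 1, ∀ i, ‖r t i - v t i‖ < 2 * ε := by
    intro t ht i
    refine (Complex.norm_le_abs_re_add_abs_im _).trans_lt ?_
    simp [r]
    linarith [hP i t ht, hQ i t ht]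
  let q : ℝ → Fin n → ℂ := fun t i =>
    r t i + ((1 - t : ℝ) : ℂ) * (v 0 i - r 0 i) + (t : ℂ) * (v 1 i - r 1 i)
  refine ⟨q, contDiff_pi.2 fun i => ?_, funext fun i => by simp [q],
    funext fun i => by simp [q, hend], fun t ht => ?_⟩
  · simp only [q, r]
    have h1 : ∀ R : Polynomial ℝ, ContDiff ℝ 1 fun t : ℝ => ((R.eval t : ℝ) : ℂ) := fun R =>
      ofRealCLM.contDiff.comp (by simpa using R.contDiff_aeval (𝕜 := ℝ) 1)
    have h2 : ContDiff ℝ 1 fun t : ℝ => ((t : ℝ) : ℂ) := ofRealCLM.contDiff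
    have h3 : ContDiff ℝ 1 fun t : ℝ => (((1 - t : ℝ)) : ℂ) :=
      ofRealCLM.contDiff.comp (contDiff_const.sub contDiff_id)
    exact (((h1 (P i)).add ((h1 (Q i)).mul contDiff_const)).add
      (h3.mul contDiff_const)).add (h2.mul contDiff_const)
  · have hq : ∀ i, ‖q t i - v t i‖ ≤ 4 * ε := by
      intro i
      have e : q t i - v t i = (r t i - v t i) + ((1 - t : ℝ) : ℂ) * (v 0 i - r 0 i)
          + (t : ℂ) * (v 1 i - r 1 i) := by simp only [q]; ring
      rw [e]
      refine norm_add₃_le.trans ?_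
      have h0 := hr 0 ⟨le_rfl, zero_le_one⟩ i
      have h1 := hr 1 ⟨zero_le_one, le_rfl⟩ i
      rw [norm_sub_rev] at h0 h1
      have := hr t ht i
      simp only [norm_mul, Complex.norm_real, Real.norm_eq_abs, abs_of_nonneg ht.1,
        abs_of_nonneg (sub_nonneg.2 ht.2)]
      nlinarith [mul_le_mul_of_nonneg_left h0.le (sub_nonneg.2 ht.2),
        mul_le_mul_of_nonneg_left h1.le ht.1]
    have hsum : star (v t) ⬝ᵥ q t = 1 + ∑ i, conj (v t i) * (q t i - v t i) := by
      rw [← show star (v t) ⬝ᵥ v t = 1 from hv1 t]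
      simp [dotProduct, mul_sub, Finset.sum_sub_distrib]
    have hb : ‖∑ i, conj (v t i) * (q t i - v t i)‖ ≤ n * (4 * ε) := by
      refine (norm_sum_le _ _).trans ?_
      refine (Finset.sum_le_card_nsmul _ _ (4 * ε) fun i _ => ?_).trans (by simp)
      rw [norm_mul, RCLike.norm_conj]
      nlinarith [norm_le_one_of_isUnitVec (hv1 t) i, hq i, norm_nonneg (v t i),
        norm_nonneg (q t i - v t i)]
    have hlt : (n : ℝ) * (4 * ε) < 1 := by
      rw [hε, ← sub_pos]
      field_simp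
      linarith
    rw [hsum, add_re, one_re]
    linarith [neg_le_of_abs_le ((abs_re_le_norm _).trans hb)]

/-- Adding a `1` in the corner. -/
def corner (M : Matrix (Fin n) (Fin n) ℂ) : Matrix (Fin (n + 1)) (Fin (n + 1)) ℂ :=
  Matrix.of fun i j => Fin.cases (Fin.cases 1 (fun _ => 0) j)
    (fun i' => Fin.cases 0 (fun j' => M i' j') j) i

theorem corner_mul (M N : Matrix (Fin n) (Fin n) ℂ) : corner (M * N) = corner M * corner N := by
  ext i j
  cases i using Fin.cases <;> cases j using Fin.cases <;>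
    simp [corner, Matrix.mul_apply, Fin.sum_univ_succ]

theorem corner_one : corner (1 : Matrix (Fin n) (Fin n) ℂ) = 1 := by
  ext i j
  cases i using Fin.cases <;> cases j using Fin.cases <;>
    simp [corner, one_apply, Fin.succ_inj, Fin.succ_ne_zero, (Fin.succ_ne_zero _).symm]

theorem star_corner (M : Matrix (Fin n) (Fin n) ℂ) : star (corner M) = corner (star M) := by
  ext i j
  cases i using Fin.cases <;> cases j using Fin.cases <;>
    simp [corner, star_eq_conjTranspose, conjTranspose_apply]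

theorem det_corner (M : Matrix (Fin n) (Fin n) ℂ) : (corner M).det = M.det := by
  rw [det_succ_row_zero, Fin.sum_univ_succ]
  simp [corner, submatrix, Fin.zero_succAbove]
  rfl

theorem corner_mem_unitaryGroup {M : Matrix (Fin n) (Fin n) ℂ}
    (hM : M ∈ unitaryGroup (Fin n) ℂ) : corner M ∈ unitaryGroup (Fin (n + 1)) ℂ := by
  rw [mem_unitaryGroup_iff', star_corner, ← corner_mul, mem_unitaryGroup_iff'.1 hM, corner_one]

theorem continuous_corner {X : Type*} [TopologicalSpace X] {f : X → Matrix (Fin n) (Fin n) ℂ}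
    (hf : Continuous f) : Continuous fun x => corner (f x) := by
  refine continuous_matrix fun i j => ?_
  cases i using Fin.cases <;> cases j using Fin.cases <;> simp [corner] <;> fun_prop

/-- A unitary fixing the first basis vector has that shape. -/
theorem eq_corner_of_mulVec {U : Matrix (Fin (n + 1)) (Fin (n + 1)) ℂ}
    (hU : U ∈ unitaryGroup (Fin (n + 1)) ℂ) (h : U *ᵥ e₀ = e₀) :
    ∃ M ∈ unitaryGroup (Fin n) ℂ, U = corner M ∧ M = U.submatrix Fin.succ Fin.succ := by
  have hcol : ∀ i, U i 0 = (e₀ : Fin (n + 1) → ℂ) i := fun i => by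
    have := congrFun h i
    simpa [e₀, mulVec, dotProduct, Pi.single_apply] using this
  have h' : star U *ᵥ e₀ = e₀ := by
    conv_lhs => rw [← h]
    rw [mulVec_mulVec, mem_unitaryGroup_iff'.1 hU, one_mulVec]
  have hrow : ∀ j, U 0 j = (e₀ : Fin (n + 1) → ℂ) j := fun j => by
    have := congrArg star (congrFun h' j)
    simpa [e₀, mulVec, dotProduct, Pi.single_apply, star_eq_conjTranspose,
      apply_ite (starRingEnd ℂ)] using this
  have hshape : U = corner (U.submatrix Fin.succ Fin.succ) := by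
    ext i j
    cases i using Fin.cases with
    | zero => cases j using Fin.cases <;> simp [corner, hrow, e₀]
    | succ i =>
      cases j using Fin.cases with
      | zero => simp [corner, hcol, e₀]
      | succ j => simp [corner]
  refine ⟨_, ?_, hshape, rfl⟩
  rw [mem_unitaryGroup_iff']
  have h2 := mem_unitaryGroup_iff'.1 hU
  rw [hshape, star_corner, ← corner_mul, ← corner_one] at h2
  ext i j
  simpa [corner] using congrFun (congrFun h2 i.succ) j.succ

/-- A loop of unitaries at `1` whose determinant has a closed continuous argument is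
null-homotopic relative to its end points. -/
theorem homotopic_one_of_closed_arg : ∀ (n : ℕ) (γ : ℝ → Matrix (Fin n) (Fin n) ℂ),
    Continuous γ → (∀ t, γ t ∈ unitaryGroup (Fin n) ℂ) → γ 0 = 1 → γ 1 = 1 →
    ∀ θ : ℝ → ℝ, Continuous θ → θ 1 = θ 0 →
      (∀ t ∈ Set.Icc (0 : ℝ) 1, (γ t).det = exp (θ t * I)) → Homotopic γ fun _ => 1 := by
  intro n
  induction n with
  | zero =>
    intro γ _ _ _ _ θ _ _ _
    exact ⟨fun _ _ => 1, continuous_const, fun _ _ => Submonoid.one_mem _,
      fun t _ => Subsingleton.elim _ _, fun t _ => rfl, fun s => ⟨rfl, rfl⟩⟩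
  | succ n ih =>
    intro γ hγ hγu hγ0 hγ1 θ hθ hθe hdet
    rcases n with _ | n
    · -- size one
      have e : ∀ t ∈ Set.Icc (0 : ℝ) 1, γ t = exp (θ t * I) • 1 := fun t ht => by
        ext i j
        obtain rfl : i = 0 := Fin.fin_one_eq_zero i
        obtain rfl : j = 0 := Fin.fin_one_eq_zero j
        have := hdet t ht
        rw [det_fin_one] at this
        simpa using this
      have hunit : exp (θ 0 * I) = 1 := by
        have := hdet 0 ⟨le_rfl, zero_le_one⟩
        rw [hγ0] at this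
        simpa using this.symm
      refine ⟨fun s t => exp (((1 - s) * (θ t - θ 0) : ℝ) * I) • 1, ?_, fun s t => ?_,
        fun t ht => ?_, fun t _ => by simp, fun s => by simp [hθe]⟩
      · show Continuous fun x : ℝ × ℝ =>
          exp (((1 - x.1) * (θ x.2 - θ 0) : ℝ) * I) • (1 : Matrix (Fin 1) (Fin 1) ℂ)
        refine continuous_matrix fun i j => ?_
        simp only [Matrix.smul_apply, smul_eq_mul]
        fun_prop
      · rw [mem_unitaryGroup_iff', star_smul, star_one, Matrix.smul_mul, Matrix.one_mul,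
          smul_smul, star_def, ← Complex.exp_conj, ← Complex.exp_add]
        simp [conj_I]
      · simp only
        rw [e t ht]
        congr 1
        rw [show ((((1 - 0) * (θ t - θ 0) : ℝ)) : ℂ) * I = θ t * I - θ 0 * I by push_cast; ring,
          Complex.exp_sub, hunit, div_one]
    -- size at least two
    let cl : ℝ → ℝ := fun t => max 0 (min 1 t)
    have hclc : Continuous cl := by fun_prop
    have hcl : ∀ t, cl t ∈ Set.Icc (0 : ℝ) 1 := fun t =>
      ⟨le_max_left _ _, max_le zero_le_one (min_le_left _ _)⟩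
    have hclid : ∀ t ∈ Set.Icc (0 : ℝ) 1, cl t = t := fun t ht => by simp [cl, ht.1, ht.2]
    have hcl0 : cl 0 = 0 := hclid 0 ⟨le_rfl, zero_le_one⟩
    have hcl1 : cl 1 = 1 := hclid 1 ⟨zero_le_one, le_rfl⟩
    set v : ℝ → Fin (n + 2) → ℂ := fun t => γ (cl t) *ᵥ e₀ with hvdef
    have hvc : Continuous v := by fun_prop
    have hv1 : ∀ t, IsUnitVec (v t) := fun t => isUnitVec_mulVec (hγu _) isUnitVec_e₀
    have hv0e : v 0 = e₀ := by simp [v, hcl0, hγ0]
    have hv1e : v 1 = e₀ := by simp [v, hcl1, hγ1]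
    obtain ⟨q, hqs, hq0, hq1, hqnear⟩ := exists_smooth_near v hvc hv1 (hv1e.trans hv0e.symm)
    rw [hv0e] at hq0 hq1
    have hvcl : ∀ t, v (cl t) = v t := fun t => by simp [v, hclid _ (hcl t)]
    -- a point off the cone over `q`
    obtain ⟨p, hp1, hpq⟩ : ∃ p : Fin (n + 2) → ℂ, IsUnitVec p ∧ ∀ (r : ℝ) t, (r : ℂ) • q t ≠ p := by
      have hd : Dense (Set.range fun x : ℝ × ℝ => (x.1 : ℂ) • q x.2)ᶜ := by
        refine ContDiff.dense_compl_range_of_finrank_lt_finrank ?_ ?_
        · exact (ofRealCLM.contDiff.comp contDiff_fst).smul (hqs.comp contDiff_snd)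
        · rw [Module.finrank_prod, Module.finrank_self, Module.finrank_pi_fintype]
          simp [Complex.finrank_real_complex]
          omega
      obtain ⟨p, hp⟩ := hd.nonempty
      have hp0 : p ≠ 0 := fun h => hp ⟨(0, 0), by simp [h]⟩
      refine ⟨normalize p, isUnitVec_normalize hp0, fun r t h => hp ?_⟩
      refine ⟨(Real.sqrt (star p ⬝ᵥ p).re * r, t), ?_⟩
      have hs : (Real.sqrt (star p ⬝ᵥ p).re : ℂ) ≠ 0 :=
        ofReal_ne_zero.2 (Real.sqrt_pos.2 (dot_self_re_pos hp0)).ne'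
      simp only [ofReal_mul, mul_smul]
      rw [h, normalize, smul_smul, mul_inv_cancel₀ hs, one_smul]
    -- first move: to the smooth curve
    let vs : ℝ → ℝ → Fin (n + 2) → ℂ := fun s t =>
      normalize (((1 - cl s : ℝ) : ℂ) • v t + ((cl s : ℝ) : ℂ) • q (cl t))
    have hpos : ∀ s t, 0 < (star (v t) ⬝ᵥ
        (((1 - cl s : ℝ) : ℂ) • v t + ((cl s : ℝ) : ℂ) • q (cl t))).re := by
      intro s t
      have hq' := hqnear _ (hcl t)
      rw [hvcl] at hq'
      rw [dotProduct_add, dotProduct_smul, dotProduct_smul,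
        show star (v t) ⬝ᵥ v t = 1 from hv1 t]
      simp only [smul_eq_mul, mul_one, add_re, re_ofReal_mul, ofReal_re]
      rcases (hcl s).1.lt_or_eq with h | h
      · nlinarith [mul_pos h hq', (hcl s).2]
      · rw [← h]; simp
    have hne0 : ∀ s t, ((1 - cl s : ℝ) : ℂ) • v t + ((cl s : ℝ) : ℂ) • q (cl t) ≠ 0 :=
      fun s t h => by
        have := hpos s t
        rw [h] at this
        simp at this
    have hvs1 : ∀ s t, IsUnitVec (vs s t) := fun s t => isUnitVec_normalize (hne0 s t)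
    have hvsne : ∀ s t, vs s t ≠ -v t := by
      intro s t h
      have h2 := hpos s t
      set x := ((1 - cl s : ℝ) : ℂ) • v t + ((cl s : ℝ) : ℂ) • q (cl t) with hx
      have h3 : (star (v t) ⬝ᵥ vs s t).re = -1 := by
        rw [h, dotProduct_neg, show star (v t) ⬝ᵥ v t = 1 from hv1 t]; simp
      have h4 : 0 < (Real.sqrt (star x ⬝ᵥ x).re)⁻¹ :=
        inv_pos.2 (Real.sqrt_pos.2 (dot_self_re_pos (hne0 s t)))
      simp only [vs, normalize, ← hx, dotProduct_smul, smul_eq_mul, ← ofReal_inv,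
        re_ofReal_mul] at h3
      nlinarith
    have hvsc : Continuous fun x : ℝ × ℝ => vs x.1 x.2 := by
      refine continuous_normalize ?_ fun x => hne0 x.1 x.2
      have := hqs.continuous
      fun_prop
    have hvse : ∀ s, vs s 0 = e₀ ∧ vs s 1 = e₀ := fun s => by
      simp only [vs, hv0e, hv1e, hcl0, hcl1, hq0, hq1, ← add_smul]
      constructor <;> simp [normalize_of_isUnitVec isUnitVec_e₀]
    let A : ℝ → ℝ → Matrix (Fin (n + 2)) (Fin (n + 2)) ℂ := fun s t =>
      rot (v t) (vs s t) * γ (cl t)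
    have hAu : ∀ s t, A s t ∈ unitaryGroup (Fin (n + 2)) ℂ := fun s t =>
      Submonoid.mul_mem _ (rot_mem_unitaryGroup (hv1 t) (hvs1 s t) (hvsne s t)) (hγu _)
    have hAc : Continuous fun x : ℝ × ℝ => A x.1 x.2 :=
      (continuous_rot (hvc.comp continuous_snd) hvsc (fun x => hv1 x.2) (fun x => hvs1 x.1 x.2)
        fun x => hvsne x.1 x.2).matrix_mul (hγ.comp (hclc.comp continuous_snd))
    have hvs0 : ∀ t, vs 0 t = v t := fun t => by
      simp [vs, hcl0, normalize_of_isUnitVec (hv1 t)]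
    have hA0 : ∀ t ∈ Set.Icc (0 : ℝ) 1, A 0 t = γ t := fun t ht => by
      simp only [A, hvs0, rot_self (hv1 t), Matrix.one_mul, hclid t ht]
    have hAe : ∀ s, A s 0 = 1 ∧ A s 1 = 1 := fun s => by
      simp only [A, (hvse s).1, (hvse s).2, hv0e, hv1e, rot_self isUnitVec_e₀, hcl0, hcl1, hγ0,
        hγ1]
      simp
    let w : ℝ → Fin (n + 2) → ℂ := fun t => normalize (q (cl t))
    have hw : ∀ t, vs 1 t = w t := fun t => by simp [vs, w, hcl1]
    have hw1 : ∀ t, IsUnitVec (w t) := fun t => hw t ▸ hvs1 1 t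
    have hA1col : ∀ t, A 1 t *ᵥ e₀ = w t := fun t => by
      rw [← mulVec_mulVec]
      exact (rot_mulVec (hv1 t) (hvs1 1 t) (hvsne 1 t)).trans (hw t)
    have step₁ : Homotopic γ fun t => A 1 t :=
      ⟨A, hAc, hAu, hA0, fun t _ => rfl, hAe⟩
    -- second move: contract the column inside the sphere minus `p`
    let u : Fin (n + 2) → ℂ := -p
    have hu1 : IsUnitVec u := by simpa [IsUnitVec, u] using hp1
    have hwp : ∀ t, w t ≠ p := fun t h =>
      hpq (Real.sqrt (star (q (cl t)) ⬝ᵥ q (cl t)).re)⁻¹ (cl t)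
        (by rw [ofReal_inv]; exact h)
    have hnz : ∀ s t, ((1 - cl s : ℝ) : ℂ) • w t + ((cl s : ℝ) : ℂ) • u ≠ 0 ∧
        normalize (((1 - cl s : ℝ) : ℂ) • w t + ((cl s : ℝ) : ℂ) • u) ≠ -u := by
      intro s t
      have key : ∀ r : ℝ, 0 ≤ r →
          ((1 - cl s : ℝ) : ℂ) • w t + ((cl s : ℝ) : ℂ) • u ≠ (r : ℂ) • p := by
        intro r hr h
        have h1 : ((1 - cl s : ℝ) : ℂ) • w t = ((r + cl s : ℝ) : ℂ) • p := by
          rw [eq_sub_of_add_eq h]
          simp only [u, ofReal_add]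
          module
        have h2 := congrArg (fun x => (star x ⬝ᵥ x).re) h1
        simp only [star_smul, smul_dotProduct, dotProduct_smul,
          show star (w t) ⬝ᵥ w t = 1 from hw1 t, show star p ⬝ᵥ p = 1 from hp1] at h2
        simp at h2
        have h3 : 1 - cl s = r + cl s := by nlinarith [(hcl s).1, (hcl s).2]
        rw [h3] at h1
        have h4 : ((r + cl s : ℝ) : ℂ) ≠ 0 := ofReal_ne_zero.2 (by linarith [(hcl s).1])
        exact hwp t (smul_right_injective _ h4 h1)
      refine ⟨fun h => key 0 le_rfl (by simpa using h), fun h => ?_⟩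
      set x := ((1 - cl s : ℝ) : ℂ) • w t + ((cl s : ℝ) : ℂ) • u with hx
      have hx0 : x ≠ 0 := fun h => key 0 le_rfl (by simpa using h)
      have hs : (Real.sqrt (star x ⬝ᵥ x).re : ℂ) ≠ 0 :=
        ofReal_ne_zero.2 (Real.sqrt_pos.2 (dot_self_re_pos hx0)).ne'
      refine key _ (Real.sqrt_nonneg (star x ⬝ᵥ x).re) ?_
      rw [show p = normalize x by rw [h]; simp [u], normalize, smul_smul, mul_inv_cancel₀ hs,
        one_smul]
    let ws : ℝ → ℝ → Fin (n + 2) → ℂ := fun s t =>
      normalize (((1 - cl s : ℝ) : ℂ) • w t + ((cl s : ℝ) : ℂ) • u)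
    have hws1 : ∀ s t, IsUnitVec (ws s t) := fun s t => isUnitVec_normalize (hnz s t).1
    have hwsne : ∀ s t, ws s t ≠ -u := fun s t => (hnz s t).2
    have hwc : Continuous w :=
      continuous_normalize (hqs.continuous.comp hclc) fun t h => by
        have := hne0 1 t
        simp [hcl1, h] at this
    have hwsc : Continuous fun x : ℝ × ℝ => ws x.1 x.2 := by
      refine continuous_normalize ?_ fun x => (hnz x.1 x.2).1
      fun_prop
    let K : ℝ → ℝ → Matrix (Fin (n + 2)) (Fin (n + 2)) ℂ := fun s t => rot u (ws s t)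
    have hKu : ∀ s t, K s t ∈ unitaryGroup (Fin (n + 2)) ℂ := fun s t =>
      rot_mem_unitaryGroup hu1 (hws1 s t) (hwsne s t)
    have hKc : Continuous fun x : ℝ × ℝ => K x.1 x.2 :=
      continuous_rot continuous_const hwsc (fun _ => hu1) (fun x => hws1 x.1 x.2)
        fun x => hwsne x.1 x.2
    let B : ℝ → ℝ → Matrix (Fin (n + 2)) (Fin (n + 2)) ℂ := fun s t =>
      K 0 0 * star (K s 0) * (K s t * star (K 0 t) * A 1 t)
    have hBu : ∀ s t, B s t ∈ unitaryGroup (Fin (n + 2)) ℂ := fun s t =>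
      Submonoid.mul_mem _ (Submonoid.mul_mem _ (hKu _ _) (Unitary.star_mem (hKu _ _)))
        (Submonoid.mul_mem _ (Submonoid.mul_mem _ (hKu _ _) (Unitary.star_mem (hKu _ _)))
          (hAu _ _))
    have hBc : Continuous fun x : ℝ × ℝ => B x.1 x.2 := by
      have c1 : Continuous fun x : ℝ × ℝ => K x.1 0 :=
        hKc.comp (f := fun x : ℝ × ℝ => (x.1, (0 : ℝ))) (by fun_prop)
      have c2 : Continuous fun x : ℝ × ℝ => K 0 x.2 :=
        hKc.comp (f := fun x : ℝ × ℝ => ((0 : ℝ), x.2)) (by fun_prop)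
      have c3 : Continuous fun x : ℝ × ℝ => A 1 x.2 :=
        hAc.comp (f := fun x : ℝ × ℝ => ((1 : ℝ), x.2)) (by fun_prop)
      exact (continuous_const.matrix_mul c1.star).matrix_mul
        ((hKc.matrix_mul c2.star).matrix_mul c3)
    have hKK : ∀ s t, K s t * star (K s t) = 1 := fun s t => mem_unitaryGroup_iff.1 (hKu s t)
    have hKK' : ∀ s t, star (K s t) * K s t = 1 := fun s t => mem_unitaryGroup_iff'.1 (hKu s t)
    have hw0e : w 0 = e₀ ∧ w 1 = e₀ := ⟨(hw 0).symm.trans (hvse 1).1, (hw 1).symm.trans (hvse 1).2⟩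
    have hK10 : ∀ s, K s 1 = K s 0 := fun s => by simp only [K, ws, hw0e.1, hw0e.2]
    have hBe : ∀ s, B s 0 = 1 ∧ B s 1 = 1 := by
      intro s
      have h1 : K 0 0 * star (K s 0) * (K s 0 * star (K 0 0) * 1) = 1 := by
        rw [Matrix.mul_one, Matrix.mul_assoc, ← Matrix.mul_assoc (star (K s 0)), hKK',
          Matrix.one_mul, hKK]
      exact ⟨by simp only [B, (hAe 1).1]; exact h1,
        by simp only [B, (hAe 1).2, hK10]; exact h1⟩
    have hB0 : ∀ t ∈ Set.Icc (0 : ℝ) 1, B 0 t = A 1 t := fun t _ => by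
      simp only [B, hKK, Matrix.one_mul]
    have step₂ : Homotopic (fun t => A 1 t) fun t => B 1 t :=
      ⟨B, hBc, hBu, hB0, fun t _ => rfl, hBe⟩
    -- the new loop fixes the first basis vector
    have hK1 : ∀ t, K 1 t = K 1 0 := fun t => by simp [K, ws, hcl1]
    have hws0 : ∀ t, ws 0 t = w t := fun t => by
      simp [ws, hcl0, normalize_of_isUnitVec (hw1 t)]
    have hB1 : ∀ t, B 1 t = K 0 0 * (star (K 0 t) * A 1 t) := fun t => by
      simp only [B, hK1 t]
      rw [Matrix.mul_assoc (K 0 0), Matrix.mul_assoc (K 1 0), ← Matrix.mul_assoc (star (K 1 0)),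
        hKK', Matrix.one_mul]
    have hfix : ∀ t, B 1 t *ᵥ e₀ = e₀ := by
      intro t
      rw [hB1, ← mulVec_mulVec, ← mulVec_mulVec, hA1col, ← hws0 t]
      rw [← rot_mulVec hu1 (hws1 0 t) (hwsne 0 t)]
      rw [mulVec_mulVec _ (star (K 0 t)), hKK', one_mulVec,
        show K 0 0 *ᵥ u = ws 0 0 from rot_mulVec hu1 (hws1 0 0) (hwsne 0 0), hws0, hw0e.1]
    choose M hMu hMB hMsub using fun t => eq_corner_of_mulVec (hBu 1 t) (hfix t)
    let φ : ℝ → ℝ := fun t => 2 * (1 + star (v t) ⬝ᵥ vs 1 t).arg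
    let ψ : ℝ → ℝ := fun t => 2 * (1 + star u ⬝ᵥ ws 0 t).arg
    have hMc : Continuous M := by
      have hc : Continuous fun t => B 1 t :=
        hBc.comp (f := fun t : ℝ => ((1 : ℝ), t)) (by fun_prop)
      have e : M = fun t => (B 1 t).submatrix Fin.succ Fin.succ := funext hMsub
      rw [e]
      exact hc.matrix_submatrix _ _
    have hM0 : ∀ t, B 1 t = 1 → M t = 1 := fun t h => by
      rw [hMsub t, h]; exact submatrix_one _ (Fin.succ_injective _)
    have hdetM : ∀ t ∈ Set.Icc (0 : ℝ) 1,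
        (M t).det = exp ((ψ 0 + (φ t + θ t - ψ t) : ℝ) * I) := by
      intro t ht
      rw [← det_corner, ← hMB, hB1, det_mul, det_mul, star_eq_conjTranspose, det_conjTranspose]
      simp only [K, A, det_mul]
      rw [det_rot hu1 (hws1 0 0) (hwsne 0 0), det_rot hu1 (hws1 0 t) (hwsne 0 t),
        det_rot (hv1 t) (hvs1 1 t) (hvsne 1 t), hclid t ht, hdet t ht]
      simp only [star_def, ← Complex.exp_conj, map_mul, conj_ofReal, conj_I, ← Complex.exp_add, φ, ψ]
      congr 1
      push_cast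
      ring
    have hψc : Continuous ψ := by
      refine continuous_const.mul (continuous_arg_rot continuous_const ?_ (fun _ => hu1)
        (hws1 0) (hwsne 0))
      exact hwsc.comp (f := fun t : ℝ => ((0 : ℝ), t)) (by fun_prop)
    have hφc : Continuous φ := by
      refine continuous_const.mul (continuous_arg_rot hvc ?_ hv1 (hvs1 1) (hvsne 1))
      exact hvsc.comp (f := fun t : ℝ => ((1 : ℝ), t)) (by fun_prop)
    obtain ⟨H, Hc, Hu, H0, H1, He⟩ := ih M hMc hMu (hM0 0 (hBe 1).1) (hM0 1 (hBe 1).2)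
      (fun t => ψ 0 + (φ t + θ t - ψ t)) (by fun_prop)
      (by simp only [φ, ψ, hvse, hv0e, hv1e, hθe, hws0, hw0e.1, hw0e.2]) hdetM
    refine step₁.trans (step₂.trans ⟨fun s t => corner (H s t), continuous_corner Hc,
      fun s t => corner_mem_unitaryGroup (Hu s t), fun t ht => ?_, fun t ht => ?_, fun s => ?_⟩)
    · simp only
      rw [H0 t ht, ← hMB]
    · simp only
      rw [H1 t ht, corner_one]
    · simp only
      rw [(He s).1, (He s).2, corner_one]
      exact ⟨rfl, rfl⟩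

end Vale.Agent.P101.UnitaryLoop
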